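import Vale.Agent.P240.Group

/-!
# Robinson subgroups and classical components: definitions
-/

open Matrix

noncomputable section

namespace Vale.Agent.P240

/-- A finite group has an `r`-subgroup which normalises no nontrivial elementary abelian
`p`-subgroup and which is fixed pointwise by no automorphism of order `p`. -/
def HasRobinson (p r : ℕ) (A : Type*) [Group A] : Prop :=
  ∃ Q : Subgroup A, Q ≠ ⊥ ∧ IsPGroup r Q ∧
    (∀ W : Subgroup A, IsElem p W → (∀ q ∈ Q, ∀ w ∈ W, q * w * q⁻¹ ∈ W) → W = ⊥) ∧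
    ∀ α : MulAut A, α ^ p = 1 → (∀ q ∈ Q, α q = q) → α = 1

/-- The antidiagonal Gram matrix. -/
def Unitary.gram (m : ℕ) (F : Type*) [Field F] : Matrix (Fin (m + 2)) (Fin (m + 2)) F :=
  Matrix.of fun i j => if j = i.rev then 1 else 0

/-- The conjugate transpose with respect to `σ`. -/
def Unitary.star' {m : ℕ} {F : Type*} [Field F] (σ : F ≃+* F)
    (M : Matrix (Fin (m + 2)) (Fin (m + 2)) F) : Matrix (Fin (m + 2)) (Fin (m + 2)) F :=
  (M.map σ)ᵀ

theorem Unitary.star'_mul {m : ℕ} {F : Type*} [Field F] (σ : F ≃+* F)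
    (M N : Matrix (Fin (m + 2)) (Fin (m + 2)) F) :
    Unitary.star' σ (M * N) = Unitary.star' σ N * Unitary.star' σ M := by
  rw [Unitary.star', Unitary.star', Unitary.star', ← Matrix.transpose_mul]
  congr 1
  ext i j
  simp [Matrix.mul_apply, map_sum]

/-- The special unitary group of the antidiagonal hermitian form with respect to `σ`. -/
def Unitary.SUG (m : ℕ) {F : Type*} [Field F] (σ : F ≃+* F) :
    Subgroup (SpecialLinearGroup (Fin (m + 2)) F) where
  carrier := {g : SpecialLinearGroup (Fin (m + 2)) F |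
    Unitary.star' σ g.1 * Unitary.gram m F * g.1 = Unitary.gram m F}
  one_mem' := by
    show Unitary.star' σ _ * Unitary.gram m F * _ = _
    simp [Unitary.star', Matrix.map_one]
  mul_mem' := fun {a b} ha hb => by
    show Unitary.star' σ (a.1 * b.1) * Unitary.gram m F * (a.1 * b.1) = _
    rw [Unitary.star'_mul]
    calc Unitary.star' σ b.1 * Unitary.star' σ a.1 * Unitary.gram m F * (a.1 * b.1)
        = Unitary.star' σ b.1 * (Unitary.star' σ a.1 * Unitary.gram m F * a.1) * b.1 := by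
          simp only [Matrix.mul_assoc]
      _ = Unitary.gram m F := by rw [ha]; exact hb
  inv_mem' := fun {a} ha => by
    have h : a.1 * (a⁻¹).1 = 1 := by
      show SpecialLinearGroup.coeMonoidHom a * SpecialLinearGroup.coeMonoidHom a⁻¹ = 1
      rw [← map_mul, mul_inv_cancel, map_one]
    show Unitary.star' σ (a⁻¹).1 * Unitary.gram m F * (a⁻¹).1 = _
    calc Unitary.star' σ (a⁻¹).1 * Unitary.gram m F * (a⁻¹).1
        = Unitary.star' σ (a⁻¹).1 * (Unitary.star' σ a.1 * Unitary.gram m F * a.1) *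
            (a⁻¹).1 := by rw [ha]
      _ = Unitary.star' σ (a.1 * (a⁻¹).1) * Unitary.gram m F * (a.1 * (a⁻¹).1) := by
          rw [Unitary.star'_mul]; simp only [Matrix.mul_assoc]
      _ = Unitary.gram m F := by
          rw [h, Matrix.mul_one]
          simp [Unitary.star', Matrix.map_one]

/-- `SU(m + 2, F, σ)` as a type. -/
def UnitaryGrp (m : ℕ) {F : Type} [Field F] (σ : F ≃+* F) : Type := Unitary.SUG m σ

instance UnitaryGrp.instGroup (m : ℕ) {F : Type} [Field F] (σ : F ≃+* F) :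
    Group (UnitaryGrp m σ) :=
  Subgroup.toGroup (Unitary.SUG m σ)

/-- `Sp(2 n, F)` as a type: Mathlib's `Matrix.symplecticGroup`. -/
def SymplecticGrp (n : ℕ) (F : Type) [Field F] : Type := Matrix.symplecticGroup (Fin n) F

instance SymplecticGrp.instGroup (n : ℕ) (F : Type) [Field F] : Group (SymplecticGrp n F) :=
  (inferInstance : Group (Matrix.symplecticGroup (Fin n) F))

namespace Orthogonal

variable {ι : Type*} [Fintype ι] [DecidableEq ι] {F : Type*} [Field F]

/-- The coordinates: a hyperbolic pair and the coordinates of the middle space. -/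
abbrev Ix (ι : Type*) := Fin 2 ⊕ ι

/-- The Gram matrix of the sum of a hyperbolic plane and the space of `M`. -/
def gram (M : Matrix ι ι F) : Matrix (Ix ι) (Ix ι) F := Matrix.fromBlocks !![0, 1; 1, 0] 0 0 M

/-- The bilinear form. -/
def bf (M : Matrix ι ι F) (x y : Ix ι → F) : F := x ⬝ᵥ (gram M *ᵥ y)

/-- The special linear group on the coordinates. -/
abbrev SLI (ι : Type*) [Fintype ι] [DecidableEq ι] (F : Type*) [Field F] :=
  Matrix.SpecialLinearGroup (Ix ι) F

/-- The action on column vectors. -/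
def mvs (g : SLI ι F) (x : Ix ι → F) : Ix ι → F := (g : Matrix (Ix ι) (Ix ι) F) *ᵥ x

theorem mvs_mul (g h : SLI ι F) (x : Ix ι → F) : mvs (g * h) x = mvs g (mvs h x) := by
  simp [mvs, Matrix.mulVec_mulVec]

theorem mvs_one (x : Ix ι → F) : mvs (1 : SLI ι F) x = x := by simp [mvs]

/-- The special orthogonal group. -/
def SO (M : Matrix ι ι F) : Subgroup (SLI ι F) where
  carrier := {g | ∀ x y, bf M (mvs g x) (mvs g y) = bf M x y}
  one_mem' := fun x y => by rw [mvs_one, mvs_one]
  mul_mem' := fun {a b} ha hb x y => by rw [mvs_mul, mvs_mul, ha, hb]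
  inv_mem' := fun {a} ha x y => by
    rw [← ha (mvs a⁻¹ x) (mvs a⁻¹ y), ← mvs_mul, ← mvs_mul, mul_inv_cancel, mvs_one, mvs_one]

/-- The commutator subgroup of the special orthogonal group. -/
def Om (M : Matrix ι ι F) : Subgroup (SLI ι F) := ⁅SO M, SO M⁆

end Orthogonal

/-- `Ω(n + 2, F)` of the orthogonal sum of a hyperbolic plane and the space of `M`, as a type. -/
def OrthogonalGrp (n : ℕ) {F : Type} [Field F] (M : Matrix (Fin n) (Fin n) F) : Type :=
  Orthogonal.Om M

instance OrthogonalGrp.instGroup (n : ℕ) {F : Type} [Field F] (M : Matrix (Fin n) (Fin n) F) :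
    Group (OrthogonalGrp n M) :=
  Subgroup.toGroup (Orthogonal.Om M)

/-- `A` is `PSL(m + 2, F)`, `F` finite of characteristic `r`, with `3 < |F|`, or `p = 2` and
`1 ≤ m`. -/
def IsLinearComponent (p r : ℕ) (A : Type) [Group A] : Prop :=
  ∃ (F : Type) (_ : Field F) (_ : Finite F) (m : ℕ), CharP F r ∧
    (3 < Nat.card F ∨ p = 2 ∧ 1 ≤ m) ∧
    Nonempty (A ≃* Matrix.ProjectiveSpecialLinearGroup (Fin (m + 2)) F)

/-- `A` is `PSp(2 (m + 2), F)`, `F` finite of characteristic `r`, with `3 < |F|` or `p = 2`. -/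
def IsSymplecticComponent (p r : ℕ) (A : Type) [Group A] : Prop :=
  ∃ (F : Type) (_ : Field F) (_ : Finite F) (m : ℕ), CharP F r ∧ (3 < Nat.card F ∨ p = 2) ∧
    Nonempty (A ≃* SymplecticGrp (m + 2) F ⧸ Subgroup.center (SymplecticGrp (m + 2) F))

/-- `A` is `PSU(m + 2, F, σ)` with `1 ≤ m`, `F` finite of characteristic `r`, `σ` an involution
with more than three fixed points or `p = 2`. -/
def IsUnitaryComponent (p r : ℕ) (A : Type) [Group A] : Prop :=
  ∃ (F : Type) (_ : Field F) (_ : Finite F) (m : ℕ) (σ : F ≃+* F), CharP F r ∧ 1 ≤ m ∧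
    (∀ x, σ (σ x) = x) ∧ (∃ x, σ x ≠ x) ∧ (3 < Nat.card {x : F // σ x = x} ∨ p = 2) ∧
    Nonempty (A ≃* UnitaryGrp m σ ⧸ Subgroup.center (UnitaryGrp m σ))

/-- `A` is `PΩ(n + 2, F)` for a symmetric nondegenerate form of Witt index at least two, written
as the orthogonal sum of a hyperbolic plane and an isotropic space with Gram matrix `M`. -/
def IsOrthogonalComponent (p r : ℕ) (A : Type) [Group A] : Prop :=
  ∃ (F : Type) (_ : Field F) (_ : Finite F) (n : ℕ) (M : Matrix (Fin n) (Fin n) F), CharP F r ∧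
    M.IsSymm ∧ M.det ≠ 0 ∧ (∃ a : Fin n → F, a ≠ 0 ∧ a ⬝ᵥ (M *ᵥ a) = 0) ∧
    (3 < Nat.card F ∨ p = 2 ∧ 3 ≤ n) ∧
    Nonempty (A ≃* OrthogonalGrp n M ⧸ Subgroup.center (OrthogonalGrp n M))

end Vale.Agent.P240
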