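import Vale.Agent.P240.Reduce
import Vale.Agent.P240.Robinson.Defs

/-!
# Components with a Robinson subgroup for a prime `r ≠ p`
-/

set_option linter.unusedSectionVars false

open scoped Classical

noncomputable section

namespace Vale.Agent.P240

namespace CompSys

variable {X : Type*} [Group X] [Finite X] {K : Subgroup X} {ι : Type*} [Fintype ι]
  {A : ι → Type*} [∀ i, Group (A i)] [∀ i, Finite (A i)] (S : CompSys K A)
  {p r : ℕ} [Fact p.Prime] [Fact r.Prime]

include S in
/-- With Robinson subgroups in all factors some link above a subgroup meeting `K` trivially is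
not acyclic. -/
theorem exists_link_of_robinson (hR : ∀ i, HasRobinson p r (A i)) :
    ∃ B : Subgroup X, IsElem p B ∧ B ⊓ K = ⊥ ∧ HasReducedHomology ℂ (Lk p B) := by
  let : Fintype (Subgroup X) := Fintype.ofFinite _
  choose Q hQne hQr hQinv hQaut using hR
  set P : Subgroup X := (Subgroup.pi Set.univ Q).map S.φ with hP
  set Cn : Subgroup X := Subgroup.centralizer (S.φ.range : Set X) with hCn
  obtain ⟨C, ⟨hCel, hCle⟩, hmax⟩ :=
    (Set.toFinite {E : Subgroup X | IsElem p E ∧ E ≤ Cn}).exists_maximal
      ⟨⊥, isElem_bot, bot_le⟩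
  refine ⟨C, hCel, ?_, ?_⟩
  · rw [Subgroup.eq_bot_iff_forall]
    rintro c ⟨hc, hcK⟩
    exact S.cent c hcK fun a => (Subgroup.mem_centralizer_iff.1 (hCle hc) _ ⟨a, rfl⟩).symm
  by_contra hno
  rw [hasReducedHomology_iff] at hno
  push Not at hno
  have hQP : ∀ i, ∀ q ∈ Q i, S.j i q ∈ P := by
    intro i q hq
    refine ⟨Pi.mulSingle i q, Subgroup.mem_pi _ |>.2 fun l _ => ?_, rfl⟩
    by_cases hl : l = i
    · subst hl; simpa using hq
    · simp [hl]
  have hPfix : ∀ q ∈ P, cj q C = C := by
    rintro q ⟨f, -, rfl⟩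
    exact cj_of_centralizes fun c hc => Subgroup.mem_centralizer_iff.1 (hCle hc) _ ⟨f, rfl⟩
  have h0 : Chi (Lk p C) = 0 := by
    have h := chi_fixed_eq_zero (k := ℂ) hno (OrderIso.refl _) fun E => Iff.rfl
    simpa using h
  let : MulAction P (Subgroup X) :=
    { smul := fun q E => cj (q : X) E
      one_smul := fun E => cj_one E
      mul_smul := fun q q' E => cj_mul (q : X) (q' : X) E }
  have hPr : IsPGroup r P := by
    refine IsPGroup.map ?_ S.φ
    intro f
    choose k hk using fun i => hQr i ⟨(f : Π i, A i) i, (Subgroup.mem_pi _).1 f.2 i trivial⟩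
    refine ⟨Finset.univ.sup k, Subtype.ext (funext fun i => ?_)⟩
    obtain ⟨d, hd⟩ := Nat.exists_eq_add_of_le (Finset.le_sup (f := k) (Finset.mem_univ i))
    have h1 : ((f : Π i, A i) i) ^ r ^ k i = 1 := by simpa using congrArg Subtype.val (hk i)
    simp [hd, pow_add, pow_mul, h1]
  have hcong := chi_modEq_fixed hPr (U := Lk p C)
    (fun q a b h => (cj (q : X)).monotone h)
    (fun q a ha => ⟨ha.1.cj _, lt_of_eq_of_lt (hPfix q q.2).symm
      ((cj (q : X)).strictMono ha.2)⟩)
  have hempty : {E | E ∈ Lk p C ∧ ∀ q : P, q • E = E} = (∅ : Set (Subgroup X)) := by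
    rw [Set.eq_empty_iff_forall_notMem]
    rintro E ⟨⟨hE, hCE⟩, hfix⟩
    have hfix' : ∀ q ∈ P, ∀ e ∈ E, q * e * q⁻¹ ∈ E := fun q hq e he => by
      rw [← show cj q E = E from hfix ⟨q, hq⟩, mem_cj]
      simpa [mul_assoc] using he
    -- the intersection with the product of the factors is trivial
    have hER : ∀ y ∈ E, y ∈ S.φ.range → y = 1 := by
      rintro _ hy ⟨f, rfl⟩
      suffices f = 1 by rw [this, map_one]
      funext i
      set W : Subgroup (A i) := (E.comap S.φ).map (Pi.evalMonoidHom A i) with hW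
      have hWel : IsElem p W := by
        refine ⟨?_, ?_⟩
        · rintro _ ⟨g, hg, rfl⟩ _ ⟨g', hg', rfl⟩
          have := hE.1 _ hg _ hg'
          rw [← map_mul, ← map_mul] at this
          exact congrFun (S.inj this) i
        · rintro _ ⟨g, hg, rfl⟩
          have := hE.2 _ hg
          rw [← map_pow, ← S.φ.map_one] at this
          exact congrFun (S.inj this) i
      have hinv : ∀ q ∈ Q i, ∀ w ∈ W, q * w * q⁻¹ ∈ W := by
        rintro q hq _ ⟨g, hg, rfl⟩
        refine ⟨Pi.mulSingle i q * g * (Pi.mulSingle i q)⁻¹, ?_, by simp⟩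
        show S.φ _ ∈ E
        rw [map_mul, map_mul, map_inv]
        exact hfix' _ (hQP i q hq) _ hg
      have hb := hQinv i W hWel hinv
      have hm : f i ∈ W := ⟨f, hy, rfl⟩
      rw [hb, Subgroup.mem_bot] at hm
      exact hm
    have hcomm : ∀ e ∈ E, ∀ q ∈ P, e * q = q * e := by
      intro e he q hq
      have h1 := hER _ (E.mul_mem (hfix' q hq e he) (E.inv_mem he)) (by
        rw [show q * e * q⁻¹ * e⁻¹ = q * (e * q⁻¹ * e⁻¹) by group]
        exact S.φ.range.mul_mem (Subgroup.map_le_range _ _ hq)
          (S.norm.conj_mem _ (S.φ.range.inv_mem (Subgroup.map_le_range _ _ hq)) e))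
      rw [mul_inv_eq_one, mul_inv_eq_iff_eq_mul] at h1
      exact h1.symm
    have hle : E ≤ Cn := by
      intro e he
      have hcen : ∀ i, S.Cen e i := by
        intro i
        obtain ⟨q, hq, hq1⟩ :=
          (Subgroup.bot_or_exists_ne_one (Q i)).resolve_left (hQne i)
        obtain ⟨l, hl⟩ := S.exists_perm e i
        have hF : S.Fix e i := by
          have hmem : S.j i q ∈ cj e (S.L i) := by
            rw [mem_cj, mul_assoc, ← hcomm e he _ (hQP i q hq), ← mul_assoc, inv_mul_cancel,
              one_mul]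
            exact ⟨q, rfl⟩
          rw [hl] at hmem
          rw [Fix, hl, S.L_disjoint hq1 hmem]
        refine (S.aut_eq_one_iff hF).1 (hQaut i _ ?_ ?_)
        · have hpow : ∀ n : ℕ, ∀ a, S.j i (((S.aut hF) ^ n) a) = e ^ n * S.j i a * (e ^ n)⁻¹ := by
            intro n
            induction n with
            | zero => intro a; simp
            | succ n ih =>
              intro a
              rw [pow_succ', MulAut.mul_apply, ← S.aut_spec hF, ih, pow_succ', mul_inv_rev]
              simp only [mul_assoc]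
          refine MulEquiv.ext fun a => S.j_inj i ?_
          rw [hpow p a, hE.2 e he]
          simp
        · intro a ha
          apply S.j_inj i
          rw [← S.aut_spec hF, hcomm e he _ (hQP i a ha), mul_assoc, mul_inv_cancel, mul_one]
      rw [hCn, Subgroup.mem_centralizer_iff]
      rintro _ ⟨f, rfl⟩
      exact (S.commute_phi f fun i => hcen i (f i)).symm
    exact not_le_of_gt hCE (hmax ⟨hE, hle⟩ hCE.le)
  rw [h0, hempty] at hcong
  have h1 : Chi (∅ : Set (Subgroup X)) = 1 := by
    rw [Chi, show allChains (∅ : Set (Subgroup X)) = {∅} by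
      ext s
      rw [mem_allChains, Finset.mem_singleton]
      refine ⟨fun h => ?_, fun h => by subst h; simp [IsChain, Set.Pairwise]⟩
      ext a
      simpa using fun ha => h.2 ha]
    simp
  rw [h1] at hcong
  simp at hcong

end CompSys

end Vale.Agent.P240
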