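import Vale.Agent.P240.Robinson.Link

/-!
# The solvable radical, for Robinson components at any prime
-/

set_option linter.unusedSectionVars false

open scoped Classical commutatorElement
open IsMulCommutative

noncomputable section

namespace Vale.Agent.P240

/-- In every system with some of the factors, some link above a subgroup meeting `K` trivially is
not rationally acyclic. -/
def HasLinks (p : ℕ) {ι : Type} (A : ι → Type) [∀ i, Group (A i)] : Prop :=
  ∀ (I : Finset ι) (X : Type) [Group X] [Finite X] (K : Subgroup X),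
    CompSys K (fun i : I => A i) →
      ∃ B : Subgroup X, IsElem p B ∧ B ⊓ K = ⊥ ∧ HasReducedHomology ℂ (Lk p B)

section
variable {G : Type*} [Group G]

/-- A class two normal subgroup has order prime to `p` when there are
no normal `p`-subgroups. -/
theorem ClassTwo.coprime [Finite G] {p : ℕ} [Fact p.Prime] {W : Subgroup G} [W.Normal] (hW : ClassTwo W)
    (hO2 : ∀ N : Subgroup G, N.Normal → IsPGroup p N → N = ⊥) : ¬ p ∣ Nat.card W := by
  have hnil : Group.IsNilpotent W := by
    refine Group.of_quotient_center_nilpotent ?_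
    have hc : ∀ a b : W ⧸ Subgroup.center W, a * b = b * a := by
      intro a b
      induction a using QuotientGroup.induction_on with
      | _ a =>
      induction b using QuotientGroup.induction_on with
      | _ b =>
      rw [← QuotientGroup.mk_mul, ← QuotientGroup.mk_mul, QuotientGroup.eq]
      rw [Subgroup.mem_center_iff]
      intro c
      have h := hW _ (b⁻¹ : W).2 _ (a⁻¹ : W).2 c c.2
      apply Subtype.ext
      simpa [mul_assoc] using h.symm
    let : CommGroup (W ⧸ Subgroup.center W) :=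
      { (inferInstance : Group (W ⧸ Subgroup.center W)) with mul_comm := hc }
    exact CommGroup.isNilpotent
  obtain ⟨P⟩ : Nonempty (Sylow p W) := inferInstance
  have hPn : (P : Subgroup W).Normal := inferInstance
  have hPc : (P : Subgroup W).Characteristic := P.characteristic_of_normal hPn
  have hbot : (P : Subgroup W).map W.subtype = ⊥ :=
    hO2 _ inferInstance (P.isPGroup'.map W.subtype)
  intro hd
  have hP1 : (P : Subgroup W) = ⊥ := (Subgroup.map_eq_bot_iff_of_injective _ W.subtype_injective).1 hbot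
  obtain ⟨x, hx⟩ := exists_prime_orderOf_dvd_card' p hd
  have hz : IsPGroup p (Subgroup.zpowers x) :=
    IsPGroup.of_card (n := 1) (by rw [Nat.card_zpowers, hx, pow_one])
  obtain ⟨Q, hQ⟩ := hz.exists_le_sylow
  have hQP : (Q : Subgroup W) = P := by
    obtain ⟨g, hg⟩ := MulAction.exists_smul_eq W P Q
    rw [← hg, Sylow.smul_eq_of_normal]
  rw [hQP, hP1, le_bot_iff, Subgroup.zpowers_eq_bot] at hQ
  rw [hQ, orderOf_one] at hx
  exact (Fact.out : p.Prime).ne_one hx.symm

end

section
variable {Γ : Type} [Group Γ] {ι : Type} [Fintype ι] {A : ι → Type} [∀ i, Group (A i)]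
  (φ : (Π i, A i) →* Γ) (hinj : Function.Injective φ) (hnorm : φ.range.Normal)
  (hcent : Subgroup.centralizer (φ.range : Set Γ) = ⊥)
  (hsimple : ∀ i, IsSimpleGroup (A i))
  (hcenter : ∀ i, ∀ a : A i, (∀ b, a * b = b * a) → a = 1)

variable [∀ i, Finite (A i)] {p : ℕ} [Fact p.Prime] (hR : HasLinks p A)

include hinj hnorm hcent hsimple hcenter hR in
/-- The case of an abelian self-centralising normal subgroup. -/
theorem hasReducedHomology_abelian_of_links {G : Type} [Group G] [Finite G] (π : G →* Γ)
    (hπ : Function.Surjective π) (V : Subgroup G) [V.Normal] [IsMulCommutative V]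
    (hV : (Nat.card V).Coprime p) (hVS : V ≤ π.ker)
    (hself : Subgroup.centralizer (V : Set G) ⊓ π.ker ≤ V) :
    HasReducedHomology ℂ (elemAbelianSubgroups p G) := by
  have hp : p.Prime := Fact.out
  set f := QuotientGroup.mk' V with hf
  let pb : G ⧸ V →* Γ := QuotientGroup.lift V π hVS
  have hpb : ∀ g, pb (f g) = π g := fun g => rfl
  have hpbs : Function.Surjective pb := fun y => by
    obtain ⟨g, rfl⟩ := hπ y; exact ⟨f g, rfl⟩
  set K : Subgroup (G ⧸ V) := (Subgroup.centralizer (V : Set G)).map f with hK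
  have hKn : K.Normal := Subgroup.Normal.map inferInstance f (QuotientGroup.mk'_surjective V)
  have hKinj : ∀ k ∈ K, pb k = 1 → k = 1 := by
    rintro _ ⟨c, hc, rfl⟩ h
    rw [hpb] at h
    exact (QuotientGroup.eq_one_iff c).2 (hself ⟨hc, h⟩)
  set Kb : Subgroup Γ := K.map pb with hKb
  have hKbn : Kb.Normal := hKn.map pb hpbs
  let I : Finset ι := Finset.univ.filter fun i => (fac φ i).range ≤ Kb
  let ext' : (Π i : I, A i) →* Π i, A i :=
    { toFun := fun a i => if h : i ∈ I then a ⟨i, h⟩ else 1
      map_one' := by funext i; by_cases h : i ∈ I <;> simp [h]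
      map_mul' := fun a b => by funext i; by_cases h : i ∈ I <;> simp [h] }
  let ψ : (Π i : I, A i) →* Γ := φ.comp ext'
  have hext : ∀ (a : Π i : I, A i) (i : I), ext' a i = a i := fun a i => by
    show (if h : (i : ι) ∈ I then a ⟨i, h⟩ else 1) = a i
    rw [dif_pos i.2]
  have hψinj : Function.Injective ψ := fun a b h => funext fun i => by
    rw [← hext a i, ← hext b i, hinj (show φ (ext' a) = φ (ext' b) from h)]
  have hψrange : ψ.range = Kb ⊓ φ.range := by
    refine le_antisymm ?_ ?_
    · rintro _ ⟨a, rfl⟩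
      refine ⟨?_, ⟨ext' a, rfl⟩⟩
      show ext' a ∈ Kb.comap φ
      refine Subgroup.pi_mem_of_mulSingle_mem _ fun i => ?_
      by_cases h : i ∈ I
      · exact (Finset.mem_filter.1 h).2 ⟨ext' a i, rfl⟩
      · show φ (Pi.mulSingle i (if h : i ∈ I then a ⟨i, h⟩ else 1)) ∈ Kb
        rw [dif_neg h, Pi.mulSingle_one, map_one]
        exact Kb.one_mem
    · rintro _ ⟨hg, g, rfl⟩
      refine ⟨fun i => g i, congrArg φ (funext fun i => ?_)⟩
      show (if h : i ∈ I then g i else 1) = g i
      split_ifs with h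
      · rfl
      · by_contra hne
        exact h (Finset.mem_filter.2
          ⟨Finset.mem_univ _, fac_le φ hnorm hsimple hcenter hKbn hg (Ne.symm hne)⟩)
  have hψn : ψ.range.Normal := by rw [hψrange]; exact inferInstance
  have hlift : ∀ a, ∃ k ∈ K, pb k = ψ a := fun a => by
    have h : ψ a ∈ Kb := (hψrange ▸ (⟨a, rfl⟩ : ψ a ∈ ψ.range) : ψ a ∈ Kb ⊓ φ.range).1
    exact h
  choose φ' hφK hφ using hlift
  have huniq : ∀ k ∈ K, ∀ k' ∈ K, pb k = pb k' → k = k' := fun k hk k' hk' h =>
    eq_of_mul_inv_eq_one (hKinj _ (K.mul_mem hk (K.inv_mem hk'))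
      (by rw [map_mul, map_inv, h, mul_inv_cancel]))
  let Φ : (Π i : I, A i) →* G ⧸ V :=
    MonoidHom.mk' φ' fun a b => huniq _ (hφK _) _ (K.mul_mem (hφK a) (hφK b))
      (by rw [map_mul, hφ, hφ, hφ, map_mul])
  have hΦrange : Φ.range = K ⊓ ψ.range.comap pb := by
    ext x
    constructor
    · rintro ⟨a, rfl⟩; exact ⟨hφK a, ⟨a, (hφ a).symm⟩⟩
    · rintro ⟨hx, a, ha⟩; exact ⟨a, huniq _ (hφK a) _ hx ((hφ a).trans ha)⟩
  have S : CompSys K (fun i : I => A i) :=
    { φ := Φ
      inj := fun a b h => hψinj (by rw [← hφ a, ← hφ b]; exact congrArg pb h)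
      le := by rw [hΦrange]; exact inf_le_left
      norm := by
        have : (ψ.range.comap pb).Normal := hψn.comap pb
        rw [hΦrange]; exact inferInstance
      normK := hKn
      cent := by
        intro k hk hcomm
        refine hKinj k hk ?_
        have hkψ : ∀ x ∈ ψ.range, pb k * x = x * pb k := by
          rintro _ ⟨a, rfl⟩
          rw [← hφ a, ← map_mul, ← map_mul]
          exact congrArg pb (hcomm a)
        have hkb : pb k ∈ Kb := ⟨k, hk, rfl⟩
        rw [← Subgroup.mem_bot, ← hcent]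
        have hle : φ.range ≤ Subgroup.centralizer {pb k} := by
          rintro _ ⟨f, rfl⟩
          show f ∈ (Subgroup.centralizer {pb k}).comap φ
          refine Subgroup.pi_mem_of_mulSingle_mem _ fun i => ?_
          show φ (Pi.mulSingle i (f i)) ∈ Subgroup.centralizer {pb k}
          rw [Subgroup.mem_centralizer_singleton_iff]
          set l := φ (Pi.mulSingle i (f i)) with hl
          by_cases hI : i ∈ I
          · exact (hkψ l (hψrange ▸ ⟨(Finset.mem_filter.1 hI).2 ⟨f i, rfl⟩, _, rfl⟩)).symm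
          have hc : pb k * l * (pb k)⁻¹ * l⁻¹ ∈ ψ.range := by
            rw [hψrange]
            refine ⟨?_, φ.range.mul_mem (hnorm.conj_mem l ⟨_, rfl⟩ _) (φ.range.inv_mem ⟨_, rfl⟩)⟩
            rw [show pb k * l * (pb k)⁻¹ * l⁻¹ = pb k * (l * (pb k)⁻¹ * l⁻¹) by group]
            exact Kb.mul_mem hkb (hKbn.conj_mem _ (Kb.inv_mem hkb) l)
          obtain ⟨a, ha⟩ := hc
          have hlψ : ∀ x ∈ ψ.range, l * x = x * l := by
            rintro _ ⟨b, rfl⟩
            show φ _ * φ (ext' b) = φ (ext' b) * φ _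
            rw [← map_mul, ← map_mul]
            congr 1
            funext j
            by_cases hj : j = i
            · subst hj
              have : ext' b j = 1 := dif_neg hI
              simp [this]
            · simp [hj]
          have ha1 : a = 1 := by
            refine pi_center (A := fun i : I => A i) (fun i => hcenter i) a fun b => hψinj ?_
            rw [map_mul, map_mul, ha]
            have h1 : Commute (pb k) (ψ b) := hkψ _ ⟨b, rfl⟩
            have h2 : Commute l (ψ b) := hlψ _ ⟨b, rfl⟩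
            exact (((h1.mul_left h2).mul_left h1.inv_left).mul_left h2.inv_left).eq
          rw [ha1, map_one, eq_comm, mul_inv_eq_one, mul_inv_eq_iff_eq_mul] at ha
          exact ha.symm
        rw [Subgroup.mem_centralizer_iff]
        exact fun x hx => Subgroup.mem_centralizer_singleton_iff.1 (hle hx)
      center := fun i => hcenter i
      simple := fun i => hsimple i }
  let : Fintype (Subgroup (G ⧸ V)) := Fintype.ofFinite _
  obtain ⟨B, hB, hBK, hhom⟩ := hR I _ K S
  obtain ⟨E, hE, -, hEB⟩ := exists_lift hV hB (IsPGroup.of_bot (p := p)) (by simp)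
  refine hasReducedHomology_of_link hV hE (fun d hd hc => ?_) (hEB.symm ▸ hhom)
  have hdC : d ∈ Subgroup.centralizer (V : Set G) :=
    Subgroup.mem_centralizer_iff.2 fun v hv => (hc ⟨v, hv⟩).symm
  have h1 : f d ∈ B ⊓ K := ⟨hEB ▸ ⟨d, hd, rfl⟩, ⟨d, hdC, rfl⟩⟩
  rw [hBK, Subgroup.mem_bot] at h1
  have h2 : d ∈ E ⊓ V := ⟨hd, (QuotientGroup.eq_one_iff d).1 h1⟩
  rwa [inf_eq_bot_of_coprime hV hE.isPGroup, Subgroup.mem_bot] at h2

include hinj hnorm hcent hsimple hcenter hR in
/-- The general case, over the complex numbers. -/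
theorem hasReducedHomology_radical_of_links {G : Type} [Group G] [Finite G] (π : G →* Γ)
    (hπ : Function.Surjective π) (hsol : Group.IsSolvable π.ker)
    (hO2 : ∀ N : Subgroup G, N.Normal → IsPGroup p N → N = ⊥) :
    HasReducedHomology ℂ (elemAbelianSubgroups p G) := by
  have hp : p.Prime := Fact.out
  induction hn : Nat.card G using Nat.strong_induction_on generalizing G with
  | _ n ih =>
  set cand : Set (Subgroup G) := {W | W.Normal ∧ W ≤ π.ker ∧ ClassTwo W} with hcand
  obtain ⟨W, ⟨hWn, hWS, hW⟩, hmax⟩ := Set.Finite.exists_maximal (s := cand) (Set.toFinite _)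
    ⟨⊥, inferInstance, bot_le, fun a ha b hb c hc => by
      rw [Subgroup.mem_bot] at ha hb hc; simp [ha, hb, hc]⟩
  have := hWn
  have hself : Subgroup.centralizer (W : Set G) ⊓ π.ker ≤ W :=
    centralizer_le_of_max hWS hW fun W' h1 h2 h3 h4 => le_antisymm (hmax ⟨h1, h2, h3⟩ h4) h4
  have hodd : ¬ p ∣ Nat.card W := hW.coprime hO2
  by_cases hab : IsMulCommutative W
  · exact hasReducedHomology_abelian_of_links φ hinj hnorm hcent hsimple hcenter hR π hπ W
      ((hp.coprime_iff_not_dvd.2 hodd).symm) hWS hself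
  set M0 : Subgroup G := ⁅W, W⁆ with hM0
  have hM0n : M0.Normal := inferInstance
  have hM0W : M0 ≤ W := Subgroup.commutator_le_right W W
  have hM0c : ∀ x ∈ M0, ∀ w ∈ W, w * x = x * w := fun x hx w hw =>
    Subgroup.mem_centralizer_iff.1 (hW.commutator_central hx) w hw
  have hM0ne : M0 ≠ ⊥ := fun h => hab (by
    refine ⟨⟨fun a b => Subtype.ext ?_⟩⟩
    have := Subgroup.commutator_mem_commutator a.2 b.2
    rw [show ⁅W, W⁆ = ⊥ from h, Subgroup.mem_bot] at this
    exact commutatorElement_eq_one_iff_mul_comm.1 this)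
  have hM0odd : ¬ p ∣ Nat.card M0 := fun h => hodd (h.trans (Subgroup.card_dvd_of_le hM0W))
  set f := QuotientGroup.mk' M0 with hf
  have hO2' : ∀ N : Subgroup (G ⧸ M0), N.Normal → IsPGroup p N → N = ⊥ := by
    intro Rb hRbn hRb
    set R := Rb.comap f with hR
    have hRn : R.Normal := hRbn.comap f
    have hM0R : M0 ≤ R := fun x hx => by
      show f x ∈ Rb
      rw [hf, QuotientGroup.mk'_apply, (QuotientGroup.eq_one_iff x).2 hx]
      exact Rb.one_mem
    have hRS : R ≤ π.ker := by
      have hsolR : Group.IsSolvable R := by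
        have : Group.IsNilpotent Rb := hRb.isNilpotent
        have : Group.IsSolvable M0 := Group.isSolvable_of_comm fun a b =>
          Subtype.ext (hM0c b b.2 a (hM0W a.2))
        refine Group.isSolvable_of_ker_le_range (Subgroup.inclusion hM0R) (f.subgroupComap Rb) ?_
        rintro ⟨x, hx⟩ hk
        have hk' : f x = 1 := congrArg Subtype.val hk
        exact ⟨⟨x, (QuotientGroup.eq_one_iff x).1 hk'⟩, rfl⟩
      have := isSolvable_map π R
      rw [← Subgroup.map_eq_bot_iff]
      exact solvable_normal_eq_bot φ hinj hnorm hcent hsimple hcenter (hRn.map π hπ)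
    have hpow : ∀ r ∈ R, ∃ k : ℕ, orderOf (f r) = p ^ k := fun r hr => by
      obtain ⟨k, hk⟩ := IsPGroup.iff_orderOf.1 hRb ⟨f r, hr⟩
      exact ⟨k, (Subgroup.orderOf_coe (⟨f r, hr⟩ : Rb)).trans hk⟩
    have hRW : ∀ x ∈ R, x ∈ W → x ∈ M0 := fun x hx hxW => by
      obtain ⟨k, hk⟩ := hpow x hx
      have h1 : orderOf (f x) ∣ Nat.card W :=
        (orderOf_map_dvd f x).trans (Subgroup.orderOf_dvd_natCard W hxW)
      rw [hk] at h1
      rcases Nat.eq_zero_or_pos k with rfl | hk0
      · rw [pow_zero, orderOf_eq_one_iff] at hk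
        exact (QuotientGroup.eq_one_iff x).1 hk
      · exact absurd ((dvd_pow_self p hk0.ne').trans h1) hodd
    obtain ⟨P⟩ : Nonempty (Sylow p R) := inferInstance
    have hP : ∀ r ∈ (P : Subgroup R), (r : G) ∈ W := by
      intro r hr
      refine hself ⟨?_, hRS r.2⟩
      have hfix : ∀ w ∈ W, ∃ x ∈ W, x * w⁻¹ ∈ M0 ∧ (r : G) * x = x * r := by
        intro w hw
        let T := {x : G // x ∈ W ∧ x * w⁻¹ ∈ M0}
        have hT : ∀ (p : R) (x : T), (p : G) * x.1 * (p : G)⁻¹ ∈ W ∧
            (p : G) * x.1 * (p : G)⁻¹ * w⁻¹ ∈ M0 := by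
          rintro ⟨p, hp⟩ ⟨x, hx, hxw⟩
          have h1 : p * x * p⁻¹ ∈ W := hWn.conj_mem x hx p
          refine ⟨h1, ?_⟩
          have h2 : p * x * p⁻¹ * x⁻¹ ∈ M0 := hRW _ (by
            rw [show p * x * p⁻¹ * x⁻¹ = p * (x * p⁻¹ * x⁻¹) by group]
            exact R.mul_mem hp (hRn.conj_mem _ (R.inv_mem hp) x))
            (W.mul_mem h1 (W.inv_mem hx))
          have := M0.mul_mem h2 hxw
          simpa [mul_assoc] using this
        let : MulAction (P : Subgroup R) T :=
          { smul := fun p x => ⟨_, hT p.1 x⟩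
            one_smul := fun x => Subtype.ext (by
              show ((1 : R) : G) * x.1 * ((1 : R) : G)⁻¹ = x.1
              simp)
            mul_smul := fun p q x => Subtype.ext (by
              show ((p.1 * q.1 : R) : G) * x.1 * ((p.1 * q.1 : R) : G)⁻¹ =
                (p.1 : G) * ((q.1 : G) * x.1 * (q.1 : G)⁻¹) * (p.1 : G)⁻¹
              simp [mul_assoc]) }
        have e : T ≃ M0 :=
          { toFun := fun x => ⟨x.1 * w⁻¹, x.2.2⟩
            invFun := fun m => ⟨m.1 * w, W.mul_mem (hM0W m.2) hw, by simp⟩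
            left_inv := fun x => by simp
            right_inv := fun m => by simp }
        obtain ⟨⟨x, hx, hxw⟩, hfx⟩ := P.isPGroup'.nonempty_fixed_point_of_prime_not_dvd_card T
          (by rw [Nat.card_congr e]; exact hM0odd)
        refine ⟨x, hx, hxw, ?_⟩
        have := congrArg Subtype.val (hfx ⟨r, hr⟩)
        change (r : G) * x * (r : G)⁻¹ = x at this
        exact mul_inv_eq_iff_eq_mul.1 this
      have hcM : ∀ x ∈ M0, (r : G) * x = x * r := by
        suffices M0 ≤ Subgroup.centralizer {(r : G)} from fun x hx =>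
          (Subgroup.mem_centralizer_singleton_iff.1 (this hx)).symm
        rw [hM0, Subgroup.commutator_le]
        intro a ha b hb
        obtain ⟨x, hx, hxa, hxc⟩ := hfix a ha
        obtain ⟨y, hy, hyb, hyc⟩ := hfix b hb
        rw [Subgroup.mem_centralizer_singleton_iff]
        have e : ⁅a, b⁆ = ⁅x, y⁆ := by
          have c1 : ∀ v ∈ W, Commute (x * a⁻¹) v := fun v hv => (hM0c _ hxa v hv).symm
          have c2 : ∀ v ∈ W, Commute (y * b⁻¹) v := fun v hv => (hM0c _ hyb v hv).symm
          conv_rhs => rw [show x = (x * a⁻¹) * a by group, show y = (y * b⁻¹) * b by group]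
          exact (commutatorElement_mul_central (c1 a ha) (c1 b hb) (c2 a ha) (c2 b hb)
            (c1 _ (W.mul_mem hy (W.inv_mem hb)))).symm
        rw [e, commutatorElement_def]
        exact (((Commute.mul_right hxc hyc).mul_right (Commute.inv_right hxc)).mul_right
          (Commute.inv_right hyc)).eq.symm
      show (r : G) ∈ Subgroup.centralizer (W : Set G)
      rw [Subgroup.mem_centralizer_iff]
      intro w hw
      obtain ⟨x, -, hxw, hxc⟩ := hfix w hw
      have hw' : w = (x * w⁻¹)⁻¹ * x := by group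
      rw [hw']
      exact ((Commute.inv_right (hcM _ hxw)).mul_right hxc).eq.symm
    have hPbot : ∀ r ∈ (P : Subgroup R), r = 1 := by
      intro r hr
      obtain ⟨k, hk⟩ := IsPGroup.iff_orderOf.1 P.isPGroup' ⟨r, hr⟩
      rw [Subgroup.orderOf_mk] at hk
      have h1 : orderOf r ∣ Nat.card W := by
        rw [← Subgroup.orderOf_coe]
        exact Subgroup.orderOf_dvd_natCard W (hP r hr)
      rw [hk] at h1
      rcases Nat.eq_zero_or_pos k with rfl | hk0
      · rwa [pow_zero, orderOf_eq_one_iff] at hk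
      · exact absurd ((dvd_pow_self p hk0.ne').trans h1) hodd
    have hRodd : ¬ p ∣ Nat.card R := fun h => by
      have h' := P.dvd_card_of_dvd_card h
      rw [(Subgroup.eq_bot_iff_forall _).2 hPbot, Subgroup.card_bot] at h'
      exact hp.not_dvd_one h'
    rw [Subgroup.eq_bot_iff_forall]
    intro y hy
    obtain ⟨r, rfl⟩ := QuotientGroup.mk'_surjective M0 y
    obtain ⟨k, hk⟩ := hpow r hy
    have h1 : orderOf (f r) ∣ Nat.card R :=
      (orderOf_map_dvd f r).trans (Subgroup.orderOf_dvd_natCard R hy)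
    rw [hk] at h1
    rcases Nat.eq_zero_or_pos k with rfl | hk0
    · rwa [pow_zero, orderOf_eq_one_iff] at hk
    · exact absurd ((dvd_pow_self p hk0.ne').trans h1) hRodd
  have hle : M0 ≤ π.ker := hM0W.trans hWS
  let π' : G ⧸ M0 →* Γ := QuotientGroup.lift M0 π hle
  have hlt : Nat.card (G ⧸ M0) < n := by
    rw [← hn, M0.card_eq_card_quotient_mul_card_subgroup]
    refine lt_mul_of_one_lt_right Nat.card_pos ?_
    exact M0.one_lt_card_iff_ne_bot.2 hM0ne
  have hsol' : Group.IsSolvable π'.ker := by
    rw [QuotientGroup.ker_lift]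
    exact isSolvable_map _ _
  exact transfer M0 ((hp.coprime_iff_not_dvd.2 hM0odd).symm)
    (ih _ hlt π' (fun y => by obtain ⟨g, rfl⟩ := hπ y; exact ⟨f g, rfl⟩) hsol' hO2' rfl)

end

/-- The case of Robinson subgroups at one prime. -/
theorem hasReducedHomology_radical_of_robinson {Γ : Type} [Group Γ] {ι : Type} [Fintype ι]
    {A : ι → Type} [∀ i, Group (A i)] [∀ i, Finite (A i)] (φ : (Π i, A i) →* Γ)
    (hinj : Function.Injective φ) (hnorm : φ.range.Normal)
    (hcent : Subgroup.centralizer (φ.range : Set Γ) = ⊥)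
    (hsimple : ∀ i, IsSimpleGroup (A i))
    (hcenter : ∀ i, ∀ a : A i, (∀ b, a * b = b * a) → a = 1)
    {p r : ℕ} [Fact p.Prime] [Fact r.Prime] (hR : ∀ i, HasRobinson p r (A i))
    {G : Type} [Group G] [Finite G] (π : G →* Γ)
    (hπ : Function.Surjective π) (hsol : Group.IsSolvable π.ker)
    (hO2 : ∀ N : Subgroup G, N.Normal → IsPGroup p N → N = ⊥) :
    HasReducedHomology ℂ (elemAbelianSubgroups p G) :=
  hasReducedHomology_radical_of_links φ hinj hnorm hcent hsimple hcenter
    (fun _ _ _ _ _ S => S.exists_link_of_robinson (p := p) (r := r) fun i => hR i) π hπ hsol hO2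

end Vale.Agent.P240
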