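import Vale.Agent.P240.Robinson.Linear
import Vale.Agent.P240.Robinson.Radical

/-!
# Classical components
-/

set_option linter.unusedSectionVars false

open Matrix Matrix.SpecialLinearGroup

noncomputable section

namespace Vale.Agent.P240

/-- Robinson subgroups transport along isomorphisms. -/
theorem HasRobinson.of_equiv {p r : ℕ} {A B : Type*} [Group A] [Group B] (e : A ≃* B)
    (h : HasRobinson p r A) : HasRobinson p r B := by
  obtain ⟨Q, hne, hQr, hW, hα⟩ := h
  refine ⟨Q.map e.toMonoidHom, fun h0 => hne ?_, hQr.map _, fun W hWel hinv => ?_,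
    fun β hβ hfix => ?_⟩
  · exact (Subgroup.map_eq_bot_iff_of_injective _ e.injective).1 h0
  · have := hW (W.map e.symm.toMonoidHom) (hWel.map _) (by
      rintro q hq _ ⟨w, hw, rfl⟩
      refine ⟨e q * w * (e q)⁻¹, hinv _ ⟨q, hq, rfl⟩ w hw, by simp⟩)
    exact (Subgroup.map_eq_bot_iff_of_injective _ e.symm.injective).1 this
  · let α : MulAut A := (e.trans β).trans e.symm
    have hpow : ∀ n : ℕ, ∀ a, (α ^ n) a = e.symm ((β ^ n) (e a)) := by
      intro n
      induction n with
      | zero => intro a; simp
      | succ n ih =>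
        intro a
        rw [pow_succ', MulAut.mul_apply, ih, pow_succ', MulAut.mul_apply]
        simp [α]
    have := hα α (MulEquiv.ext fun a => by rw [hpow, hβ]; simp) fun q hq => by
      simp [α, hfix (e q) ⟨q, hq, rfl⟩]
    refine MulEquiv.ext fun b => ?_
    have h1 := DFunLike.congr_fun this (e.symm b)
    simp [α] at h1
    simpa using h1

/-- Projective special linear groups of degree at least two are not commutative. -/
theorem Linear.noncomm {m : ℕ} {F : Type*} [Field F] [Finite F] {r : ℕ} [Fact r.Prime]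
    [CharP F r] : ∃ a b : Matrix.ProjectiveSpecialLinearGroup (Fin (m + 2)) F, a * b ≠ b * a := by
  by_contra hno
  push Not at hno
  set G₂ := Matrix.SpecialLinearGroup (Fin (m + 2)) F
  have hij : Fin.last (m + 1) ≠ (0 : Fin (m + 2)) := Fin.last_pos.ne'
  obtain ⟨g, hg, he⟩ := Linear.centralizer_R0 (m := m) (F := F) r
    (Subgroup.mem_centralizer_iff.2 fun b _ =>
      hno b (QuotientGroup.mk' (Subgroup.center G₂)
        (Matrix.SpecialLinearGroup.transvection hij (1 : F))))
  obtain ⟨c, -, hc⟩ := mem_center_iff.1 (QuotientGroup.eq.1 he)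
  have e : (g : Matrix (Fin (m + 2)) (Fin (m + 2)) F) * scalar (Fin (m + 2)) c =
      (Matrix.SpecialLinearGroup.transvection hij (1 : F) : G₂) := by
    rw [hc, ← coe_mul, mul_inv_cancel_left]
  have := congrFun (congrFun e (Fin.last (m + 1))) 0
  simp [hg _ hij 0, hij, transvection_coe] at this

/-- The homological Quillen conjecture for components with Robinson subgroups at one prime. -/
theorem hasReducedHomology_of_components {G : Type} [Group G] [Finite G] {p r : ℕ}
    [Fact p.Prime] [Fact r.Prime]
    (hOp : ∀ N : Subgroup G, N.Normal → IsPGroup p N → N = ⊥)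
    (S : Subgroup G) [S.Normal] (hS : Group.IsSolvable S)
    {ι : Type} [Fintype ι] (A : ι → Type) [∀ i, Group (A i)] [∀ i, Finite (A i)]
    (hsimple : ∀ i, IsSimpleGroup (A i)) (hnc : ∀ i, ∃ a b : A i, a * b ≠ b * a)
    (hA : ∀ i, HasRobinson p r (A i))
    (L : Subgroup (G ⧸ S)) (hL : L.Normal)
    (hC : Subgroup.centralizer (L : Set (G ⧸ S)) = ⊥)
    (e : ((i : ι) → A i) ≃* L) :
    HasReducedHomology ℂ (elemAbelianSubgroups p G) := by
  have hr : (L.subtype.comp e.toMonoidHom).range = L := by
    ext x
    refine ⟨?_, fun hx => ⟨e.symm ⟨x, hx⟩, by simp⟩⟩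
    rintro ⟨a, rfl⟩
    exact (e a).2
  refine hasReducedHomology_radical_of_robinson (L.subtype.comp e.toMonoidHom)
    (L.subtype_injective.comp e.injective) (hr.symm ▸ hL) (by rw [hr]; exact hC) hsimple
    (fun i c hc => ?_) hA (QuotientGroup.mk' S) (QuotientGroup.mk'_surjective S) ?_ hOp
  · obtain ⟨a, b, hab⟩ := hnc i
    have := hsimple i
    have hn : (Subgroup.center (A i)).Normal := inferInstance
    rcases hn.eq_bot_or_eq_top with h | h
    · have hm : c ∈ Subgroup.center (A i) := Subgroup.mem_center_iff.2 fun d => (hc d).symm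
      rw [h] at hm
      exact Subgroup.mem_bot.1 hm
    · exact absurd (Subgroup.mem_center_iff.1 (h ▸ Subgroup.mem_top b) a) hab
  · rw [QuotientGroup.ker_mk']
    exact hS

end Vale.Agent.P240
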