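import Vale.Agent.P240.Robinson.Linear

/-!
# Invariant elementary abelian subgroups of projective matrix groups

For a finite matrix group `G` with scalar centre, a family `T x = 1 + x N` (`N * N = 0`) normalising
an elementary abelian `p`-subgroup of `G` modulo its centre centralises it.
-/

set_option linter.unusedSectionVars false

open scoped Classical
open Matrix

noncomputable section

namespace Vale.Agent.P240

variable {n : Type*} [Fintype n] [DecidableEq n] {F : Type*} [Field F] {G : Type*} [Group G]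

/-- The commutation of a lift with a quadratic element normalising the group. -/
theorem commute_of_invariant (ι : G →* Matrix n n F)
    (hZ : ∀ z ∈ Subgroup.center G, ∃ c : F, ι z = scalar n c)
    {p : ℕ} (h2 : (2 : F) ≠ 0) (hp : (p : F) ≠ 0) {N : Matrix n n F} (hN : N * N = 0)
    (S : Finset F) (hS0 : (0 : F) ∈ S) (T : F → G) (hT : ∀ x ∈ S, ι (T x) = 1 + x • N)
    (hbig : 3 < S.card ∨ (p = 2 ∧ (∃ s ∈ S, s ≠ 0) ∧
      ∀ M : Matrix n n F, ∃ v : n → F, v ≠ 0 ∧ N *ᵥ v = 0 ∧ N *ᵥ (M *ᵥ v) = 0))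
    {W : Subgroup (G ⧸ Subgroup.center G)} (hW : IsElem p W)
    (hinv : ∀ x ∈ S, ∀ w ∈ W, QuotientGroup.mk' _ (T x) * w * (QuotientGroup.mk' _ (T x))⁻¹ ∈ W)
    {g : G} (hg : QuotientGroup.mk' _ g ∈ W) : Commute N (ι g) := by
  set π := QuotientGroup.mk' (Subgroup.center G)
  let w : (Matrix n n F)ˣ := ⟨ι g, ι g⁻¹, by rw [← map_mul, mul_inv_cancel, map_one],
    by rw [← map_mul, inv_mul_cancel, map_one]⟩
  have hTi : ∀ x ∈ S, ι (T x)⁻¹ = 1 - x • N := fun x hx => by
    have h1 : ι (T x)⁻¹ * ι (T x) = 1 := by rw [← map_mul, inv_mul_cancel, map_one]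
    calc ι (T x)⁻¹ = ι (T x)⁻¹ * ((1 + x • N) * (1 - x • N)) := by
          rw [Quad.one_add_mul_sub hN, mul_one]
      _ = _ := by rw [← mul_assoc, ← hT x hx, h1, one_mul]
  have hM : ∀ x ∈ S, ι (T x * g * (T x)⁻¹) = Quad.M N (w : Matrix n n F) x := fun x hx => by
    rw [map_mul, map_mul, hT x hx, hTi x hx]; rfl
  have hmem : ∀ x ∈ S, π (T x * g * (T x)⁻¹) ∈ W := fun x hx => by
    rw [map_mul, map_mul, map_inv]
    exact hinv x hx _ hg
  have hlam : ∀ x ∈ S, ∀ y ∈ S, ∃ l : F, Quad.M N (w : Matrix n n F) x * Quad.M N w y =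
      l • (Quad.M N (w : Matrix n n F) y * Quad.M N w x) := by
    intro x hx y hy
    set gx := T x * g * (T x)⁻¹ with hgx
    set gy := T y * g * (T y)⁻¹ with hgy
    have hz : (gy * gx)⁻¹ * (gx * gy) ∈ Subgroup.center G := by
      rw [← QuotientGroup.eq_one_iff (N := Subgroup.center G)]
      have h1 := hmem x hx
      have h2 := hmem y hy
      rw [← hgx] at h1
      rw [← hgy] at h2
      clear_value gx gy
      show π _ = 1
      rw [map_mul, map_inv, map_mul, map_mul, hW.1 _ h1 _ h2, inv_mul_cancel]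
    obtain ⟨c, hc⟩ := hZ _ hz
    refine ⟨c, ?_⟩
    rw [← hM x hx, ← hM y hy, ← hgx, ← hgy, ← map_mul, ← map_mul]
    calc ι (gx * gy) = ι (gy * gx * ((gy * gx)⁻¹ * (gx * gy))) := by rw [mul_inv_cancel_left]
      _ = _ := by rw [map_mul, hc]; simp [← smul_one_eq_diagonal]
  have hgp : g ^ p ∈ Subgroup.center G := by
    rw [← QuotientGroup.eq_one_iff (N := Subgroup.center G)]
    show π _ = 1
    rw [map_pow, hW.2 _ hg]
  obtain ⟨s, hs⟩ := hZ _ hgp
  rw [map_pow] at hs
  have hs' : (w : Matrix n n F) ^ p = scalar n s := hs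
  have hcp : ∀ B : Matrix n n F, Commute B ((w : Matrix n n F) ^ p) := fun B => by
    rw [hs']; exact (scalar_commute s (fun _ => mul_comm _ _) B).symm
  have finish : ∀ x y : F, x ≠ y →
      Commute (Quad.M N (w : Matrix n n F) x) (Quad.M N w y) → Commute N (ι g) := by
    intro x y hne hc
    have hc0 : Commute (w : Matrix n n F) (Quad.M N w (y - x)) := by
      have e : ∀ a b : Matrix n n F, (1 + (-x) • N) * a * (1 - (-x) • N) *
          ((1 + (-x) • N) * b * (1 - (-x) • N)) = (1 + (-x) • N) * (a * b) * (1 - (-x) • N) :=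
        fun a b => by
          calc _ = (1 + (-x) • N) * a * ((1 - (-x) • N) * (1 + (-x) • N)) * b * (1 - (-x) • N) := by
                noncomm_ring
            _ = _ := by rw [Quad.one_sub_mul_add hN]; noncomm_ring
      have ha := Quad.M_add hN (w : Matrix n n F) (-x) x
      have hb := Quad.M_add hN (w : Matrix n n F) (-x) y
      rw [neg_add_cancel, Quad.M_zero] at ha
      rw [neg_add_eq_sub] at hb
      have h3 : ∀ a b : Matrix n n F, Commute a b → Commute
          ((1 + (-x) • N) * a * (1 - (-x) • N)) ((1 + (-x) • N) * b * (1 - (-x) • N)) :=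
        fun a b h => by show _ = _; rw [e, e, h.eq]
      have h4 := h3 _ _ hc
      rwa [ha, hb] at h4
    have hzne : y - x ≠ 0 := sub_ne_zero.2 (Ne.symm hne)
    have hres := Quad.commute_of_quadratic (F := F) (N := (y - x) • N)
      (by rw [smul_mul_smul_comm, hN, smul_zero]) w h2 hp ((hcp N).smul_left _)
      (by simpa [Quad.M] using hc0)
    have := hres.smul_left (y - x)⁻¹
    rwa [smul_smul, inv_mul_cancel₀ hzne, one_smul] at this
  rcases hbig with hq | ⟨rfl, ⟨x, hxS, hx⟩, hvec⟩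
  · obtain ⟨x, -, y, -, hne, hc⟩ := Quad.exists_commute_conj hN w S hq hlam
    exact finish x y hne hc
  obtain ⟨l, hl⟩ := hlam 0 hS0 x hxS
  rw [Quad.M_zero] at hl
  set M1 := Quad.M N (w : Matrix n n F) x with hM1def
  by_cases hl1 : l = 1
  · refine finish 0 x (Ne.symm hx) ?_
    rw [Quad.M_zero, ← hM1def]
    rw [hl1, one_smul] at hl
    exact hl
  exfalso
  have hM1eq : ι (T x * g * (T x)⁻¹) = M1 := hM x hxS
  have hM1u : IsUnit M1 :=
    ⟨⟨M1, ι (T x * g * (T x)⁻¹)⁻¹, by rw [← hM1eq, ← map_mul, mul_inv_cancel, map_one],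
      by rw [← hM1eq, ← map_mul, inv_mul_cancel, map_one]⟩, rfl⟩
  obtain ⟨v, hv0, hv1, hv2⟩ := hvec (w : Matrix n n F)
  have hnt : (M1 * (w : Matrix n n F) * w) ≠ 0 := by
    intro h
    obtain ⟨i, hi⟩ := Function.ne_iff.1 hv0
    have : IsUnit (0 : Matrix n n F) := h ▸ (hM1u.mul w.isUnit).mul w.isUnit
    rw [isUnit_zero_iff] at this
    have h00 := congrFun (congrFun this i) i
    simp at h00
  have hll : l * l = 1 := by
    have h1 : (w : Matrix n n F) * ((w : Matrix n n F) * M1) =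
        (l * l) • (M1 * ((w : Matrix n n F) * w)) := by
      rw [hl, mul_smul_comm, ← mul_assoc, hl, smul_mul_assoc, smul_smul, mul_assoc]
    have h3 : M1 * ((w : Matrix n n F) * w) = (w : Matrix n n F) * ((w : Matrix n n F) * M1) := by
      rw [← mul_assoc (w : Matrix n n F) w M1, ← pow_two, (hcp M1).eq]
    rw [← h3] at h1
    have h4 : (l * l - 1) • (M1 * ((w : Matrix n n F) * w)) = 0 := by
      rw [sub_smul, one_smul, ← h1, sub_self]
    refine sub_eq_zero.1 ((smul_eq_zero.1 h4).resolve_right ?_)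
    rw [← mul_assoc]
    exact hnt
  have hlm : l = -1 := (mul_self_eq_one_iff.1 hll).resolve_left hl1
  have hMv : M1 *ᵥ v = (w : Matrix n n F) *ᵥ v := by
    rw [hM1def, Quad.M, ← Matrix.mulVec_mulVec, ← Matrix.mulVec_mulVec, Matrix.sub_mulVec,
      Matrix.one_mulVec, Matrix.smul_mulVec, hv1, smul_zero, sub_zero, Matrix.add_mulVec,
      Matrix.one_mulVec, Matrix.smul_mulVec, hv2, smul_zero, add_zero]
  have hsq : M1 * M1 = scalar n s := by
    rw [← hM1eq, ← map_mul]
    have : T x * g * (T x)⁻¹ * (T x * g * (T x)⁻¹) = T x * (g ^ 2) * (T x)⁻¹ := by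
      rw [pow_two]; group
    rw [this, Subgroup.mem_center_iff.1 hgp (T x), mul_inv_cancel_right, map_pow, hs]
  have e1 : ((w : Matrix n n F) * M1) *ᵥ v = scalar n s *ᵥ v := by
    rw [← Matrix.mulVec_mulVec, hMv, Matrix.mulVec_mulVec, ← pow_two, hs']
  have e2 : (M1 * (w : Matrix n n F)) *ᵥ v = scalar n s *ᵥ v := by
    rw [← Matrix.mulVec_mulVec, ← hMv, Matrix.mulVec_mulVec, hsq]
  rw [hl, hlm, Matrix.smul_mulVec, e2, neg_one_smul, neg_eq_iff_add_eq_zero, ← two_smul F,
    smul_eq_zero] at e1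
  have e3 := e1.resolve_left h2
  rw [← hsq, ← Matrix.mulVec_mulVec] at e3
  have hinj := Matrix.mulVec_injective_of_isUnit hM1u
  exact hv0 (hinj (hinj (by rw [e3, Matrix.mulVec_zero, Matrix.mulVec_zero])))

end Vale.Agent.P240
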