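import Vale.Agent.P240.Robinson.Linear

/-!
# Automorphisms fixing a unipotent radical

If `R` is a self-centralising `r`-subgroup normalised by `P`, and the conjugates of `R` meeting
`R` trivially form one `R`-orbit, then an automorphism of order `p` fixing `R` pointwise is
trivial as soon as `P` and a representative of that orbit generate the group.
-/

set_option linter.unusedSectionVars false

noncomputable section

namespace Vale.Agent.P240

variable {A : Type*} [Group A] [Finite A] {p r : ℕ} [Fact p.Prime] [Fact r.Prime]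

theorem eq_one_of_opposite (hpr : p ≠ r) {R P : Subgroup A} (hR : IsPGroup r R)
    (hC : Subgroup.centralizer (R : Set A) ≤ R)
    (hP : ∀ g ∈ P, ∀ q ∈ R, g * q * g⁻¹ ∈ R) (w : A)
    (h1 : ∀ g : A, cj g R ⊓ R = ⊥ → ∃ u ∈ R, ∃ b ∈ P, g = u * w * b)
    (h0 : cj w R ⊓ R = ⊥)
    (h2 : ∀ u ∈ R, w⁻¹ * u * w ∈ P → u = 1)
    (h2' : ∀ u ∈ R, w * u * w⁻¹ ∈ P → u = 1)
    (h3 : ∃ v ∈ R, ∃ u ∈ R, ∃ b ∈ P, w * v * w⁻¹ = u * w * b)
    (h4 : Subgroup.closure ((P : Set A) ∪ {w}) = ⊤)
    {α : MulAut A} (hα : α ^ p = 1) (hfix : ∀ q ∈ R, α q = q) : α = 1 := by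
  have fP : ∀ g ∈ P, α g = g := fun g hg => fixed_normalizer hpr hR hC hα hfix (hP g hg)
  have hcap : cj (α w) R ⊓ R = ⊥ := by
    rw [Subgroup.eq_bot_iff_forall]
    rintro x ⟨hx, hxR⟩
    obtain ⟨y, hy⟩ := α.surjective x
    have hyR : y ∈ R := by
      have : α y = α x := by rw [hy, hfix x hxR]
      rwa [α.injective this]
    have hyw : y ∈ cj w R := by
      have hx' : (α w)⁻¹ * x * α w ∈ R := mem_cj.1 hx
      rw [mem_cj]
      have e : α (w⁻¹ * y * w) = (α w)⁻¹ * x * α w := by rw [map_mul, map_mul, map_inv, hy]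
      rwa [α.injective ((hfix _ hx').trans e.symm)] at hx'
    have : y ∈ cj w R ⊓ R := ⟨hyw, hyR⟩
    rw [h0, Subgroup.mem_bot] at this
    rw [← hy, this, map_one]
  obtain ⟨u, hu, b, hb, hub⟩ := h1 _ hcap
  have hpow : ∀ k : ℕ, ∃ bk ∈ P, (α ^ k) w = u ^ k * w * bk := by
    intro k
    induction k with
    | zero => exact ⟨1, P.one_mem, by simp⟩
    | succ k ih =>
      obtain ⟨bk, hbk, e⟩ := ih
      refine ⟨b * bk, P.mul_mem hb hbk, ?_⟩
      rw [pow_succ', MulAut.mul_apply, e, map_mul, map_mul, map_pow, hfix u hu, fP bk hbk, hub,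
        pow_succ]
      simp only [mul_assoc]
  obtain ⟨bp, hbp, hp'⟩ := hpow p
  rw [hα, MulAut.one_apply] at hp'
  have hup : u ^ p = 1 := by
    refine h2 _ (R.pow_mem hu p) ?_
    have : w⁻¹ * u ^ p * w = bp⁻¹ := by
      rw [eq_inv_iff_mul_eq_one, mul_assoc, mul_assoc, ← mul_assoc (u ^ p) w bp, ← hp',
        inv_mul_cancel]
    rw [this]
    exact P.inv_mem hbp
  have hu1 : u = 1 := by
    obtain ⟨k, hk⟩ := hR ⟨u, hu⟩
    have h2u : orderOf u ∣ r ^ k :=
      orderOf_dvd_of_pow_eq_one (by simpa using congrArg Subtype.val hk)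
    exact orderOf_eq_one_iff.1 (Nat.eq_one_of_dvd_coprimes
      (((Nat.coprime_primes Fact.out Fact.out).2 hpr).pow_right k)
      (orderOf_dvd_of_pow_eq_one hup) h2u)
  rw [hu1, one_mul] at hub
  -- one element of the opposite group determines `b`
  obtain ⟨v, hv, u', hu', b', hb', e⟩ := h3
  have hb1 : b = 1 := by
    have eA : α (w * v * w⁻¹) = w * (b * v * b⁻¹) * w⁻¹ := by
      rw [map_mul, map_mul, map_inv, hub, hfix v hv, _root_.mul_inv_rev]; group
    have eB : α (w * v * w⁻¹) = w * v * w⁻¹ * (b'⁻¹ * b * b') := by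
      rw [e, map_mul, map_mul, hfix u' hu', fP b' hb', hub]; group
    have hmem : b'⁻¹ * b * b' ∈ P := P.mul_mem (P.mul_mem (P.inv_mem hb') hb) hb'
    have hvR : v⁻¹ * (b * v * b⁻¹) ∈ R := R.mul_mem (R.inv_mem hv) (hP b hb v hv)
    have e2 : w * (v⁻¹ * (b * v * b⁻¹)) * w⁻¹ = b'⁻¹ * b * b' := by
      have := eA.symm.trans eB
      calc w * (v⁻¹ * (b * v * b⁻¹)) * w⁻¹
          = (w * v * w⁻¹)⁻¹ * (w * (b * v * b⁻¹) * w⁻¹) := by group
        _ = _ := by rw [this]; group
    have h := h2' _ hvR (by rw [e2]; exact hmem)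
    rw [h, mul_one, mul_inv_cancel] at e2
    calc b = b' * (b'⁻¹ * b * b') * b'⁻¹ := by group
      _ = 1 := by rw [← e2]; group
  refine MulEquiv.ext fun g => ?_
  rw [MulAut.one_apply]
  have hg : g ∈ Subgroup.closure ((P : Set A) ∪ {w}) := by rw [h4]; trivial
  induction hg using Subgroup.closure_induction with
  | mem x hx =>
    rcases hx with hx | hx
    · exact fP x hx
    · rw [Set.mem_singleton_iff.1 hx, hub, hb1, mul_one]
  | one => exact map_one α
  | mul x y _ _ hx hy => rw [map_mul, hx, hy]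
  | inv x _ hx => rw [map_inv, hx]

end Vale.Agent.P240
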