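import Vale.Agent.P240.Robinson.Defs
import Vale.Agent.P240.Robinson.Opposite
import Vale.Agent.P240.Robinson.Invariant

/-!
# Projective orthogonal commutator groups in characteristic `r` have Robinson `r`-subgroups

The quadratic space is the orthogonal sum of a hyperbolic plane spanned by `e` and `f` and a
nondegenerate space with Gram matrix `M` which contains an isotropic vector. The Robinson subgroup
is the radical of the stabiliser of the singular point spanned by `e`.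
-/

set_option linter.unusedSectionVars false

open scoped Classical
open Matrix
open scoped commutatorElement

noncomputable section

namespace Vale.Agent.P240

namespace Orthogonal

variable {ι : Type*} [Fintype ι] [DecidableEq ι] {F : Type*} [Field F]

/-- The bilinear form of the middle space. -/
def mf (M : Matrix ι ι F) (a b : ι → F) : F := a ⬝ᵥ (M *ᵥ b)

/-- The middle coordinates. -/
def mid (x : Ix ι → F) : ι → F := fun i => x (Sum.inr i)

/-- The inclusion of the middle space. -/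
def lift (a : ι → F) : Ix ι → F := Sum.elim 0 a

/-- The first singular vector. -/
def ev : Ix ι → F := Pi.single (Sum.inl 0) 1

/-- The second singular vector. -/
def fv : Ix ι → F := Pi.single (Sum.inl 1) 1

theorem vext {x y : Ix ι → F} (h0 : x (Sum.inl 0) = y (Sum.inl 0))
    (h1 : x (Sum.inl 1) = y (Sum.inl 1)) (h : mid x = mid y) : x = y := by
  funext i
  cases i with
  | inl j => fin_cases j; exacts [h0, h1]
  | inr j => exact congrFun h j

@[simp] theorem mid_add (x y : Ix ι → F) : mid (x + y) = mid x + mid y := rfl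
@[simp] theorem mid_sub (x y : Ix ι → F) : mid (x - y) = mid x - mid y := rfl
@[simp] theorem mid_smul (c : F) (x : Ix ι → F) : mid (c • x) = c • mid x := rfl
@[simp] theorem mid_neg (x : Ix ι → F) : mid (-x) = -mid x := rfl
@[simp] theorem mid_lift (a : ι → F) : mid (lift a) = a := rfl
@[simp] theorem lift_inl (a : ι → F) (j : Fin 2) : lift a (Sum.inl j) = 0 := rfl
@[simp] theorem mid_ev : mid (ev : Ix ι → F) = 0 := funext fun i => by simp [mid, ev]
@[simp] theorem mid_fv : mid (fv : Ix ι → F) = 0 := funext fun i => by simp [mid, fv]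
@[simp] theorem ev_zero : (ev : Ix ι → F) (Sum.inl 0) = 1 := by simp [ev]
@[simp] theorem ev_one : (ev : Ix ι → F) (Sum.inl 1) = 0 := by simp [ev]
@[simp] theorem fv_zero : (fv : Ix ι → F) (Sum.inl 0) = 0 := by simp [fv]
@[simp] theorem fv_one : (fv : Ix ι → F) (Sum.inl 1) = 1 := by simp [fv]

theorem ev_ne_zero : (ev : Ix ι → F) ≠ 0 := fun h => by simpa using congrFun h (Sum.inl 0)

theorem decomp (x : Ix ι → F) :
    x = x (Sum.inl 0) • ev + x (Sum.inl 1) • fv + lift (mid x) :=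
  vext (by simp) (by simp) (by simp)

variable {M : Matrix ι ι F}

@[simp] theorem mf_zero_left (a : ι → F) : mf M 0 a = 0 := zero_dotProduct _
@[simp] theorem mf_zero_right (a : ι → F) : mf M a 0 = 0 := by simp [mf]
@[simp] theorem mf_add_left (a b c : ι → F) : mf M (a + b) c = mf M a c + mf M b c :=
  add_dotProduct ..
@[simp] theorem mf_add_right (a b c : ι → F) : mf M a (b + c) = mf M a b + mf M a c := by
  simp [mf, Matrix.mulVec_add, dotProduct_add]
@[simp] theorem mf_smul_left (s : F) (a b : ι → F) : mf M (s • a) b = s * mf M a b :=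
  smul_dotProduct ..
@[simp] theorem mf_smul_right (s : F) (a b : ι → F) : mf M a (s • b) = s * mf M a b := by
  simp [mf, Matrix.mulVec_smul, dotProduct_smul]
@[simp] theorem mf_neg_left (a b : ι → F) : mf M (-a) b = -mf M a b := neg_dotProduct ..
@[simp] theorem mf_neg_right (a b : ι → F) : mf M a (-b) = -mf M a b := by
  simp [mf, Matrix.mulVec_neg]

theorem mf_comm [h : Fact M.IsSymm] (a b : ι → F) : mf M a b = mf M b a := by
  rw [mf, mf, Matrix.dotProduct_mulVec, ← Matrix.mulVec_transpose, h.out.eq, dotProduct_comm]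

theorem exists_mf_eq_one [h : Fact (M.det ≠ 0)] [Fact M.IsSymm] {v : ι → F} (hv : v ≠ 0) :
    ∃ c, mf M v c = 1 := by
  have hne : M *ᵥ v ≠ 0 := fun h0 => h.out (Matrix.exists_mulVec_eq_zero_iff.1 ⟨v, hv, h0⟩)
  obtain ⟨k, hk⟩ : ∃ k, (M *ᵥ v) k ≠ 0 := Function.ne_iff.1 hne
  refine ⟨Pi.single k ((M *ᵥ v) k)⁻¹, ?_⟩
  rw [mf_comm, mf, single_dotProduct, inv_mul_cancel₀ hk]

theorem bf_eq (x y : Ix ι → F) : bf M x y =
    x (Sum.inl 0) * y (Sum.inl 1) + x (Sum.inl 1) * y (Sum.inl 0) + mf M (mid x) (mid y) := by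
  simp [bf, gram, dotProduct, Fintype.sum_sum_type, Fin.sum_univ_two,
    mf, mid, Matrix.mulVec]

theorem bf_comm [Fact M.IsSymm] (x y : Ix ι → F) : bf M x y = bf M y x := by
  rw [bf_eq, bf_eq, mf_comm]; ring

@[simp] theorem bf_add_left (x y z : Ix ι → F) : bf M (x + y) z = bf M x z + bf M y z :=
  add_dotProduct ..
@[simp] theorem bf_sub_left (x y z : Ix ι → F) : bf M (x - y) z = bf M x z - bf M y z :=
  sub_dotProduct ..
@[simp] theorem bf_smul_left (s : F) (x y : Ix ι → F) : bf M (s • x) y = s * bf M x y :=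
  smul_dotProduct ..
@[simp] theorem bf_add_right (x y z : Ix ι → F) : bf M x (y + z) = bf M x y + bf M x z := by
  simp [bf, Matrix.mulVec_add, dotProduct_add]
@[simp] theorem bf_sub_right (x y z : Ix ι → F) : bf M x (y - z) = bf M x y - bf M x z := by
  simp [bf, Matrix.mulVec_sub, dotProduct_sub]
@[simp] theorem bf_smul_right (s : F) (x y : Ix ι → F) : bf M x (s • y) = s * bf M x y := by
  simp [bf, Matrix.mulVec_smul, dotProduct_smul]
@[simp] theorem bf_neg_left (x y : Ix ι → F) : bf M (-x) y = -bf M x y := neg_dotProduct ..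
@[simp] theorem bf_neg_right (x y : Ix ι → F) : bf M x (-y) = -bf M x y := by
  simp [bf, Matrix.mulVec_neg]
@[simp] theorem bf_ev (x : Ix ι → F) : bf M x ev = x (Sum.inl 1) := by simp [bf_eq]
@[simp] theorem bf_fv (x : Ix ι → F) : bf M x fv = x (Sum.inl 0) := by simp [bf_eq]
@[simp] theorem bf_lift (x : Ix ι → F) (a : ι → F) : bf M x (lift a) = mf M (mid x) a := by
  simp [bf_eq]

/-! ### The groups -/

theorem sext {g h : SLI ι F} (H : ∀ x, mvs g x = mvs h x) : g = h :=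
  Subtype.ext (Matrix.ext_of_mulVec_single fun _ => H _)

theorem Om_le_SO (M : Matrix ι ι F) : Om M ≤ SO M :=
  Subgroup.commutator_le.2 fun a ha b hb => by
    rw [commutatorElement_def]
    exact (SO M).mul_mem ((SO M).mul_mem ((SO M).mul_mem ha hb) ((SO M).inv_mem ha))
      ((SO M).inv_mem hb)

/-- The commutator subgroup as a group. -/
abbrev OmG (M : Matrix ι ι F) := ↥(Om M)

/-- The projective commutator group. -/
abbrev POmG (M : Matrix ι ι F) := OmG M ⧸ Subgroup.center (OmG M)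

/-- The quotient map. -/
abbrev qm (M : Matrix ι ι F) : OmG M →* POmG M :=
  QuotientGroup.mk' (Subgroup.center (OmG M))

instance [Finite F] : Finite (SLI ι F) :=
  Finite.of_injective (fun g : SLI ι F => (g : Matrix (Ix ι) (Ix ι) F)) Subtype.val_injective

/-- The action of the commutator group on column vectors. -/
def mv (g : OmG M) (x : Ix ι → F) : Ix ι → F := mvs (g : SLI ι F) x

theorem mv_mul (g h : OmG M) (x : Ix ι → F) : mv (g * h) x = mv g (mv h x) := mvs_mul _ _ x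

theorem mv_one (x : Ix ι → F) : mv (1 : OmG M) x = x := mvs_one x

theorem mv_inv_mv (g : OmG M) (x : Ix ι → F) : mv g⁻¹ (mv g x) = x := by
  rw [← mv_mul, inv_mul_cancel, mv_one]

theorem mv_mv_inv (g : OmG M) (x : Ix ι → F) : mv g (mv g⁻¹ x) = x := by
  rw [← mv_mul, mul_inv_cancel, mv_one]

theorem mv_add (g : OmG M) (x y : Ix ι → F) : mv g (x + y) = mv g x + mv g y :=
  Matrix.mulVec_add _ x y

theorem mv_sub (g : OmG M) (x y : Ix ι → F) : mv g (x - y) = mv g x - mv g y :=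
  Matrix.mulVec_sub _ x y

theorem mv_smul (g : OmG M) (c : F) (x : Ix ι → F) : mv g (c • x) = c • mv g x :=
  Matrix.mulVec_smul _ c x

theorem mv_neg (g : OmG M) (x : Ix ι → F) : mv g (-x) = -mv g x :=
  Matrix.mulVec_neg _ _

theorem mv_ne_zero (g : OmG M) {x : Ix ι → F} (hx : x ≠ 0) : mv g x ≠ 0 := fun h =>
  hx (by rw [← mv_inv_mv g x, h]; exact Matrix.mulVec_zero _)

theorem bf_mv (g : OmG M) (x y : Ix ι → F) : bf M (mv g x) (mv g y) = bf M x y :=
  Om_le_SO M g.2 x y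

theorem bf_mv_left (g : OmG M) (x y : Ix ι → F) : bf M (mv g x) y = bf M x (mv g⁻¹ y) := by
  rw [← bf_mv g x (mv g⁻¹ y), mv_mv_inv]

theorem gext {g h : OmG M} (H : ∀ x, mv g x = mv h x) : g = h := Subtype.ext (sext H)

/-! ### Eichler transformations -/

/-- The Eichler transformation as a map. -/
def ei (M : Matrix ι ι F) (u a z : Ix ι → F) : Ix ι → F :=
  z + bf M z u • a - (bf M z a + bf M a a / 2 * bf M z u) • u

/-- The nilpotent part of an Eichler transformation. -/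
def Nmat (M : Matrix ι ι F) (u a : Ix ι → F) : Matrix (Ix ι) (Ix ι) F :=
  Matrix.vecMulVec a (gram M *ᵥ u) -
    Matrix.vecMulVec u (gram M *ᵥ a + (bf M a a / 2) • (gram M *ᵥ u))

theorem Nmat_mulVec (u a z : Ix ι → F) : Nmat M u a *ᵥ z =
    bf M z u • a - (bf M z a + bf M a a / 2 * bf M z u) • u := by
  rw [Nmat, Matrix.sub_mulVec, Matrix.vecMulVec_mulVec, Matrix.vecMulVec_mulVec, op_smul_eq_smul,
    op_smul_eq_smul, dotProduct_comm _ z, dotProduct_comm _ z, dotProduct_add, dotProduct_smul]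
  rfl

theorem one_add_Nmat_mulVec (u a z : Ix ι → F) : (1 + Nmat M u a) *ᵥ z = ei M u a z := by
  rw [Matrix.add_mulVec, Matrix.one_mulVec, Nmat_mulVec, ei, add_sub_assoc]

theorem det_one_add_Nmat [Fact M.IsSymm] {u a : Ix ι → F} (hu : bf M u u = 0)
    (hua : bf M u a = 0) : (1 + Nmat M u a).det = 1 := by
  set U : Matrix (Ix ι) (Fin 2) F := (Matrix.of ![a, u])ᵀ with hU
  set V : Matrix (Fin 2) (Ix ι) F :=
    Matrix.of ![gram M *ᵥ u, -(gram M *ᵥ a + (bf M a a / 2) • (gram M *ᵥ u))] with hV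
  have hN : Nmat M u a = U * V := by
    ext i j
    simp [hU, hV, Nmat, Matrix.mul_apply, Fin.sum_univ_two, Matrix.vecMulVec_apply]
    ring
  have hVU : ∀ (s : Fin 2) (c : Ix ι → F), (V *ᵥ c) s = ![bf M c u,
      -(bf M c a + bf M a a / 2 * bf M c u)] s := by
    intro s c
    fin_cases s
    · exact dotProduct_comm _ _
    · show (-(gram M *ᵥ a + (bf M a a / 2) • (gram M *ᵥ u))) ⬝ᵥ c = -(bf M c a + bf M a a / 2 * bf M c u)
      rw [neg_dotProduct, add_dotProduct, smul_dotProduct, dotProduct_comm _ c,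
        dotProduct_comm _ c]
      rfl
  have e : ∀ s : Fin 2, (V * U) s 0 = (V *ᵥ a) s ∧ (V * U) s 1 = (V *ᵥ u) s := fun s => by
    constructor <;> simp [hU, Matrix.mul_apply, Matrix.mulVec, dotProduct]
  rw [hN, Matrix.det_one_add_mul_comm, Matrix.det_fin_two]
  simp [(e 0).1, (e 0).2, (e 1).1, (e 1).2, hVU, hu, hua, bf_comm a u]

theorem bf_ei [Fact M.IsSymm] [NeZero (2 : F)] {u a : Ix ι → F} (hu : bf M u u = 0)
    (hua : bf M u a = 0) (x y : Ix ι → F) : bf M (ei M u a x) (ei M u a y) = bf M x y := by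
  simp only [ei, bf_add_left, bf_add_right, bf_sub_left, bf_sub_right, bf_smul_left,
    bf_smul_right, hu, hua, bf_comm a u, bf_comm u y, bf_comm a y]
  field_simp
  ring

/-- The Eichler transformation in the special linear group. -/
def sE (M : Matrix ι ι F) [Fact M.IsSymm] (u a : Ix ι → F) : SLI ι F :=
  if h : bf M u u = 0 ∧ bf M u a = 0 then ⟨1 + Nmat M u a, det_one_add_Nmat h.1 h.2⟩ else 1

variable [Fact M.IsSymm]

theorem mvs_sE {u a : Ix ι → F} (hu : bf M u u = 0) (hua : bf M u a = 0) (x : Ix ι → F) :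
    mvs (sE M u a) x = ei M u a x := by
  have e : (sE M u a : Matrix (Ix ι) (Ix ι) F) = 1 + Nmat M u a := by simp [sE, hu, hua]
  rw [mvs, e, one_add_Nmat_mulVec]

variable [NeZero (2 : F)]

theorem sE_mem_SO {u a : Ix ι → F} (hu : bf M u u = 0) (hua : bf M u a = 0) :
    sE M u a ∈ SO M := fun x y => by
  rw [mvs_sE hu hua, mvs_sE hu hua, bf_ei hu hua]

theorem ei_ei {u a b : Ix ι → F} (hu : bf M u u = 0) (ha : bf M u a = 0) (hb : bf M u b = 0)
    (x : Ix ι → F) : ei M u a (ei M u b x) = ei M u (a + b) x := by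
  simp only [ei, bf_add_left, bf_add_right, bf_sub_left, bf_smul_left, hu, ha, bf_comm b u, hb,
    bf_comm b a]
  ext i
  simp only [Pi.add_apply, Pi.sub_apply, Pi.smul_apply, smul_eq_mul]
  field_simp
  ring

theorem sE_mul {u a b : Ix ι → F} (hu : bf M u u = 0) (ha : bf M u a = 0) (hb : bf M u b = 0) :
    sE M u a * sE M u b = sE M u (a + b) := by
  refine sext fun x => ?_
  rw [mvs_mul, mvs_sE hu hb, mvs_sE hu ha, mvs_sE hu (by simp [ha, hb]), ei_ei hu ha hb]

/-- The diagonal element negating the hyperbolic plane. -/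
def hneg : SLI ι F :=
  ⟨Matrix.diagonal (Sum.elim (fun _ => -1) fun _ => 1), by
    simp [Matrix.det_diagonal, Fintype.prod_sum_type]⟩

omit [NeZero (2 : F)] [Fact M.IsSymm] in
theorem mvs_hneg (x : Ix ι → F) :
    mvs (hneg : SLI ι F) x = -(x (Sum.inl 0) • ev + x (Sum.inl 1) • fv) + lift (mid x) := by
  funext i
  rw [mvs, hneg, Matrix.mulVec_diagonal]
  cases i with
  | inl j => fin_cases j <;> simp
  | inr j =>
    simp only [Sum.elim_inr, one_mul, Pi.add_apply, Pi.neg_apply, Pi.smul_apply, smul_eq_mul]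
    simp [ev, fv, lift, mid]

theorem hneg_mem_SO : (hneg : SLI ι F) ∈ SO M := fun x y => by
  rw [mvs_hneg, mvs_hneg, bf_eq, bf_eq x y]
  simp

theorem sE_mem_Om (j : Fin 2) (a : ι → F) :
    sE M (Pi.single (Sum.inl j) 1) (lift a) ∈ Om M := by
  set u : Ix ι → F := Pi.single (Sum.inl j) 1 with hu_def
  have hm : mid u = 0 := funext fun i => by simp [mid, hu_def]
  have hu : bf M u u = 0 := by
    rw [bf_eq, hm]; fin_cases j <;> simp [hu_def]
  have hua : ∀ c : ι → F, bf M u (lift c) = 0 := fun c => by simp [hm]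
  set b : ι → F := (-(1 / 2 : F)) • a with hb
  have hconj : (hneg : SLI ι F) * sE M u (lift b) = sE M u (lift (-b)) * hneg := by
    refine sext fun x => ?_
    have hh : ∀ z : Ix ι → F, mvs (hneg : SLI ι F) (ei M u (lift b) z) =
        ei M (mvs hneg u) (mvs hneg (lift b)) (mvs hneg z) := fun z => by
      simp only [ei, mvs, Matrix.mulVec_add, Matrix.mulVec_sub,
        Matrix.mulVec_smul]
      simp only [← mvs.eq_1, hneg_mem_SO (M := M) _ _]
    have h1 : mvs (hneg : SLI ι F) u = -u := by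
      rw [mvs_hneg]; fin_cases j <;> refine vext ?_ ?_ ?_ <;> simp [hu_def, mid, funext_iff]
    have h2 : mvs (hneg : SLI ι F) (lift b) = lift b := by
      rw [mvs_hneg]; refine vext ?_ ?_ ?_ <;> simp
    have hl : lift (-b) = -(lift b : Ix ι → F) := vext (by simp) (by simp) (by simp)
    rw [mvs_mul, mvs_mul, mvs_sE hu (hua _), mvs_sE hu (hua _), hh, h1, h2, hl]
    simp only [ei, bf_neg_left, bf_neg_right]
    module
  have hlift : lift a = lift (-b) + lift (-b) := by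
    refine vext (by simp) (by simp) ?_
    rw [mid_add, mid_lift, mid_lift, hb, ← neg_smul, neg_neg, ← add_smul, add_halves, one_smul]
  have hinv : (sE M u (lift b))⁻¹ = sE M u (lift (-b)) := by
    refine inv_eq_of_mul_eq_one_right ?_
    rw [sE_mul hu (hua _) (hua _)]
    refine sext fun x => ?_
    have h0 : lift b + lift (-b) = (0 : Ix ι → F) := vext (by simp) (by simp) (by simp; rfl)
    rw [h0, mvs_sE hu (by simp [bf]), mvs_one, ei]
    simp [bf]
  have hc : sE M u (lift a) = ⁅(hneg : SLI ι F), sE M u (lift b)⁆ := by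
    rw [commutatorElement_def, hinv, hconj, mul_inv_cancel_right, sE_mul hu (hua _) (hua _),
      hlift]
  rw [hc]
  exact Subgroup.commutator_mem_commutator hneg_mem_SO (sE_mem_SO hu (hua _))

/-- The root element at the first singular vector. -/
def Ee (M : Matrix ι ι F) [Fact M.IsSymm] (a : ι → F) : OmG M :=
  ⟨sE M ev (lift a), sE_mem_Om 0 a⟩

/-- The root element at the second singular vector. -/
def Ef (M : Matrix ι ι F) [Fact M.IsSymm] (a : ι → F) : OmG M :=
  ⟨sE M fv (lift a), sE_mem_Om 1 a⟩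

theorem mv_Ee (a : ι → F) (x : Ix ι → F) : mv (Ee M a) x = ei M ev (lift a) x :=
  mvs_sE (by simp) (by simp) x

theorem mv_Ef (a : ι → F) (x : Ix ι → F) : mv (Ef M a) x = ei M fv (lift a) x :=
  mvs_sE (by simp) (by simp) x

theorem Ee_zero_coord (a : ι → F) (x : Ix ι → F) : mv (Ee M a) x (Sum.inl 0) =
    x (Sum.inl 0) - (mf M (mid x) a + mf M a a / 2 * x (Sum.inl 1)) := by
  simp [mv_Ee, ei]

theorem Ee_one_coord (a : ι → F) (x : Ix ι → F) :
    mv (Ee M a) x (Sum.inl 1) = x (Sum.inl 1) := by simp [mv_Ee, ei]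

theorem Ee_mid (a : ι → F) (x : Ix ι → F) :
    mid (mv (Ee M a) x) = mid x + x (Sum.inl 1) • a := by simp [mv_Ee, ei]

theorem Ee_mul (a b : ι → F) : Ee M a * Ee M b = Ee M (a + b) := by
  refine Subtype.ext ?_
  show sE M ev (lift a) * sE M ev (lift b) = sE M ev (lift (a + b))
  rw [sE_mul (by simp) (by simp) (by simp)]
  congr 1
  exact vext (by simp) (by simp) (by simp)

theorem Ee_zero : Ee M (0 : ι → F) = 1 := gext fun x => by
  rw [mv_one]
  exact vext (by simp [Ee_zero_coord]) (by simp [Ee_one_coord]) (by simp [Ee_mid])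

theorem Ee_inv (a : ι → F) : (Ee M a)⁻¹ = Ee M (-a) :=
  inv_eq_of_mul_eq_one_right (by rw [Ee_mul, add_neg_cancel, Ee_zero])

theorem Ee_pow (a : ι → F) (k : ℕ) : Ee M a ^ k = Ee M ((k : F) • a) := by
  induction k with
  | zero => simp [Ee_zero]
  | succ k ih => rw [pow_succ, ih, Ee_mul, Nat.cast_succ, add_smul, one_smul]

theorem mv_Ee_ev (a : ι → F) : mv (Ee M a) (ev : Ix ι → F) = ev :=
  vext (by simp [Ee_zero_coord]) (by simp [Ee_one_coord]) (by simp [Ee_mid])

/-- The radical of the stabiliser of the singular point. -/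
def R (M : Matrix ι ι F) [Fact M.IsSymm] : Subgroup (OmG M) where
  carrier := {g | ∃ a, g = Ee M a}
  one_mem' := ⟨0, Ee_zero.symm⟩
  mul_mem' := by rintro _ _ ⟨a, rfl⟩ ⟨b, rfl⟩; exact ⟨a + b, Ee_mul a b⟩
  inv_mem' := by rintro _ ⟨a, rfl⟩; exact ⟨-a, Ee_inv a⟩

omit [NeZero (2 : F)] in
/-- The stabiliser of the singular point. -/
def P (M : Matrix ι ι F) : Subgroup (OmG M) where
  carrier := {g | ∃ c : F, mv g ev = c • ev}
  one_mem' := ⟨1, by rw [mv_one, one_smul]⟩
  mul_mem' := by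
    rintro a b ⟨c, hc⟩ ⟨c', hc'⟩
    exact ⟨c' * c, by rw [mv_mul, hc', mv_smul, hc, smul_smul]⟩
  inv_mem' := by
    rintro a ⟨c, hc⟩
    have hc0 : c ≠ 0 := fun h => mv_ne_zero a ev_ne_zero (by rw [hc, h, zero_smul])
    refine ⟨c⁻¹, ?_⟩
    have e := congrArg (mv a⁻¹) hc
    rw [mv_inv_mv, mv_smul] at e
    rw [eq_inv_smul_iff₀ hc0, ← e]

/-- Invariance of the Eichler maps. -/
theorem mv_ei (g : OmG M) (u a z : Ix ι → F) :
    mv g (ei M u a z) = ei M (mv g u) (mv g a) (mv g z) := by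
  simp only [ei, mv_sub, mv_add, mv_smul, bf_mv]

theorem Ee_conj {g : OmG M} (hg : g ∈ P M) (a : ι → F) :
    ∃ b, g * Ee M a * g⁻¹ = Ee M b := by
  obtain ⟨c, hc⟩ := hg
  set v := mv g (lift a) with hv
  have hv1 : v (Sum.inl 1) = 0 := by
    have h := bf_mv g (lift a) ev
    rw [hc, bf_smul_right, bf_ev, bf_ev, lift_inl] at h
    refine (mul_eq_zero.1 h).resolve_left fun h0 => mv_ne_zero g ev_ne_zero ?_
    rw [hc, h0, zero_smul]
  refine ⟨c • mid v, mul_inv_eq_of_eq_mul (gext fun x => ?_)⟩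
  rw [mv_mul, mv_mul, mv_Ee, mv_Ee, mv_ei, hc, ← hv]
  refine vext ?_ ?_ ?_ <;> simp [ei, hv1, bf_eq v v, bf_eq (lift (c • mid v)) _, bf_eq _ v] <;>
    first
      | ring1
      | module

theorem normalizes_R {g : OmG M} (hg : g ∈ P M) :
    ∀ q ∈ (R M).map (qm M), qm M g * q * (qm M g)⁻¹ ∈ (R M).map (qm M) := by
  rintro _ ⟨_, ⟨a, rfl⟩, rfl⟩
  obtain ⟨b, hb⟩ := Ee_conj hg a
  exact ⟨_, ⟨b, rfl⟩, by rw [← hb]; simp⟩

/-! ### The opposite point -/

theorem exists_weyl {a : ι → F} (ha : mf M a a ≠ 0) :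
    ∃ w : OmG M, ∃ k : F, k ≠ 0 ∧ mv w ev = k • fv ∧ mv w fv = k⁻¹ • ev := by
  have h2 : (2 : F) ≠ 0 := two_ne_zero
  refine ⟨Ee M a * Ef M ((2 / mf M a a) • a) * Ee M a, -(2 / mf M a a),
    neg_ne_zero.2 (div_ne_zero h2 ha), ?_, ?_⟩ <;>
    rw [mv_mul, mv_mul] <;> refine vext ?_ ?_ ?_ <;>
    simp [mv_Ee, mv_Ef, ei, bf_eq] <;>
    first
      | (field_simp; ring1)
      | (funext i; simp; field_simp; ring1)
      | (field_simp)

variable [Fact (M.det ≠ 0)]

theorem eq_Ee_mul {w : OmG M} {k : F} (hk : k ≠ 0) (hwe : mv w ev = k • fv) {g : OmG M}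
    (hg : mv g ev (Sum.inl 1) ≠ 0) : ∃ a : ι → F, ∃ b ∈ P M, g = Ee M a * w * b := by
  set x := mv g ev with hx
  set c := x (Sum.inl 1) with hc
  refine ⟨c⁻¹ • mid x, w⁻¹ * (Ee M (c⁻¹ • mid x))⁻¹ * g, ⟨c * k⁻¹, ?_⟩, by group⟩
  have hy : mv (Ee M (c⁻¹ • mid x))⁻¹ x = c • fv := by
    have hsing : bf M x x = 0 := by rw [hx, bf_mv]; simp
    rw [bf_eq, ← hc] at hsing
    rw [Ee_inv]
    refine vext ?_ ?_ ?_
    · have h2 : (2 : F) ≠ 0 := two_ne_zero
      simp [Ee_zero_coord, ← hc]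
      field_simp
      linear_combination hsing
    · simp [Ee_one_coord, ← hc]
    · simp [Ee_mid, ← hc, smul_smul, mul_inv_cancel₀ hg]
  have hwi : mv w⁻¹ fv = k⁻¹ • ev := by
    rw [eq_inv_smul_iff₀ hk, ← mv_smul, ← hwe, mv_inv_mv]
  rw [mv_mul, mv_mul, ← hx, hy, mv_smul, hwi, smul_smul]

/-- A subspace element with nonzero self-product exists next to an isotropic one. -/
theorem exists_aniso {a₀ : ι → F} (ha : a₀ ≠ 0) (h0 : mf M a₀ a₀ = 0) :
    ∃ a : ι → F, mf M a a ≠ 0 := by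
  obtain ⟨c, hc⟩ := exists_mf_eq_one (M := M) ha
  by_contra! h
  have h1 := h (c + a₀)
  simp [h c, h0, mf_comm c a₀, hc, one_add_one_eq_two, two_ne_zero] at h1

/-- An isotropic partner of an isotropic vector. -/
theorem exists_pair {a₀ : ι → F} (ha : a₀ ≠ 0) (h0 : mf M a₀ a₀ = 0) :
    ∃ b : ι → F, mf M b b = 0 ∧ mf M a₀ b = 1 := by
  obtain ⟨c, hc⟩ := exists_mf_eq_one (M := M) ha
  refine ⟨c + (-(mf M c c / 2)) • a₀, ?_, ?_⟩
  · simp [h0, mf_comm c a₀, hc]
    field_simp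
    ring
  · simp [h0, hc]

theorem mem_center_of_scalar {z : OmG M} {d : F} (hz : ∀ x, mv z x = d • x) :
    z ∈ Subgroup.center (OmG M) :=
  Subgroup.mem_center_iff.2 fun g => gext fun x => by
    rw [mv_mul, mv_mul, hz, hz, mv_smul]

/-- An element commuting with the radical is a scalar multiple of one of its elements. -/
theorem exists_of_commute {a₀ : ι → F} (ha₀ : a₀ ≠ 0) {g : OmG M}
    (h : ∀ a, Commute g (Ee M a)) :
    ∃ d : F, ∃ a₁ : ι → F, d * d = 1 ∧ ∀ x, mv g x = d • mv (Ee M a₁) x := by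
  have hcomm : ∀ a x, mv g (mv (Ee M a) x) = mv (Ee M a) (mv g x) := fun a x => by
    rw [← mv_mul, ← mv_mul, (h a).eq]
  have hfix : ∀ a, mv (Ee M a) (mv g ev) = mv g ev := fun a => by rw [← hcomm, mv_Ee_ev]
  set u := mv g ev with hu
  have hu1 : u (Sum.inl 1) = 0 := by
    have e := congrArg mid (hfix a₀)
    rw [Ee_mid, add_eq_left, smul_eq_zero] at e
    exact e.resolve_right ha₀
  have hum : mid u = 0 := by
    by_contra hne
    obtain ⟨c, hc⟩ := exists_mf_eq_one (M := M) hne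
    have e := congrFun (hfix c) (Sum.inl 0)
    simp [Ee_zero_coord, hu1, hc] at e
  set d := u (Sum.inl 0) with hd
  have hge : mv g ev = d • ev := vext (by simp [← hu, ← hd]) (by simp [← hu, hu1])
    (by simp [← hu, hum])
  set z := mv g fv with hz
  have hz1 : d * z (Sum.inl 1) = 1 := by
    have e := bf_mv g fv ev
    rw [hge, bf_smul_right, bf_ev, bf_ev, fv_one] at e
    exact e
  have hd0 : d ≠ 0 := fun e => by simp [e] at hz1
  have hL1 : ∀ a, mv g (lift a) (Sum.inl 1) = 0 := fun a => by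
    have e := bf_mv g (lift a) ev
    rw [hge, bf_smul_right, bf_ev, bf_ev, lift_inl] at e
    exact (mul_eq_zero.1 e).resolve_left hd0
  have hLm : ∀ a, mid (mv g (lift a)) = z (Sum.inl 1) • a := fun a => by
    have e := congrArg mid (hcomm a fv)
    rw [Ee_mid, mv_Ee, ei, mv_sub, mv_add, mv_smul, mv_smul, hge] at e
    simpa [bf_eq] using e
  have hsq : z (Sum.inl 1) * z (Sum.inl 1) = 1 := by
    obtain ⟨c, hc⟩ := exists_mf_eq_one (M := M) ha₀
    have e := bf_mv g (lift a₀) (lift c)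
    rw [bf_eq, hL1, hL1, hLm, hLm] at e
    simpa [hc] using e
  have hdd : d * d = 1 := by linear_combination (d * z (Sum.inl 1) + 1) * hz1 - d * d * hsq
  have hzd : z (Sum.inl 1) = d := by linear_combination d * hz1 - z (Sum.inl 1) * hdd
  refine ⟨d, d • mid z, hdd, fun x => ?_⟩
  have hx : mv g x = x (Sum.inl 0) • (d • ev) + x (Sum.inl 1) • z +
      mv g (lift (mid x)) := by
    conv_lhs => rw [decomp x]
    rw [mv_add, mv_add, mv_smul, mv_smul, hge]
  have h2 : (2 : F) ≠ 0 := two_ne_zero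
  have hz0 : z (Sum.inl 0) = -(d * (mf M (mid z) (mid z) / 2)) := by
    have e := bf_mv g fv fv
    rw [← hz, bf_eq, bf_eq fv fv, hzd] at e
    simp at e
    field_simp
    linear_combination d * e - 2 * z (Sum.inl 0) * hdd
  have hL0 : mv g (lift (mid x)) (Sum.inl 0) = -(mf M (mid x) (mid z)) := by
    have e := bf_mv g (lift (mid x)) fv
    rw [← hz, bf_eq, hL1, hLm, hzd, bf_fv, lift_inl] at e
    simp at e
    linear_combination d * e - (mv g (lift (mid x)) (Sum.inl 0) + mf M (mid x) (mid z)) * hdd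
  rw [hx]
  refine vext ?_ ?_ ?_
  · simp [Ee_zero_coord, hz0, hL0]
    field_simp
    linear_combination
      (2 * mf M (mid x) (mid z) + d * x (Sum.inl 1) * mf M (mid z) (mid z)) * hdd
  · simp [Ee_one_coord, hL1, hzd]
    ring
  · simp [Ee_mid, hLm, hzd, smul_add, smul_smul]
    match_scalars <;> field_simp <;> first
      | linear_combination x (Sum.inl 1) * hdd
      | linear_combination (-x (Sum.inl 1)) * hdd

variable {a₀ : ι → F} (ha₀ : a₀ ≠ 0) (h00 : mf M a₀ a₀ = 0)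

include ha₀ h00 in
theorem center_scalar {z : OmG M} (hz : z ∈ Subgroup.center (OmG M)) :
    ∃ d : F, d * d = 1 ∧ ∀ x, mv z x = d • x := by
  obtain ⟨a, ha⟩ := exists_aniso (M := M) ha₀ h00
  obtain ⟨w, k, hk, hwe, -⟩ := exists_weyl ha
  obtain ⟨d, a₁, hd, hx⟩ := exists_of_commute ha₀
    (fun a => (Subgroup.mem_center_iff.1 hz (Ee M a)).symm)
  have hd0 : d ≠ 0 := fun e => by simp [e] at hd
  have e : mv z (mv w ev) = mv w (mv z ev) := by
    rw [← mv_mul, ← mv_mul, Subgroup.mem_center_iff.1 hz w]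
  rw [hwe, hx, hx, mv_Ee_ev, mv_smul (Ee M a₁), mv_smul w, hwe] at e
  have e' := congrArg mid e
  simp [Ee_mid, hk, hd0] at e'
  exact ⟨d, hd, fun x => by rw [hx, e', Ee_zero, mv_one]⟩

include ha₀ h00 in
theorem eq_zero_of_qm {a : ι → F} (h : qm M (Ee M a) = 1) : a = 0 := by
  obtain ⟨d, -, hd⟩ := center_scalar ha₀ h00 ((QuotientGroup.eq_one_iff _).1 h)
  have e1 := congrFun (hd fv) (Sum.inl 1)
  have e2 := congrArg mid (hd fv)
  simpa [Ee_mid] using e2

include ha₀ h00 in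
theorem mem_P_of_qm {g : OmG M} (h : qm M g ∈ (P M).map (qm M)) : g ∈ P M := by
  obtain ⟨b, hb, e⟩ := h
  obtain ⟨c, hc⟩ := hb
  obtain ⟨d, -, hd⟩ := center_scalar ha₀ h00 (QuotientGroup.eq.1 e)
  refine ⟨d * c, ?_⟩
  rw [← mul_inv_cancel_left b g, mv_mul, hd, mv_smul, hc, smul_smul]

section
variable (r : ℕ) [Fact r.Prime] [CharP F r]

theorem R_pow {g : OmG M} (hg : g ∈ R M) : g ^ r = 1 := by
  obtain ⟨a, rfl⟩ := hg
  rw [Ee_pow, CharP.cast_eq_zero, zero_smul, Ee_zero]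

theorem R_map_pow {q : POmG M} (hq : q ∈ (R M).map (qm M)) : q ^ r = 1 := by
  obtain ⟨g, hg, rfl⟩ := hq
  rw [← map_pow, R_pow r hg, map_one]

include ha₀ h00 in
theorem commute_of_map_commute {g u : OmG M} (hu : u ^ r = 1)
    (h : Commute (qm M g) (qm M u)) : Commute g u := by
  set z := u⁻¹ * (g * u * g⁻¹) with hz
  have hzc : z ∈ Subgroup.center (OmG M) := by
    rw [← QuotientGroup.eq_one_iff (N := Subgroup.center (OmG M))]
    show (qm M) z = 1
    rw [hz, map_mul, map_mul, map_mul, map_inv, map_inv, h.eq, mul_inv_cancel_right,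
      inv_mul_cancel]
  have hzr : z ^ r = 1 := by
    have e : g * u * g⁻¹ = u * z := by rw [hz]; group
    have hcom : Commute u z := Subgroup.mem_center_iff.1 hzc u
    have := congrArg (· ^ r) e
    simp only [conj_pow, hcom.mul_pow, hu, mul_one, mul_inv_cancel, one_mul] at this
    exact this.symm
  have hz1 : z = 1 := by
    obtain ⟨d, -, hd⟩ := center_scalar ha₀ h00 hzc
    have hk : ∀ k : ℕ, mv (z ^ k) ev = (d ^ k) • (ev : Ix ι → F) := by
      intro k
      induction k with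
      | zero => simp [mv_one]
      | succ k ih => rw [pow_succ', mv_mul, ih, mv_smul, hd, smul_smul, pow_succ]
    have h1 := congrFun (hk r) (Sum.inl 0)
    rw [hzr, mv_one] at h1
    have h2 : d ^ r = 1 := by simpa using h1.symm
    have h3 : d = 1 := frobenius_inj F r (by rw [frobenius_def, frobenius_def, h2, one_pow])
    exact gext fun x => by rw [hd, h3, one_smul, mv_one]
  rw [hz, inv_mul_eq_one] at hz1
  exact (mul_inv_eq_iff_eq_mul.1 hz1.symm)

include ha₀ h00 r in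
theorem centralizer_R : Subgroup.centralizer (((R M).map (qm M) : Subgroup (POmG M)) :
    Set (POmG M)) ≤ (R M).map (qm M) := by
  intro x hx
  obtain ⟨g, rfl⟩ := QuotientGroup.mk'_surjective _ x
  obtain ⟨d, a₁, -, hd⟩ := exists_of_commute ha₀ fun a =>
    commute_of_map_commute ha₀ h00 r (R_pow r ⟨a, rfl⟩)
      (Subgroup.mem_centralizer_iff.1 hx _ ⟨_, ⟨a, rfl⟩, rfl⟩).symm
  refine ⟨_, ⟨a₁, rfl⟩, QuotientGroup.eq.2 ?_⟩
  refine mem_center_of_scalar (d := d) fun x => ?_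
  rw [mv_mul, hd, mv_smul, mv_inv_mv]

/-- The inclusion into matrices. -/
def toMat (M : Matrix ι ι F) : OmG M →* Matrix (Ix ι) (Ix ι) F :=
  Matrix.SpecialLinearGroup.coeMonoidHom.comp (Om M).subtype

theorem toMat_mulVec (g : OmG M) (x : Ix ι → F) : toMat M g *ᵥ x = mv g x := rfl

theorem long_mulVec {a : ι → F} (h : mf M a a = 0) (z : Ix ι → F) :
    Nmat M ev (lift a) *ᵥ z = z (Sum.inl 1) • lift a - mf M (mid z) a • ev := by
  rw [Nmat_mulVec]
  simp [h]

theorem long_sq {a : ι → F} (h : mf M a a = 0) :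
    Nmat M ev (lift a) * Nmat M ev (lift a) = 0 :=
  Matrix.ext_of_mulVec_single fun i => by
    rw [← Matrix.mulVec_mulVec, long_mulVec h, long_mulVec h, Matrix.zero_mulVec]
    simp [h]

theorem long_coe {a : ι → F} (h : mf M a a = 0) (x : F) :
    toMat M (Ee M (x • a)) = 1 + x • Nmat M ev (lift a) :=
  Matrix.ext_of_mulVec_single fun i => by
    rw [toMat_mulVec, Matrix.add_mulVec, Matrix.one_mulVec, Matrix.smul_mulVec, long_mulVec h]
    refine vext ?_ ?_ ?_ <;>
      simp [Ee_zero_coord, Ee_one_coord, Ee_mid, h, smul_smul, mul_comm x] <;> ring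

variable {p : ℕ} [Fact p.Prime]

include ha₀ h00 in
/-- An element of an invariant group commutes with the long root elements. -/
theorem commute_long [Finite F] (hpr : p ≠ r) (hbig : 3 < Nat.card F ∨ (p = 2 ∧ 3 ≤ Fintype.card ι))
    {W : Subgroup (POmG M)} (hW : IsElem p W)
    (hinv : ∀ q ∈ (R M).map (qm M), ∀ w ∈ W, q * w * q⁻¹ ∈ W) {g : OmG M} (hg : qm M g ∈ W)
    {a : ι → F} (ha : mf M a a = 0) : Commute (Nmat M ev (lift a)) (toMat M g) := by
  let : Fintype F := Fintype.ofFinite F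
  have hp : (p : F) ≠ 0 := fun h => hpr
    ((Nat.prime_dvd_prime_iff_eq Fact.out Fact.out).1 ((CharP.cast_eq_zero_iff F r p).1 h)).symm
  refine commute_of_invariant (toMat M) (fun z hz => ?_) two_ne_zero hp (long_sq ha) Finset.univ
    (Finset.mem_univ 0) (fun x => Ee M (x • a)) (fun x _ => long_coe ha x) ?_ hW
    (fun x _ w hw => hinv _ ⟨_, ⟨_, rfl⟩, rfl⟩ w hw) hg
  · obtain ⟨d, -, hd⟩ := center_scalar ha₀ h00 hz
    refine ⟨d, Matrix.ext_of_mulVec_single fun i => ?_⟩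
    rw [toMat_mulVec, hd]
    ext j
    simp [Matrix.mulVec_single, Pi.single_apply]
  rcases hbig with h | ⟨h, hc⟩
  · exact Or.inl (by rwa [Finset.card_univ, ← Nat.card_eq_fintype_card])
  refine Or.inr ⟨h, ⟨1, Finset.mem_univ _, one_ne_zero⟩, fun A => ?_⟩
  let φ : (Ix ι → F) →ₗ[F] (Fin 4 → F) :=
    { toFun := fun y => ![bf M y ev, bf M y (lift a), bf M (A *ᵥ y) ev, bf M (A *ᵥ y) (lift a)]
      map_add' := fun x y => by ext i; fin_cases i <;> simp [Matrix.mulVec_add]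
      map_smul' := fun c x => by ext i; fin_cases i <;> simp [Matrix.mulVec_smul] }
  obtain ⟨y, hy, hy0⟩ := Submodule.exists_mem_ne_zero_of_ne_bot
    (LinearMap.ker_ne_bot_of_finrank_lt (f := φ) (by simp [Fintype.card_sum]; omega))
  have e : ∀ i, φ y i = 0 := fun i => congrFun (LinearMap.mem_ker.1 hy) i
  refine ⟨y, hy0, ?_, ?_⟩
  · have e0 := e 0
    have e1 := e 1
    simp [φ] at e0 e1
    simp [long_mulVec ha, e0, e1]
  · have e0 := e 2
    have e1 := e 3
    simp [φ] at e0 e1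
    simp [long_mulVec ha, e0, e1]

include ha₀ h00 in
theorem no_invariant [Finite F] (hpr : p ≠ r)
    (hbig : 3 < Nat.card F ∨ (p = 2 ∧ 3 ≤ Fintype.card ι)) {W : Subgroup (POmG M)} (hW : IsElem p W)
    (hinv : ∀ q ∈ (R M).map (qm M), ∀ w ∈ W, q * w * q⁻¹ ∈ W) : W = ⊥ := by
  rw [Subgroup.eq_bot_iff_forall]
  intro x hx
  obtain ⟨g, rfl⟩ := QuotientGroup.mk'_surjective _ x
  obtain ⟨b, hb, hab⟩ := exists_pair ha₀ h00
  have key : ∀ a c : ι → F, mf M a a = 0 → mf M c a = 1 →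
      mv g ev (Sum.inl 1) = 0 ∧ ∃ s : F, mid (mv g ev) = s • a := by
    intro a c ha hca
    have e := congrArg (· *ᵥ lift c) (commute_long ha₀ h00 r hpr hbig hW hinv hx ha).eq
    simp only [← Matrix.mulVec_mulVec, long_mulVec ha, toMat_mulVec, mid_lift,
      lift_inl, zero_smul, hca, one_smul, zero_sub, mv_neg] at e
    refine ⟨?_, -(mv g (lift c) (Sum.inl 1)), ?_⟩
    · have := congrFun e (Sum.inl 1)
      simpa using this.symm
    · have := congrArg mid e
      simp at this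
      rw [neg_smul, this, neg_neg]
  obtain ⟨h1, s, hs⟩ := key a₀ b h00 (by rw [mf_comm]; exact hab)
  obtain ⟨-, t, ht⟩ := key b a₀ hb hab
  have hs0 : s = 0 := by
    have e := congrArg (mf M · b) (hs.symm.trans ht)
    simpa [hab, hb] using e
  have hgP : g ∈ P M := ⟨mv g ev (Sum.inl 0), vext (by simp) (by simp [h1]) (by simp [hs, hs0])⟩
  have hco : ∀ q ∈ (R M).map (qm M), q * qm M g = qm M g * q := by
    intro q hq
    have hc : qm M g * q * (qm M g)⁻¹ * q⁻¹ = 1 := by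
      have m1 : qm M g * q * (qm M g)⁻¹ * q⁻¹ ∈ (R M).map (qm M) :=
        Subgroup.mul_mem _ (normalizes_R hgP q hq) (Subgroup.inv_mem _ hq)
      have m2 : qm M g * q * (qm M g)⁻¹ * q⁻¹ ∈ W := by
        rw [mul_assoc, mul_assoc, ← mul_assoc q]
        exact W.mul_mem hx (hinv q hq _ (W.inv_mem hx))
      have h3 := pow_gcd_eq_one.2 ⟨hW.2 _ m2, R_map_pow r m1⟩
      rwa [(Nat.coprime_primes Fact.out Fact.out).2 hpr, pow_one] at h3
    rw [mul_inv_eq_one, mul_inv_eq_iff_eq_mul] at hc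
    exact hc.symm
  have hmem : qm M g ∈ (R M).map (qm M) :=
    centralizer_R ha₀ h00 r (Subgroup.mem_centralizer_iff.2 hco)
  have h3 := pow_gcd_eq_one.2 ⟨hW.2 _ hx, R_map_pow r hmem⟩
  rwa [(Nat.coprime_primes Fact.out Fact.out).2 hpr, pow_one] at h3

include ha₀ h00 in
theorem aut_eq_one [Finite F] (hpr : p ≠ r) {α : MulAut (POmG M)} (hα : α ^ p = 1)
    (hfix : ∀ q ∈ (R M).map (qm M), α q = q) : α = 1 := by
  obtain ⟨a, ha⟩ := exists_aniso (M := M) ha₀ h00
  obtain ⟨w, k, hk, hwe, hwf⟩ := exists_weyl ha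
  have hwie : mv w⁻¹ ev = k • fv := by
    have h := congrArg (mv w⁻¹) hwf
    rw [mv_inv_mv, mv_smul, eq_inv_smul_iff₀ hk] at h
    exact h.symm
  have hwif : mv w⁻¹ fv = k⁻¹ • ev := by
    rw [eq_inv_smul_iff₀ hk, ← mv_smul, ← hwe, mv_inv_mv]
  have hwy : ∀ y, mv w y (Sum.inl 1) = k * y (Sum.inl 0) := fun y => by
    rw [← bf_ev (M := M) (mv w y), bf_mv_left, hwie, bf_smul_right, bf_fv]
  have hR : IsPGroup r ((R M).map (qm M)) := fun q => ⟨1, Subtype.ext (by
    simpa using R_map_pow r q.2)⟩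
  refine eq_one_of_opposite hpr hR (centralizer_R ha₀ h00 r)
    (P := (P M).map (qm M)) ?_ (qm M w) ?_ ?_ ?_ ?_ ?_ ?_ hα hfix
  · rintro _ ⟨g, hg, rfl⟩ q hq
    exact normalizes_R hg q hq
  · intro x hcap
    obtain ⟨g, rfl⟩ := QuotientGroup.mk'_surjective _ x
    by_cases h1 : mv g ev (Sum.inl 1) ≠ 0
    · obtain ⟨c, b, hb, e⟩ := eq_Ee_mul hk hwe h1
      exact ⟨_, ⟨_, ⟨c, rfl⟩, rfl⟩, _, ⟨b, hb, rfl⟩, by rw [e, map_mul, map_mul]⟩
    push Not at h1
    exfalso
    by_cases hv : mid (mv g ev) = 0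
    · have hgP : g ∈ P M := ⟨mv g ev (Sum.inl 0), vext (by simp) (by simp [h1]) (by simp [hv])⟩
      refine ha₀ (eq_zero_of_qm ha₀ h00 (Subgroup.mem_bot.1 (hcap ▸ ⟨mem_cj.2 ?_, ⟨_, ⟨a₀, rfl⟩, rfl⟩⟩)))
      have := normalizes_R ((P M).inv_mem hgP) (qm M (Ee M a₀)) ⟨_, ⟨a₀, rfl⟩, rfl⟩
      rwa [map_inv, inv_inv] at this
    refine hv (neg_eq_zero.1 (eq_zero_of_qm ha₀ h00 (Subgroup.mem_bot.1
      (hcap ▸ ⟨mem_cj.2 ?_, ⟨_, ⟨-mid (mv g ev), rfl⟩, rfl⟩⟩))))
    refine ⟨_, ⟨mid (mv g⁻¹ ev), rfl⟩, ?_⟩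
    rw [← map_inv, ← map_mul, ← map_mul]
    congr 1
    set x := mv g ev with hx
    set y := mv g⁻¹ ev with hy
    have hy1 : y (Sum.inl 1) = 0 := by
      have e := bf_mv g⁻¹ ev (mv g ev)
      rw [mv_inv_mv, bf_ev, ← hy, bf_comm, bf_ev, ← hx, h1] at e
      exact e
    have hvv : mf M (mid x) (mid x) = 0 := by
      have e := bf_mv g ev ev
      rw [← hx, bf_eq, h1] at e
      simpa using e
    have hyy : mf M (mid y) (mid y) = 0 := by
      have e := bf_mv g⁻¹ ev ev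
      rw [← hy, bf_eq, hy1] at e
      simpa using e
    have hga : mv g (lift (mid y)) = ev - y (Sum.inl 0) • x := by
      have e : lift (mid y) = y - y (Sum.inl 0) • ev := vext (by simp) (by simp [hy1]) (by simp)
      rw [e, mv_sub, mv_smul, hy, mv_mv_inv, hx]
    rw [mul_assoc, eq_inv_mul_iff_mul_eq]
    refine gext fun z => ?_
    rw [mv_mul, mv_mul, mv_Ee, mv_Ee, mv_ei, hga, ← hx]
    set t := mv g z
    refine vext ?_ ?_ ?_ <;>
      simp [ei, bf_eq t x, bf_eq x x, bf_eq ev x, h1, hvv] <;>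
      first
        | ring1
        | module
  · rw [Subgroup.eq_bot_iff_forall]
    rintro _ ⟨hx, ⟨_, ⟨c, rfl⟩, rfl⟩⟩
    obtain ⟨_, ⟨b, rfl⟩, hb⟩ := mem_cj.1 hx
    have e : qm M (Ee M c) = qm M (w * Ee M b * w⁻¹) := by
      rw [map_mul, map_mul, map_inv, hb]; group
    obtain ⟨d, -, hd⟩ := center_scalar ha₀ h00 (QuotientGroup.eq.1 e)
    have e1 := hd fv
    rw [mv_mul, mv_mul, mv_mul, hwif, mv_smul, mv_Ee_ev, mv_smul, hwe, smul_smul,
      inv_mul_cancel₀ hk, one_smul, Ee_inv] at e1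
    have e2 := congrArg mid e1
    simp [Ee_mid] at e2
    rw [e2, Ee_zero, map_one]
  · rintro _ ⟨_, ⟨c, rfl⟩, rfl⟩ h
    rw [← map_inv, ← map_mul, ← map_mul] at h
    obtain ⟨s, hs⟩ := mem_P_of_qm ha₀ h00 h
    have e := congrArg mid (congrArg (mv w) hs)
    rw [mv_mul, mv_mul, mv_mv_inv, hwe, mv_smul, mv_smul, hwe] at e
    simp [Ee_mid, hk] at e
    rw [e, Ee_zero, map_one]
  · rintro _ ⟨_, ⟨c, rfl⟩, rfl⟩ h
    rw [← map_inv, ← map_mul, ← map_mul] at h
    obtain ⟨s, hs⟩ := mem_P_of_qm ha₀ h00 h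
    have e := congrArg mid (congrArg (mv w⁻¹) hs)
    rw [mv_mul, mv_mul, mv_inv_mv, hwie, mv_smul, mv_smul, hwie] at e
    simp [Ee_mid, hk] at e
    rw [e, Ee_zero, map_one]
  · have h2 : (2 : F) ≠ 0 := two_ne_zero
    have hne : mv (w * Ee M a * w⁻¹) ev (Sum.inl 1) ≠ 0 := by
      rw [mv_mul, mv_mul, hwy, hwie, mv_smul]
      simp [Ee_zero_coord, ha, hk, h2]
    obtain ⟨c, b, hb, e⟩ := eq_Ee_mul hk hwe hne
    exact ⟨_, ⟨_, ⟨a, rfl⟩, rfl⟩, _, ⟨_, ⟨c, rfl⟩, rfl⟩, _, ⟨b, hb, rfl⟩,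
      by simpa using congrArg (qm M) e⟩
  · set C := Subgroup.closure (((P M).map (qm M) : Set (POmG M)) ∪ {qm M w}) with hC
    have hPC : ∀ b ∈ P M, qm M b ∈ C := fun b hb => Subgroup.subset_closure (Or.inl ⟨b, hb, rfl⟩)
    have hwC : qm M w ∈ C := Subgroup.subset_closure (Or.inr rfl)
    have hEC : ∀ c, qm M (Ee M c) ∈ C := fun c =>
      hPC _ ⟨1, by rw [mv_Ee_ev, one_smul]⟩
    have hbig : ∀ g : OmG M, mv g ev (Sum.inl 1) ≠ 0 → qm M g ∈ C := fun g hg => by
      obtain ⟨c, b, hb, e⟩ := eq_Ee_mul hk hwe hg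
      rw [e, map_mul, map_mul]
      exact C.mul_mem (C.mul_mem (hEC c) hwC) (hPC b hb)
    rw [eq_top_iff]
    rintro x -
    obtain ⟨g, rfl⟩ := QuotientGroup.mk'_surjective _ x
    by_cases h1 : mv g ev (Sum.inl 1) ≠ 0
    · exact hbig g h1
    push Not at h1
    by_cases hv : mid (mv g ev) = 0
    · exact hPC g ⟨mv g ev (Sum.inl 0), vext (by simp) (by simp [h1]) (by simp [hv])⟩
    obtain ⟨c, hc⟩ := exists_mf_eq_one (M := M) hv
    have h := hbig (w * (Ee M ((mv g ev (Sum.inl 0) - 1) • c) * g)) (by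
      rw [mv_mul, hwy, mv_mul, Ee_zero_coord, h1, mf_smul_right, hc]
      simpa using hk)
    rw [map_mul, map_mul] at h
    have h' := C.mul_mem (C.inv_mem (hEC ((mv g ev (Sum.inl 0) - 1) • c)))
      (C.mul_mem (C.inv_mem hwC) h)
    rwa [inv_mul_cancel_left, inv_mul_cancel_left] at h'

end

include ha₀ h00 in
/-- Projective orthogonal commutator groups are not commutative. -/
theorem noncomm {r : ℕ} [Fact r.Prime] [CharP F r] :
    ∃ a b : POmG M, a * b ≠ b * a := by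
  obtain ⟨a, ha⟩ := exists_aniso (M := M) ha₀ h00
  obtain ⟨w, k, hk, hwe, -⟩ := exists_weyl ha
  refine ⟨qm M w, qm M (Ee M a₀), fun h => ha₀ ?_⟩
  have e := congrArg (mv · ev) (commute_of_map_commute ha₀ h00 r (R_pow r ⟨a₀, rfl⟩) h).eq
  simp only [mv_mul, mv_Ee_ev, hwe, mv_smul] at e
  have e' := congrArg mid e
  simp [Ee_mid] at e'
  exact (smul_eq_zero.1 e'.symm).resolve_left hk

include ha₀ h00 in
/-- **Projective orthogonal commutator groups have Robinson subgroups.** -/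
theorem hasRobinson_pomega [Finite F] {p r : ℕ} [Fact p.Prime] [Fact r.Prime] [CharP F r]
    (hpr : p ≠ r) (hbig : 3 < Nat.card F ∨ (p = 2 ∧ 3 ≤ Fintype.card ι)) :
    HasRobinson p r (POmG M) := by
  refine ⟨(R M).map (qm M), fun h => ha₀ (eq_zero_of_qm ha₀ h00 ?_), fun q => ⟨1, Subtype.ext (by
    simpa using R_map_pow r q.2)⟩, fun W hW hinv => no_invariant ha₀ h00 r hpr hbig hW hinv,
    fun α hα hfix => aut_eq_one ha₀ h00 r hpr hα hfix⟩
  exact Subgroup.mem_bot.1 (h ▸ ⟨_, ⟨a₀, rfl⟩, rfl⟩)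

end Orthogonal

end Vale.Agent.P240
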