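import Vale.Agent.P240.Robinson.Linear

/-!
# Projective symplectic groups in characteristic `r` have Robinson `r`-subgroups

The symplectic group of degree `2 (m + 2)` acts on column vectors. The Robinson subgroup is
generated by the pointwise stabiliser `U` of the Lagrangian subspace `L` of the first `m + 2`
coordinates and the radical `R1` of the stabiliser of a point of `L`. Both are self-centralising
modulo the centre, and their normalisers `P` and `P1` generate the group.
-/

set_option linter.unusedSectionVars false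

open scoped Classical
open Matrix

noncomputable section

namespace Vale.Agent.P240

namespace Symplectic

variable {m : ℕ} {F : Type*} [Field F]

/-- The coordinates of the symplectic space. -/
abbrev Ix (m : ℕ) := Fin (m + 2) ⊕ Fin (m + 2)

/-- The symplectic group of degree `2 (m + 2)`. -/
abbrev SpG (m : ℕ) (F : Type*) [Field F] := ↥(Matrix.symplecticGroup (Fin (m + 2)) F)

/-- The projective symplectic group of degree `2 (m + 2)`. -/
abbrev PSpG (m : ℕ) (F : Type*) [Field F] := SpG m F ⧸ Subgroup.center (SpG m F)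

/-- The quotient map. -/
abbrev qm (m : ℕ) (F : Type*) [Field F] : SpG m F →* PSpG m F :=
  QuotientGroup.mk' (Subgroup.center (SpG m F))

/-- The action on column vectors. -/
def mv (g : SpG m F) (x : Ix m → F) : Ix m → F := (g : Matrix (Ix m) (Ix m) F) *ᵥ x

theorem mv_mul (g h : SpG m F) (x : Ix m → F) : mv (g * h) x = mv g (mv h x) := by
  simp [mv, Matrix.mulVec_mulVec]

theorem mv_one (x : Ix m → F) : mv (1 : SpG m F) x = x := by simp [mv]

theorem mv_inv_mv (g : SpG m F) (x : Ix m → F) : mv g⁻¹ (mv g x) = x := by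
  rw [← mv_mul, inv_mul_cancel, mv_one]

theorem mv_mv_inv (g : SpG m F) (x : Ix m → F) : mv g (mv g⁻¹ x) = x := by
  rw [← mv_mul, mul_inv_cancel, mv_one]

theorem mv_add (g : SpG m F) (x y : Ix m → F) : mv g (x + y) = mv g x + mv g y :=
  Matrix.mulVec_add _ x y

theorem mv_sub (g : SpG m F) (x y : Ix m → F) : mv g (x - y) = mv g x - mv g y :=
  Matrix.mulVec_sub _ x y

theorem mv_smul (g : SpG m F) (c : F) (x : Ix m → F) : mv g (c • x) = c • mv g x :=
  Matrix.mulVec_smul _ c x

theorem mv_zero (g : SpG m F) : mv g 0 = 0 := Matrix.mulVec_zero _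

theorem mv_ne_zero (g : SpG m F) {x : Ix m → F} (hx : x ≠ 0) : mv g x ≠ 0 := fun h =>
  hx (by rw [← mv_inv_mv g x, h, mv_zero])

theorem ext_mv {g h : SpG m F} (H : ∀ x, mv g x = mv h x) : g = h :=
  Subtype.ext (Matrix.ext_of_mulVec_single fun _ => H _)

/-- The symplectic form. -/
def om (x y : Ix m → F) : F := x ⬝ᵥ (Matrix.J (Fin (m + 2)) F *ᵥ y)

theorem om_eq (x y : Ix m → F) :
    om x y = ∑ i, (x (Sum.inr i) * y (Sum.inl i) - x (Sum.inl i) * y (Sum.inr i)) := by
  simp only [om, Matrix.J, Matrix.fromBlocks_mulVec, dotProduct, Fintype.sum_sum_type,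
    Finset.sum_sub_distrib]
  simp [Matrix.neg_mulVec, Finset.sum_neg_distrib]
  ring

theorem om_self (x : Ix m → F) : om x x = 0 := by
  rw [om_eq]
  exact Finset.sum_eq_zero fun i _ => by ring

theorem om_swap (x y : Ix m → F) : om y x = -om x y := by
  rw [om_eq, om_eq, ← Finset.sum_neg_distrib]
  exact Finset.sum_congr rfl fun i _ => by ring

theorem om_add_left (x y z : Ix m → F) : om (x + y) z = om x z + om y z := add_dotProduct ..

theorem om_sub_left (x y z : Ix m → F) : om (x - y) z = om x z - om y z := sub_dotProduct ..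

theorem om_smul_left (c : F) (x y : Ix m → F) : om (c • x) y = c * om x y := smul_dotProduct ..

theorem om_neg_left (x y : Ix m → F) : om (-x) y = -om x y := neg_dotProduct ..

theorem om_add_right (x y z : Ix m → F) : om x (y + z) = om x y + om x z := by
  rw [om, Matrix.mulVec_add, dotProduct_add]; rfl

theorem om_sub_right (x y z : Ix m → F) : om x (y - z) = om x y - om x z := by
  rw [om, Matrix.mulVec_sub, dotProduct_sub]; rfl

theorem om_smul_right (c : F) (x y : Ix m → F) : om x (c • y) = c * om x y := by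
  rw [om, Matrix.mulVec_smul, dotProduct_smul]; rfl

theorem om_single_inl (x : Ix m → F) (i : Fin (m + 2)) :
    om x (Pi.single (Sum.inl i) 1) = x (Sum.inr i) := by
  rw [om_eq]; simp [Pi.single_apply]

theorem om_single_inr (x : Ix m → F) (i : Fin (m + 2)) :
    om x (Pi.single (Sum.inr i) 1) = -x (Sum.inl i) := by
  rw [om_eq]; simp [Pi.single_apply]

theorem om_mv (g : SpG m F) (x y : Ix m → F) : om (mv g x) (mv g y) = om x y := by
  have h := SymplecticGroup.mem_iff'.1 g.2
  rw [om, mv, mv, ← Matrix.vecMul_transpose, ← Matrix.dotProduct_mulVec, Matrix.mulVec_mulVec,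
    Matrix.mulVec_mulVec, h, om]

theorem exists_om_eq_one {v : Ix m → F} (hv : v ≠ 0) : ∃ x, om x v = 1 := by
  obtain ⟨k, hk⟩ : ∃ k, v k ≠ 0 := Function.ne_iff.1 hv
  cases k with
  | inl i => exact ⟨(v (Sum.inl i))⁻¹ • Pi.single (Sum.inr i) 1, by
      rw [om_smul_left, om_swap, om_single_inr, neg_neg, inv_mul_cancel₀ hk]⟩
  | inr i => exact ⟨(-v (Sum.inr i))⁻¹ • Pi.single (Sum.inl i) 1, by
      rw [om_smul_left, om_swap, om_single_inl, inv_mul_cancel₀ (neg_ne_zero.2 hk)]⟩

/-- A matrix preserving the form is symplectic. -/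
theorem mem_of_om {A : Matrix (Ix m) (Ix m) F} (h : ∀ x y, om (A *ᵥ x) (A *ᵥ y) = om x y) :
    A ∈ Matrix.symplecticGroup (Fin (m + 2)) F := by
  refine SymplecticGroup.mem_iff'.2 (Matrix.ext fun i j => ?_)
  have := h (Pi.single i 1) (Pi.single j 1)
  rw [om, om, ← Matrix.vecMul_transpose, ← Matrix.dotProduct_mulVec, Matrix.mulVec_mulVec,
    Matrix.mulVec_mulVec] at this
  simpa using this

/-- The infinitesimal root element attached to two vectors. -/
def Nmat (a b : Ix m → F) : Matrix (Ix m) (Ix m) F :=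
  Matrix.vecMulVec a (Matrix.J (Fin (m + 2)) F *ᵥ b) +
    Matrix.vecMulVec b (Matrix.J (Fin (m + 2)) F *ᵥ a)

theorem Nmat_mulVec (a b x : Ix m → F) : Nmat a b *ᵥ x = om x b • a + om x a • b := by
  rw [Nmat, Matrix.add_mulVec, Matrix.vecMulVec_mulVec, Matrix.vecMulVec_mulVec, op_smul_eq_smul,
    op_smul_eq_smul, dotProduct_comm _ x, dotProduct_comm _ x]
  rfl

/-- The root element attached to two orthogonal vectors. -/
def S (a b : Ix m → F) : SpG m F :=
  if h : om a b = 0 then ⟨1 + Nmat a b, mem_of_om fun x y => by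
    simp only [Matrix.add_mulVec, Matrix.one_mulVec, Nmat_mulVec, om_add_left, om_add_right,
      om_smul_left, om_smul_right, om_self, h, om_swap a b, om_swap y a, om_swap y b]
    ring⟩
  else 1

theorem mv_S {a b : Ix m → F} (h : om a b = 0) (x : Ix m → F) :
    mv (S a b) x = x + om x b • a + om x a • b := by
  rw [mv, S, dif_pos h, Matrix.add_mulVec, Matrix.one_mulVec, Nmat_mulVec, add_assoc]

theorem mul_S (g : SpG m F) {a b : Ix m → F} (h : om a b = 0) :
    g * S a b = S (mv g a) (mv g b) * g := by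
  refine ext_mv fun x => ?_
  rw [mv_mul, mv_mul, mv_S h, mv_S (by rw [om_mv]; exact h), mv_add, mv_add, mv_smul, mv_smul,
    om_mv, om_mv]

/-- The infinitesimal transvection. -/
def N1 (v : Ix m → F) : Matrix (Ix m) (Ix m) F :=
  Matrix.vecMulVec v (Matrix.J (Fin (m + 2)) F *ᵥ v)

theorem N1_mulVec (v x : Ix m → F) : N1 v *ᵥ x = om x v • v := by
  rw [N1, Matrix.vecMulVec_mulVec, op_smul_eq_smul, dotProduct_comm]; rfl

theorem N1_sq (v : Ix m → F) : N1 v * N1 v = 0 := by
  refine Matrix.ext_of_mulVec_single fun i => ?_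
  rw [← Matrix.mulVec_mulVec, N1_mulVec, N1_mulVec, om_smul_left, om_self, mul_zero, zero_smul,
    Matrix.zero_mulVec]

section
variable [NeZero (2 : F)]

/-- The transvections. -/
def T (v : Ix m → F) (x : F) : SpG m F := S ((x / 2) • v) v

theorem mv_T (v : Ix m → F) (x : F) (y : Ix m → F) :
    mv (T v x) y = y + (x * om y v) • v := by
  rw [T, mv_S (by rw [om_smul_left, om_self, mul_zero]), om_smul_right, smul_smul, add_assoc,
    ← add_smul]
  congr 2
  field_simp
  ring

theorem coe_T (v : Ix m → F) (x : F) :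
    (T v x : Matrix (Ix m) (Ix m) F) = 1 + x • N1 v := by
  refine Matrix.ext_of_mulVec_single fun i => ?_
  rw [Matrix.add_mulVec, Matrix.one_mulVec, Matrix.smul_mulVec, N1_mulVec, smul_smul]
  exact mv_T v x _

theorem T_inv (v : Ix m → F) (x : F) : (T v x)⁻¹ = T v (-x) := by
  refine inv_eq_of_mul_eq_one_right (ext_mv fun y => ?_)
  rw [mv_mul, mv_T, mv_T, mv_one, om_add_left, om_smul_left, om_self, mul_zero, add_zero,
    add_assoc, ← add_smul, neg_mul, neg_add_cancel, zero_smul, add_zero]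

theorem mul_T (g : SpG m F) (v : Ix m → F) (x : F) : g * T v x = T (mv g v) x * g := by
  rw [T, T, mul_S g (by rw [om_smul_left, om_self, mul_zero]), mv_smul]

end

/-- An element commuting with a transvection has its vector as eigenvector. -/
theorem eig {g : SpG m F} {v : Ix m → F} (hv : v ≠ 0)
    (h : Commute (N1 v) (g : Matrix (Ix m) (Ix m) F)) :
    ∃ d : F, d * d = 1 ∧ mv g v = d • v := by
  obtain ⟨x, hx⟩ := exists_om_eq_one hv
  have e := congrArg (· *ᵥ x) h.eq
  simp only [← Matrix.mulVec_mulVec, N1_mulVec, hx, one_smul] at e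
  refine ⟨om (mv g x) v, ?_, e.symm⟩
  have := om_mv g x v
  rw [show mv g v = om (mv g x) v • v from e.symm, om_smul_right, hx] at this
  exact this

/-- An element with all coordinate vectors and their sums in a coordinate subspace as eigenvectors
is scalar on that subspace. -/
theorem eig_const {g : SpG m F} {s : Ix m → Prop} {k0 : Ix m} (hk0 : s k0)
    (h : ∀ v : Ix m → F, v ≠ 0 → (∀ k, ¬ s k → v k = 0) → ∃ d : F, d * d = 1 ∧ mv g v = d • v) :
    ∃ d : F, d * d = 1 ∧ ∀ x : Ix m → F, (∀ k, ¬ s k → x k = 0) → mv g x = d • x := by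
  have hsup : ∀ k, s k → ∀ j, ¬ s j → (Pi.single k (1 : F) : Ix m → F) j = 0 := fun k hk j hj =>
    Pi.single_eq_of_ne (fun e : j = k => hj (e ▸ hk)) _
  obtain ⟨d, hd, hd0⟩ := h (Pi.single k0 1) (by simp) (hsup k0 hk0)
  have hk : ∀ k, s k → mv g (Pi.single k 1) = d • Pi.single k 1 := by
    intro k hk
    by_cases hkk : k = k0
    · rw [hkk, hd0]
    obtain ⟨a, -, ha⟩ := h (Pi.single k 1) (by simp) (hsup k hk)
    obtain ⟨b, -, hb⟩ := h (Pi.single k 1 + Pi.single k0 1)
      (fun e => by simpa [hkk] using congrFun e k)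
      (fun j hj => by rw [Pi.add_apply, hsup k hk j hj, hsup k0 hk0 j hj, add_zero])
    rw [mv_add, ha, hd0] at hb
    have e1 : a = b := by simpa [Pi.single_eq_of_ne hkk] using congrFun hb k
    have e2 : d = b := by simpa [Pi.single_eq_of_ne (Ne.symm hkk)] using congrFun hb k0
    rw [ha, e1, e2]
  refine ⟨d, hd, fun x hx => funext fun i => ?_⟩
  rw [mv, Matrix.mulVec, dotProduct, Finset.sum_eq_single i]
  · by_cases hi : s i
    · have := congrFun (hk i hi) i
      simp [mv] at this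
      simp [this]
    · simp [hx i hi]
  · intro j _ hji
    by_cases hj : s j
    · have := congrFun (hk j hj) i
      simp [mv, Pi.single_eq_of_ne hji.symm] at this
      rw [this, zero_mul]
    · rw [hx j hj, mul_zero]
  · simp

/-- A scalar element. -/
def dI (d : F) (hd : d * d = 1) : SpG m F :=
  ⟨d • 1, mem_of_om fun x y => by
    rw [Matrix.smul_mulVec, Matrix.smul_mulVec, Matrix.one_mulVec, Matrix.one_mulVec,
      om_smul_left, om_smul_right, ← mul_assoc, hd, one_mul]⟩

theorem mv_dI (d : F) (hd : d * d = 1) (x : Ix m → F) : mv (dI d hd) x = d • x := by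
  rw [mv, dI, Matrix.smul_mulVec, Matrix.one_mulVec]

theorem dI_mem_center (d : F) (hd : d * d = 1) :
    dI d hd ∈ Subgroup.center (SpG m F) :=
  Subgroup.mem_center_iff.2 fun g => ext_mv fun x => by
    rw [mv_mul, mv_mul, mv_dI, mv_dI, mv_smul]

theorem qm_dI_mul (d : F) (hd : d * d = 1) (g : SpG m F) :
    qm m F (dI d hd * g) = qm m F g := by
  rw [map_mul, show qm m F (dI d hd) = 1 from (QuotientGroup.eq_one_iff _).2 (dI_mem_center d hd),
    one_mul]

theorem commute_N1_of_commute [NeZero (2 : F)] {g : SpG m F} {v : Ix m → F}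
    (h : Commute g (T v 1)) : Commute (N1 v) (g : Matrix (Ix m) (Ix m) F) := by
  have e := congrArg Subtype.val h.eq
  simp only [Submonoid.coe_mul, coe_T, one_smul, mul_add, add_mul, mul_one, one_mul] at e
  exact (add_left_cancel e).symm

theorem center_scalar [NeZero (2 : F)] {z : SpG m F} (hz : z ∈ Subgroup.center (SpG m F)) :
    ∃ d : F, d * d = 1 ∧ (∀ x, mv z x = d • x) ∧ (z : Matrix (Ix m) (Ix m) F) = d • 1 := by
  obtain ⟨d, hd, h⟩ := eig_const (g := z) (s := fun _ => True) (k0 := Sum.inl 0) trivial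
    fun v hv _ => eig hv (commute_N1_of_commute (Subgroup.mem_center_iff.1 hz (T v 1)).symm)
  refine ⟨d, hd, fun x => h x fun k hk => absurd trivial hk, Matrix.ext_of_mulVec_single fun i => ?_⟩
  rw [Matrix.smul_mulVec, Matrix.one_mulVec]
  exact h _ fun k hk => absurd trivial hk

/-- The base point. -/
def e0 : Ix m → F := Pi.single (Sum.inl 0) 1

theorem e0_ne_zero : (e0 : Ix m → F) ≠ 0 := by simp [e0]

theorem om_e0 (x : Ix m → F) : om x e0 = x (Sum.inr 0) := om_single_inl x 0

/-- Membership of the Lagrangian subspace. -/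
def InL (x : Ix m → F) : Prop := ∀ i, x (Sum.inr i) = 0

theorem om_inL {x y : Ix m → F} (hx : InL x) (hy : InL y) : om x y = 0 := by
  rw [om_eq]; simp [hx _, hy _]

theorem inL_single (i : Fin (m + 2)) : InL (Pi.single (Sum.inl i) (1 : F)) := fun j => by simp

theorem inL_of_om {x : Ix m → F} (h : ∀ i, om x (Pi.single (Sum.inl i) 1) = 0) : InL x :=
  fun i => by rw [← om_single_inl x i]; exact h i

variable [Finite F]

/-- The pointwise stabiliser of the Lagrangian subspace. -/
def U : Subgroup (SpG m F) :=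
  Linear.ofMulClosed {g | ∀ x, InL x → mv g x = x} (fun x _ => mv_one x)
    fun a ha b hb x hx => by rw [mv_mul, hb x hx, ha x hx]

/-- The stabiliser of the Lagrangian subspace. -/
def P : Subgroup (SpG m F) :=
  Linear.ofMulClosed {g | ∀ x, InL x → InL (mv g x)} (fun x hx => by rwa [mv_one])
    fun a ha b hb x hx => by rw [mv_mul]; exact ha _ (hb x hx)

/-- The stabiliser of the base point. -/
def P1 : Subgroup (SpG m F) :=
  Linear.ofMulClosed {g | ∃ c : F, mv g e0 = c • e0} ⟨1, by rw [mv_one, one_smul]⟩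
    fun a ha b hb => by
      obtain ⟨c, hc⟩ := ha
      obtain ⟨c', hc'⟩ := hb
      exact ⟨c' * c, by rw [mv_mul, hc', mv_smul, hc, smul_smul]⟩

/-- The radical of the stabiliser of the base point. -/
def R1 : Subgroup (SpG m F) :=
  Linear.ofMulClosed {g | mv g e0 = e0 ∧ ∀ x, om x e0 = 0 → ∃ c : F, mv g x = x + c • e0}
    ⟨mv_one _, fun x _ => ⟨0, by rw [mv_one, zero_smul, add_zero]⟩⟩
    fun a ha b hb => ⟨by rw [mv_mul, hb.1, ha.1], fun x hx => by
      obtain ⟨c, hc⟩ := hb.2 x hx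
      obtain ⟨c', hc'⟩ := ha.2 x hx
      exact ⟨c' + c, by rw [mv_mul, hc, mv_add, mv_smul, hc', ha.1, add_smul, add_assoc]⟩⟩

/-- The Robinson subgroup. -/
def Q : Subgroup (SpG m F) := R1 ⊔ U

theorem normalizes_U {g h : SpG m F} (hg : g ∈ (P : Subgroup (SpG m F)))
    (hh : h ∈ (U : Subgroup (SpG m F))) : g * h * g⁻¹ ∈ (U : Subgroup (SpG m F)) := fun x hx => by
  rw [mv_mul, mv_mul, hh _ ((P (m := m) (F := F)).inv_mem hg x hx), mv_mv_inv]

theorem normalizes_R1 {g h : SpG m F} (hg : g ∈ (P1 : Subgroup (SpG m F)))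
    (hh : h ∈ (R1 : Subgroup (SpG m F))) : g * h * g⁻¹ ∈ (R1 : Subgroup (SpG m F)) := by
  obtain ⟨c', hc'⟩ := (P1 (m := m) (F := F)).inv_mem hg
  obtain ⟨c, hc⟩ := hg
  refine ⟨?_, fun x hx => ?_⟩
  · rw [mv_mul, mv_mul, hc', mv_smul h, hh.1, ← hc', mv_mv_inv]
  · have h0 : om (mv g⁻¹ x) e0 = 0 := by
      have h1 := om_mv g⁻¹ x e0
      rw [hc', om_smul_right, hx] at h1
      refine (mul_eq_zero.1 h1).resolve_left fun h => mv_ne_zero g⁻¹ e0_ne_zero ?_
      rw [hc', h, zero_smul]
    obtain ⟨k, hk⟩ := hh.2 _ h0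
    exact ⟨k * c, by rw [mv_mul, mv_mul, hk, mv_add, mv_mv_inv, mv_smul, hc, smul_smul]⟩

theorem R1_le_P : (R1 : Subgroup (SpG m F)) ≤ P := fun g hg x hx => by
  obtain ⟨c, hc⟩ := hg.2 x (by rw [om_e0]; exact hx 0)
  intro i
  simp [hc, hx i, e0]

section
variable (r : ℕ) [Fact r.Prime] [CharP F r]

theorem pow_r (g : SpG m F) {k : ℕ} (hk : k ≤ r)
    (h : ((g : Matrix (Ix m) (Ix m) F) - 1) ^ k = 0) : g ^ r = 1 := by
  refine Subtype.ext ?_
  rw [SubmonoidClass.coe_pow, Submonoid.coe_one,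
    show (g : Matrix (Ix m) (Ix m) F) = 1 + ((g : Matrix (Ix m) (Ix m) F) - 1) by abel,
    add_pow_char_of_commute r (Commute.one_left _), one_pow, pow_eq_zero_of_le hk h, add_zero]

theorem sub_one_mulVec (g : SpG m F) (x : Ix m → F) :
    ((g : Matrix (Ix m) (Ix m) F) - 1) *ᵥ x = mv g x - x := by
  rw [Matrix.sub_mulVec, Matrix.one_mulVec]; rfl

theorem U_pow {g : SpG m F} (hg : g ∈ (U : Subgroup (SpG m F))) : g ^ r = 1 := by
  refine pow_r r g (Fact.out : r.Prime).two_le (Matrix.ext_of_mulVec_single fun i => ?_)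
  rw [pow_two, ← Matrix.mulVec_mulVec, sub_one_mulVec g, sub_one_mulVec g, Matrix.zero_mulVec,
    sub_eq_zero]
  refine hg _ (inL_of_om fun j => ?_)
  rw [om_sub_left]
  nth_rw 1 [← hg _ (inL_single j)]
  rw [om_mv, sub_self]

theorem R1_pow (hr : r ≠ 2) {g : SpG m F} (hg : g ∈ (R1 : Subgroup (SpG m F))) : g ^ r = 1 := by
  refine pow_r r g (k := 3) (lt_of_le_of_ne (Fact.out : r.Prime).two_le hr.symm)
    (Matrix.ext_of_mulVec_single fun i => ?_)
  rw [pow_succ', pow_two, ← Matrix.mulVec_mulVec, ← Matrix.mulVec_mulVec, sub_one_mulVec g,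
    sub_one_mulVec g, sub_one_mulVec g, Matrix.zero_mulVec]
  obtain ⟨c, hc⟩ := hg.2 (mv g (Pi.single i 1) - Pi.single i 1) (by
    rw [om_sub_left]
    nth_rw 1 [← hg.1]
    rw [om_mv, sub_self])
  rw [hc, add_sub_cancel_left, mv_smul, hg.1, sub_self]

theorem Q_pgroup (hr : r ≠ 2) : IsPGroup r (Q : Subgroup (SpG m F)) :=
  IsPGroup.to_sup_of_normal_right' (fun g => ⟨1, Subtype.ext (by simpa using R1_pow r hr g.2)⟩)
    (fun g => ⟨1, Subtype.ext (by simpa using U_pow r g.2)⟩) fun g hg => by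
      rw [Subgroup.mem_normalizer_iff]
      refine fun h => ⟨fun hh => normalizes_U (R1_le_P hg) hh, fun hh => ?_⟩
      have := normalizes_U ((P (m := m) (F := F)).inv_mem (R1_le_P hg)) hh
      simpa [mul_assoc] using this

theorem commute_of_map_commute [NeZero (2 : F)] {g u : SpG m F} (hu : u ^ r = 1)
    (h : Commute (qm m F g) (qm m F u)) : Commute g u := by
  set z := u⁻¹ * (g * u * g⁻¹) with hz
  have hzc : z ∈ Subgroup.center (SpG m F) := by
    rw [← QuotientGroup.eq_one_iff (N := Subgroup.center (SpG m F))]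
    show (qm m F) z = 1
    rw [hz, map_mul, map_mul, map_mul, map_inv, map_inv, h.eq, mul_inv_cancel_right,
      inv_mul_cancel]
  have hzr : z ^ r = 1 := by
    have e : g * u * g⁻¹ = u * z := by rw [hz]; group
    have hcom : Commute u z := Subgroup.mem_center_iff.1 hzc u
    have := congrArg (· ^ r) e
    simp only [conj_pow, hcom.mul_pow, hu, mul_one, mul_inv_cancel, one_mul] at this
    exact this.symm
  have hz1 : z = 1 := by
    obtain ⟨d, -, hd, hdm⟩ := center_scalar hzc
    have h1 := congrArg Subtype.val hzr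
    rw [SubmonoidClass.coe_pow, hdm, smul_pow, one_pow, Submonoid.coe_one] at h1
    have h2 : d ^ r = 1 := by simpa using congrFun (congrFun h1 (Sum.inl 0)) (Sum.inl 0)
    have h3 : d = 1 := frobenius_inj F r (by rw [frobenius_def, frobenius_def, h2, one_pow])
    exact ext_mv fun x => by rw [hd, h3, one_smul, mv_one]
  rw [hz, inv_mul_eq_one] at hz1
  exact (mul_inv_eq_iff_eq_mul.1 hz1.symm)

theorem T_mem_U [NeZero (2 : F)] {v : Ix m → F} (hv : InL v) (x : F) :
    T v x ∈ (U : Subgroup (SpG m F)) := fun y hy => by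
  rw [mv_T, om_inL hy hv, mul_zero, zero_smul, add_zero]

theorem mem_U_of_commute [NeZero (2 : F)] {g : SpG m F}
    (h : ∀ v : Ix m → F, InL v → Commute (N1 v) (g : Matrix (Ix m) (Ix m) F)) :
    ∃ g' ∈ (U : Subgroup (SpG m F)), qm m F g' = qm m F g := by
  obtain ⟨d, hd, hg⟩ := eig_const (g := g) (s := fun k => ∃ i, k = Sum.inl i) (k0 := Sum.inl 0)
    ⟨0, rfl⟩ fun v hv hs => eig hv (h v fun i => hs _ (by simp))
  refine ⟨dI d hd * g, fun x hx => ?_, qm_dI_mul d hd g⟩
  rw [mv_mul, mv_dI, hg x fun k hk => ?_, smul_smul, hd, one_smul]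
  cases k with
  | inl i => exact absurd ⟨i, rfl⟩ hk
  | inr i => exact hx i

include r in
theorem centralizer_U [NeZero (2 : F)] :
    Subgroup.centralizer (((U : Subgroup (SpG m F)).map (qm m F) : Subgroup (PSpG m F)) :
      Set (PSpG m F)) ≤ (U : Subgroup (SpG m F)).map (qm m F) := by
  intro a ha
  obtain ⟨g, rfl⟩ := QuotientGroup.mk'_surjective _ a
  exact mem_U_of_commute fun v hv => commute_N1_of_commute
    (commute_of_map_commute r (U_pow r (T_mem_U hv 1))
      (Subgroup.mem_centralizer_iff.1 ha _ ⟨_, T_mem_U hv 1, rfl⟩).symm)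

theorem centralizer_R1 [NeZero (2 : F)] (hr : r ≠ 2) :
    Subgroup.centralizer (((R1 : Subgroup (SpG m F)).map (qm m F) : Subgroup (PSpG m F)) :
      Set (PSpG m F)) ≤ (R1 : Subgroup (SpG m F)).map (qm m F) := by
  intro a ha
  obtain ⟨g, rfl⟩ := QuotientGroup.mk'_surjective _ a
  have key : ∀ b : Ix m → F, om b e0 = 0 → Commute g (S b e0) := by
    intro b hb
    have hm : S b e0 ∈ (R1 : Subgroup (SpG m F)) := by
      refine ⟨?_, fun y hy => ⟨om y b, ?_⟩⟩
      · rw [mv_S hb, om_self, om_swap b e0, hb, neg_zero, zero_smul, zero_smul, add_zero, add_zero]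
      · rw [mv_S hb, hy, zero_smul, add_zero]
    exact commute_of_map_commute r (R1_pow r hr hm)
      (Subgroup.mem_centralizer_iff.1 ha _ ⟨_, hm, rfl⟩).symm
  have hT : Commute g (T e0 1) := key _ (by rw [om_smul_left, om_self, mul_zero])
  obtain ⟨d, hd, hge⟩ := eig e0_ne_zero (commute_N1_of_commute hT)
  obtain ⟨y, hy⟩ := exists_om_eq_one (e0_ne_zero (m := m) (F := F))
  have hgy : om (mv g y) e0 = d := by
    have := om_mv g y e0
    rw [hge, om_smul_right, hy] at this
    linear_combination d * this - om (mv g y) e0 * hd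
  refine ⟨dI d hd * g, ⟨?_, fun b hb => ?_⟩, qm_dI_mul d hd g⟩
  · rw [mv_mul, hge, mv_dI, smul_smul, hd, one_smul]
  · have e := congrArg (mv · y) (key b hb).eq
    simp only [mv_mul, mv_S hb, hy, one_smul, mv_add, mv_smul, hge, hgy] at e
    refine ⟨d * (om (mv g y) b - d * om y b), ?_⟩
    rw [mv_mul, mv_dI]
    have e' : mv g b = d • b + (om (mv g y) b - d * om y b) • e0 := by
      ext i
      have := congrFun e i
      simp only [Pi.add_apply, Pi.smul_apply, smul_eq_mul] at this ⊢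
      linear_combination this
    rw [e', smul_add, smul_smul, smul_smul, hd, one_smul]

end

/-- The stabilisers of the subspace and of the point generate the group. -/
theorem mem_of_parabolics [NeZero (2 : F)] (H : Subgroup (SpG m F)) (hP : P ≤ H) (hP1 : P1 ≤ H)
    (g : SpG m F) : g ∈ H := by
  have hperp : ∀ u : Ix m → F, om u e0 = 0 → ∀ x, T u x ∈ H := fun u hu x =>
    hP1 ⟨1, by rw [mv_T, om_swap u e0, hu, neg_zero, mul_zero, zero_smul, add_zero, one_smul]⟩
  have hconj : ∀ h ∈ H, ∀ u : Ix m → F, (∀ x, T u x ∈ H) → ∀ x, T (mv h u) x ∈ H := by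
    intro h hh u hu x
    rw [eq_mul_inv_of_mul_eq (mul_T h u x).symm]
    exact H.mul_mem (H.mul_mem hh (hu x)) (H.inv_mem hh)
  set b : Ix m → F := Pi.single (Sum.inl 1) 1 with hb
  set a : Ix m → F := Pi.single (Sum.inr 0) 1 with ha
  set w1 : Ix m → F := Pi.single (Sum.inr 1) 1 with hw1
  have h01 : (0 : Fin (m + 2)) ≠ 1 := zero_ne_one
  have hab : om a b = 0 := by rw [hb, om_single_inl, ha]; simp [h01.symm]
  set h0 := S a b with hh0
  have hh0P : h0 ∈ (P : Subgroup (SpG m F)) := fun x hx i => by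
    rw [hh0, mv_S hab, hb, om_single_inl, hx 1, zero_smul, add_zero, Pi.add_apply, hx i]
    simp
  have hf : mv h0 e0 = e0 - b := by
    rw [hh0, mv_S hab, show om (e0 : Ix m → F) b = 0 by rw [hb, om_single_inl]; simp [e0],
      show om (e0 : Ix m → F) a = -1 by rw [ha, om_single_inr]; simp [e0],
      zero_smul, add_zero, neg_one_smul, ← sub_eq_add_neg]
  have hall : ∀ (u : Ix m → F) x, T u x ∈ H := by
    intro u
    by_cases hu : om u e0 = 0
    · exact hperp u hu
    set t := (1 - om u w1) / om u e0 with ht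
    set w := w1 + t • e0 with hw
    have hwe : om w e0 = 0 := by
      rw [hw, om_add_left, om_smul_left, om_self, om_e0, hw1]; simp [h01]
    have huw : om u w = 1 := by
      rw [hw, om_add_right, om_smul_right, ht, div_mul_cancel₀ _ hu]; ring
    have hwf : om w (e0 - b) = -1 := by
      rw [om_sub_right, hwe, hw, om_add_left, om_smul_left, hb, om_single_inl, om_single_inl, hw1]
      simp [e0]
    have hk := hperp w hwe (om u (e0 - b))
    set k := T w (om u (e0 - b)) with hkdef
    have hku : om (mv k u) (e0 - b) = 0 := by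
      rw [hkdef, mv_T, huw, mul_one, om_add_left, om_smul_left, hwf]; ring
    have h1 : om (mv h0⁻¹ (mv k u)) e0 = 0 := by
      rw [← om_mv h0, mv_mv_inv, hf]; exact hku
    have h2 := hconj _ (H.inv_mem hk) _ (hconj _ (hP hh0P) _ (hperp _ h1))
    rwa [mv_mv_inv, mv_inv_mv] at h2
  have move : ∀ y v : Ix m → F, om y v ≠ 0 → ∃ h ∈ H, mv h y = v := fun y v hyv =>
    ⟨T (v - y) (om y v)⁻¹, hall _ _, by
      rw [mv_T, om_sub_right, om_self, sub_zero, inv_mul_cancel₀ hyv, one_smul,
        add_sub_cancel]⟩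
  have trans : ∀ v : Ix m → F, v ≠ 0 → ∃ h ∈ H, mv h e0 = v := by
    intro v hv
    obtain ⟨x1, hx1⟩ := exists_om_eq_one (e0_ne_zero (m := m) (F := F))
    obtain ⟨x2, hx2⟩ := exists_om_eq_one hv
    obtain ⟨z, hz1, hz2⟩ : ∃ z, om z e0 ≠ 0 ∧ om z v ≠ 0 := by
      by_cases c1 : om x1 v ≠ 0
      · exact ⟨x1, by rw [hx1]; exact one_ne_zero, c1⟩
      by_cases c2 : om x2 e0 ≠ 0
      · exact ⟨x2, c2, by rw [hx2]; exact one_ne_zero⟩
      push Not at c1 c2
      exact ⟨x1 + x2, by rw [om_add_left, hx1, c2, add_zero]; exact one_ne_zero,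
        by rw [om_add_left, hx2, c1, zero_add]; exact one_ne_zero⟩
    obtain ⟨h, hh, e⟩ := move e0 z (by rw [om_swap z e0]; exact neg_ne_zero.2 hz1)
    obtain ⟨h', hh', e'⟩ := move z v hz2
    exact ⟨h' * h, H.mul_mem hh' hh, by rw [mv_mul, e, e']⟩
  obtain ⟨h, hh, e⟩ := trans (mv g e0) (mv_ne_zero g e0_ne_zero)
  rw [← mul_inv_cancel_left h g]
  exact H.mul_mem hh (hP1 ⟨1, by rw [mv_mul, ← e, mv_inv_mv, one_smul]⟩)

section
variable {p : ℕ} [Fact p.Prime] (r : ℕ) [Fact r.Prime] [CharP F r]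

/-- An element of the invariant group commutes with the transvections of `U`. -/
theorem commute_N1 [NeZero (2 : F)] (hpr : p ≠ r) (hbig : 3 < Nat.card F ∨ p = 2)
    {W : Subgroup (PSpG m F)} (hW : IsElem p W)
    (hinv : ∀ q ∈ (Q : Subgroup (SpG m F)).map (qm m F), ∀ w ∈ W, q * w * q⁻¹ ∈ W)
    {g : SpG m F} (hg : (qm m F) g ∈ W) {v : Ix m → F} (hv : InL v) :
    Commute (N1 v) (g : Matrix (Ix m) (Ix m) F) := by
  let : Fintype F := Fintype.ofFinite F
  set N := N1 v with hNdef
  have hN : N * N = 0 := N1_sq v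
  have h2 : (2 : F) ≠ 0 := two_ne_zero
  have hp : (p : F) ≠ 0 := fun h => hpr
    ((Nat.prime_dvd_prime_iff_eq Fact.out Fact.out).1 ((CharP.cast_eq_zero_iff F r p).1 h)).symm
  let w : (Matrix (Ix m) (Ix m) F)ˣ := ⟨(g : Matrix (Ix m) (Ix m) F), (g⁻¹ : SpG m F),
    by rw [← Submonoid.coe_mul, mul_inv_cancel, Submonoid.coe_one],
    by rw [← Submonoid.coe_mul, inv_mul_cancel, Submonoid.coe_one]⟩
  have hTi : ∀ x, (((T v x)⁻¹ : SpG m F) : Matrix (Ix m) (Ix m) F) = 1 - x • N := fun x => by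
    rw [T_inv, coe_T, neg_smul, sub_eq_add_neg, hNdef]
  have hM : ∀ x, ((T v x * g * (T v x)⁻¹ : SpG m F) : Matrix (Ix m) (Ix m) F) =
      Quad.M N (w : Matrix (Ix m) (Ix m) F) x := fun x => by
    rw [Submonoid.coe_mul, Submonoid.coe_mul, hTi, coe_T]; rfl
  have hmem : ∀ x, (qm m F) (T v x * g * (T v x)⁻¹) ∈ W := fun x => by
    rw [map_mul, map_mul, map_inv]
    exact hinv _ ⟨_, Subgroup.mem_sup_right (T_mem_U hv x), rfl⟩ _ hg
  have hlam : ∀ x y : F, ∃ l : F, Quad.M N (w : Matrix (Ix m) (Ix m) F) x * Quad.M N w y =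
      l • (Quad.M N (w : Matrix (Ix m) (Ix m) F) y * Quad.M N w x) := by
    intro x y
    set gx := T v x * g * (T v x)⁻¹ with hgx
    set gy := T v y * g * (T v y)⁻¹ with hgy
    have hz : (gy * gx)⁻¹ * (gx * gy) ∈ Subgroup.center (SpG m F) := by
      rw [← QuotientGroup.eq_one_iff (N := Subgroup.center (SpG m F))]
      have hx := hmem x
      have hy := hmem y
      rw [← hgx] at hx
      rw [← hgy] at hy
      clear_value gx gy
      show (qm m F) _ = 1
      rw [map_mul, map_inv, map_mul, map_mul, hW.1 _ hx _ hy, inv_mul_cancel]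
    obtain ⟨c, -, -, hc⟩ := center_scalar hz
    refine ⟨c, ?_⟩
    rw [← hM, ← hM, ← hgx, ← hgy, ← Submonoid.coe_mul, ← Submonoid.coe_mul]
    calc ((gx * gy : SpG m F) : Matrix (Ix m) (Ix m) F)
        = ((gy * gx * ((gy * gx)⁻¹ * (gx * gy)) : SpG m F) : Matrix (Ix m) (Ix m) F) := by
          rw [mul_inv_cancel_left]
      _ = _ := by rw [Submonoid.coe_mul, hc, mul_smul_comm, mul_one]
  have hgp : g ^ p ∈ Subgroup.center (SpG m F) := by
    rw [← QuotientGroup.eq_one_iff (N := Subgroup.center (SpG m F))]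
    show (qm m F) _ = 1
    rw [map_pow, hW.2 _ hg]
  obtain ⟨s, -, -, hs⟩ := center_scalar hgp
  have hs' : (w : Matrix (Ix m) (Ix m) F) ^ p = s • 1 := by
    show (g : Matrix (Ix m) (Ix m) F) ^ p = _
    rw [← hs, SubmonoidClass.coe_pow]
  have hcp : ∀ B : Matrix (Ix m) (Ix m) F, Commute B ((w : Matrix (Ix m) (Ix m) F) ^ p) :=
    fun B => by rw [hs']; exact (Commute.one_right B).smul_right s
  have finish : ∀ x y : F, x ≠ y →
      Commute (Quad.M N (w : Matrix (Ix m) (Ix m) F) x) (Quad.M N w y) →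
      Commute N (g : Matrix (Ix m) (Ix m) F) := by
    intro x y hne hc
    have hc0 : Commute (w : Matrix (Ix m) (Ix m) F) (Quad.M N w (y - x)) := by
      have e : ∀ a b : Matrix (Ix m) (Ix m) F, (1 + (-x) • N) * a * (1 - (-x) • N) *
          ((1 + (-x) • N) * b * (1 - (-x) • N)) = (1 + (-x) • N) * (a * b) * (1 - (-x) • N) :=
        fun a b => by
          calc _ = (1 + (-x) • N) * a * ((1 - (-x) • N) * (1 + (-x) • N)) * b *
                (1 - (-x) • N) := by
                noncomm_ring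
            _ = _ := by rw [Quad.one_sub_mul_add hN]; noncomm_ring
      have ha := Quad.M_add hN (w : Matrix (Ix m) (Ix m) F) (-x) x
      have hb := Quad.M_add hN (w : Matrix (Ix m) (Ix m) F) (-x) y
      rw [neg_add_cancel, Quad.M_zero] at ha
      rw [neg_add_eq_sub] at hb
      have h3 : ∀ a b : Matrix (Ix m) (Ix m) F, Commute a b → Commute
          ((1 + (-x) • N) * a * (1 - (-x) • N)) ((1 + (-x) • N) * b * (1 - (-x) • N)) :=
        fun a b h => by show _ = _; rw [e, e, h.eq]
      have h4 := h3 _ _ hc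
      rwa [ha, hb] at h4
    have hzne : y - x ≠ 0 := sub_ne_zero.2 (Ne.symm hne)
    have hres := Quad.commute_of_quadratic (F := F) (N := (y - x) • N)
      (by rw [smul_mul_smul_comm, hN, smul_zero]) w h2 hp ((hcp N).smul_left _)
      (by simpa [Quad.M] using hc0)
    have := hres.smul_left (y - x)⁻¹
    rwa [smul_smul, inv_mul_cancel₀ hzne, one_smul] at this
  by_cases hq : 3 < Nat.card F
  · obtain ⟨x, -, y, -, hne, hc⟩ := Quad.exists_commute_conj hN w (Finset.univ : Finset F)
      (by rwa [Finset.card_univ, ← Nat.card_eq_fintype_card]) (fun x _ y _ => hlam x y)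
    exact finish x y hne hc
  obtain rfl := hbig.resolve_left hq
  obtain ⟨l, hl⟩ := hlam 0 1
  rw [Quad.M_zero] at hl
  set M1 := Quad.M N (w : Matrix (Ix m) (Ix m) F) (1 : F) with hM1def
  by_cases hl1 : l = 1
  · refine finish 0 1 zero_ne_one ?_
    rw [Quad.M_zero, ← hM1def]
    rw [hl1, one_smul] at hl
    exact hl
  exfalso
  -- the square of `w` is scalar, so `w` and its conjugate anticommute
  have hM1 : IsUnit M1 := by
    rw [hM1def, ← hM]
    exact (Group.isUnit (T v 1 * g * (T v 1)⁻¹)).map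
      (Matrix.symplecticGroup (Fin (m + 2)) F).subtype
  have hM1u : IsUnit (M1 * (w : Matrix (Ix m) (Ix m) F)) := hM1.mul w.isUnit
  have hll : l * l = 1 := by
    have h1 : (w : Matrix (Ix m) (Ix m) F) * ((w : Matrix (Ix m) (Ix m) F) * M1) =
        (l * l) • (M1 * ((w : Matrix (Ix m) (Ix m) F) * w)) := by
      rw [hl, mul_smul_comm, ← mul_assoc, hl, smul_mul_assoc, smul_smul, mul_assoc]
    have h3 : M1 * ((w : Matrix (Ix m) (Ix m) F) * w) =
        (w : Matrix (Ix m) (Ix m) F) * ((w : Matrix (Ix m) (Ix m) F) * M1) := by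
      rw [← mul_assoc (w : Matrix (Ix m) (Ix m) F) w M1, ← pow_two, (hcp M1).eq]
    rw [← h3] at h1
    have h4 : (l * l - 1) • (M1 * ((w : Matrix (Ix m) (Ix m) F) * w)) = 0 := by
      rw [sub_smul, one_smul, ← h1, sub_self]
    refine sub_eq_zero.1 ((smul_eq_zero.1 h4).resolve_right ?_)
    rw [← mul_assoc]
    exact (hM1u.mul w.isUnit).ne_zero
  have hlm : l = -1 := (mul_self_eq_one_iff.1 hll).resolve_left hl1
  -- a vector fixed by the transvection whose image under `w` is fixed too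
  let φ : (Ix m → F) →ₗ[F] (Fin 2 → F) :=
    { toFun := fun x => ![om x v, om (mv g x) v]
      map_add' := fun x y => by ext i; fin_cases i <;> simp [mv_add, om_add_left]
      map_smul' := fun c x => by ext i; fin_cases i <;> simp [mv_smul, om_smul_left] }
  obtain ⟨y, hy, hy0⟩ := Submodule.exists_mem_ne_zero_of_ne_bot
    (LinearMap.ker_ne_bot_of_finrank_lt (f := φ) (by simp [Fintype.card_sum]; omega))
  have hy1 : N *ᵥ y = 0 := by
    rw [hNdef, N1_mulVec, show om y v = 0 by simpa [φ] using congrFun (LinearMap.mem_ker.1 hy) 0,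
      zero_smul]
  have hy2 : N *ᵥ ((w : Matrix (Ix m) (Ix m) F) *ᵥ y) = 0 := by
    rw [hNdef, N1_mulVec, show om ((w : Matrix (Ix m) (Ix m) F) *ᵥ y) v = 0 by
      change om (mv g y) v = 0
      simpa [φ] using congrFun (LinearMap.mem_ker.1 hy) 1, zero_smul]
  have hMv : M1 *ᵥ y = (w : Matrix (Ix m) (Ix m) F) *ᵥ y := by
    rw [hM1def, Quad.M, one_smul, ← Matrix.mulVec_mulVec, ← Matrix.mulVec_mulVec,
      Matrix.sub_mulVec, Matrix.one_mulVec, hy1, sub_zero, Matrix.add_mulVec,
      Matrix.one_mulVec, hy2, add_zero]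
  have hsq : M1 * M1 = s • 1 := by
    rw [hM1def, ← hM, ← Submonoid.coe_mul]
    have : T v 1 * g * (T v 1)⁻¹ * (T v 1 * g * (T v 1)⁻¹) = T v 1 * (g ^ 2) * (T v 1)⁻¹ := by
      rw [pow_two]; group
    rw [this, Subgroup.mem_center_iff.1 hgp (T v 1), mul_inv_cancel_right, hs]
  have e1 : ((w : Matrix (Ix m) (Ix m) F) * M1) *ᵥ y = (s • 1 : Matrix (Ix m) (Ix m) F) *ᵥ y := by
    rw [← Matrix.mulVec_mulVec, hMv, Matrix.mulVec_mulVec, ← pow_two, hs']
  have e2 : (M1 * (w : Matrix (Ix m) (Ix m) F)) *ᵥ y = (s • 1 : Matrix (Ix m) (Ix m) F) *ᵥ y := by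
    rw [← Matrix.mulVec_mulVec, ← hMv, Matrix.mulVec_mulVec, hsq]
  rw [hl, hlm, Matrix.smul_mulVec, e2, neg_one_smul, neg_eq_iff_add_eq_zero, ← two_smul F,
    smul_eq_zero] at e1
  have e3 := e1.resolve_left h2
  rw [← hsq, ← Matrix.mulVec_mulVec] at e3
  have hinj := Matrix.mulVec_injective_of_isUnit hM1
  exact hy0 (hinj (hinj (by rw [e3, Matrix.mulVec_zero, Matrix.mulVec_zero])))

end

theorem neZero_two {r : ℕ} [CharP F r] (hr : r ≠ 2) : NeZero (2 : F) :=
  ⟨Ring.two_ne_zero (by rw [ringChar.eq F r]; exact hr)⟩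

/-- Projective symplectic groups are not commutative. -/
theorem noncomm {r : ℕ} [Fact r.Prime] [CharP F r] (hr : r ≠ 2) :
    ∃ a b : PSpG m F, a * b ≠ b * a := by
  have := neZero_two (F := F) hr
  set f : Ix m → F := Pi.single (Sum.inr 0) 1 with hf
  refine ⟨qm m F (T f 1), qm m F (T e0 1), fun h => ?_⟩
  obtain ⟨d, -, hd⟩ := eig e0_ne_zero (commute_N1_of_commute
    (commute_of_map_commute r (U_pow r (T_mem_U (inL_single 0) 1)) h))
  have e := congrFun hd (Sum.inr 0)
  rw [mv_T, hf, om_single_inr] at e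
  simp [e0] at e

/-- **Projective symplectic groups have Robinson subgroups.** -/
theorem hasRobinson_psp {p r : ℕ} [Fact p.Prime] [Fact r.Prime] [CharP F r] (hpr : p ≠ r)
    (hr : r ≠ 2) (hbig : 3 < Nat.card F ∨ p = 2) : HasRobinson p r (PSpG m F) := by
  have := neZero_two (F := F) hr
  refine ⟨(Q : Subgroup (SpG m F)).map (qm m F), ?_, (Q_pgroup r hr).map _,
    fun W hW hinv => ?_, fun α hα hfix => ?_⟩
  · intro h
    have hm : (qm m F) (T e0 (1 : F)) ∈ (Q : Subgroup (SpG m F)).map (qm m F) :=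
      ⟨_, Subgroup.mem_sup_right (T_mem_U (inL_single 0) 1), rfl⟩
    rw [h, Subgroup.mem_bot] at hm
    obtain ⟨d, -, hd, -⟩ := center_scalar ((QuotientGroup.eq_one_iff _).1 hm)
    have e := congrFun (hd (Pi.single (Sum.inr 0) 1)) (Sum.inl 0)
    rw [mv_T, om_e0] at e
    simp [e0] at e
  · rw [Subgroup.eq_bot_iff_forall]
    intro a ha
    obtain ⟨g, rfl⟩ := QuotientGroup.mk'_surjective _ a
    obtain ⟨g', hg', e⟩ := mem_U_of_commute fun v hv => commute_N1 r hpr hbig hW hinv ha hv
    have h1 : qm m F g' ^ p = 1 := by rw [e]; exact hW.2 _ ha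
    have h2 : qm m F g' ^ r = 1 := by rw [← map_pow, U_pow r hg', map_one]
    have h3 := pow_gcd_eq_one.2 ⟨h1, h2⟩
    rw [(Nat.coprime_primes Fact.out Fact.out).2 hpr, pow_one] at h3
    exact e.symm.trans h3
  · have hU : (U : Subgroup (SpG m F)).map (qm m F) ≤ (Q : Subgroup (SpG m F)).map (qm m F) :=
      Subgroup.map_mono le_sup_right
    have hR1 : (R1 : Subgroup (SpG m F)).map (qm m F) ≤ (Q : Subgroup (SpG m F)).map (qm m F) :=
      Subgroup.map_mono le_sup_left
    refine MulEquiv.ext fun a => ?_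
    obtain ⟨g, rfl⟩ := QuotientGroup.mk'_surjective _ a
    rw [MulAut.one_apply]
    let H : Subgroup (SpG m F) := (α.toMonoidHom.comp (qm m F)).eqLocus (qm m F)
    refine mem_of_parabolics H (fun h hh => ?_) (fun h hh => ?_) g
    · refine fixed_normalizer hpr (((Q_pgroup r hr).map (qm m F)).to_le hU) (centralizer_U r) hα
        (fun q hq => hfix q (hU hq)) ?_
      rintro _ ⟨k, hk, rfl⟩
      exact ⟨_, normalizes_U hh hk, by simp⟩
    · refine fixed_normalizer hpr (((Q_pgroup r hr).map (qm m F)).to_le hR1)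
        (centralizer_R1 r hr) hα (fun q hq => hfix q (hR1 hq)) ?_
      rintro _ ⟨k, hk, rfl⟩
      exact ⟨_, normalizes_R1 hh hk, by simp⟩

end Symplectic

end Vale.Agent.P240
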