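import Vale.Agent.P240.Robinson.Invariant
import Vale.Agent.P240.Robinson.Opposite

/-!
# Projective special unitary groups in characteristic `r` have Robinson `r`-subgroups
-/

set_option linter.unusedSectionVars false

open scoped Classical
open Matrix Matrix.SpecialLinearGroup

noncomputable section

namespace Vale.Agent.P240

namespace Unitary

open Linear (SLG)

variable {m : ℕ} {F : Type*} [Field F] [Finite F] (σ : F ≃+* F)

theorem gram_mul (M : Matrix (Fin (m + 2)) (Fin (m + 2)) F) (i j : Fin (m + 2)) :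
    (gram m F * M) i j = M i.rev j := by
  rw [Matrix.mul_apply, Finset.sum_eq_single i.rev]
  · simp [gram]
  · intro k _ hk; simp [gram, hk]
  · simp

theorem mul_gram (M : Matrix (Fin (m + 2)) (Fin (m + 2)) F) (i j : Fin (m + 2)) :
    (M * gram m F) i j = M i j.rev := by
  rw [Matrix.mul_apply, Finset.sum_eq_single j.rev]
  · simp [gram]
  · intro k _ hk
    have : j ≠ k.rev := fun h => hk (by rw [h, Fin.rev_rev])
    simp [gram, this]
  · simp

/-- The projective special unitary group. -/
abbrev PSUG (m : ℕ) {F : Type*} [Field F] [Finite F] (σ : F ≃+* F) :=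
  SUG m σ ⧸ Subgroup.center (SUG m σ)

/-- The underlying matrix. -/
def ι (m : ℕ) {F : Type*} [Field F] [Finite F] (σ : F ≃+* F) :
    SUG m σ →* Matrix (Fin (m + 2)) (Fin (m + 2)) F :=
  coeMonoidHom.comp (SUG m σ).subtype

theorem ι_inj : Function.Injective (ι m σ) := fun a b h => Subtype.ext (Subtype.ext h)

theorem ι_eq (g : SUG m σ) : ι m σ g = ((g : SLG m F) : Matrix (Fin (m + 2)) (Fin (m + 2)) F) :=
  rfl

variable {σ}

local instance : Finite (SUG m σ) := inferInstance

/-- The form evaluated on two columns. -/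
theorem form (g : SUG m σ) (i j : Fin (m + 2)) :
    ∑ k, σ (ι m σ g k i) * ι m σ g k.rev j = if j = i.rev then 1 else 0 := by
  have h : star' σ (ι m σ g) * gram m F * ι m σ g = gram m F := g.2
  have h' := congrFun (congrFun h i) j
  rw [Matrix.mul_assoc, Matrix.mul_apply] at h'
  simp only [gram_mul] at h'
  rw [gram, Matrix.of_apply] at h'
  exact h'

theorem det_ι (g : SUG m σ) : (ι m σ g).det = 1 := (g : SLG m F).2

/-- The inverse is the adjoint. -/
theorem ι_inv (g : SUG m σ) (i j : Fin (m + 2)) :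
    ι m σ g⁻¹ i j = σ (ι m σ g j.rev i.rev) := by
  have h : star' σ (ι m σ g) * gram m F * ι m σ g = gram m F := g.2
  have hgi : ι m σ g * ι m σ g⁻¹ = 1 := by rw [← map_mul, mul_inv_cancel, map_one]
  have e : gram m F * ι m σ g⁻¹ = star' σ (ι m σ g) * gram m F := by
    conv_lhs => rw [← h]
    rw [Matrix.mul_assoc, hgi, Matrix.mul_one]
  have := congrFun (congrFun e i.rev) j
  rw [gram_mul, Fin.rev_rev, mul_gram] at this
  exact this

theorem rev_zero : (0 : Fin (m + 2)).rev = Fin.last (m + 1) := Fin.rev_zero _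

theorem rev_ne_zero {i : Fin (m + 2)} (hi : i ≠ Fin.last (m + 1)) : i.rev ≠ 0 := fun h => hi (by
  rw [← Fin.rev_rev i, h, rev_zero])

/-- Fixing the first point means fixing the last coordinate hyperplane. -/
theorem row_last {g : SUG m σ} (hg : ∀ i, i ≠ 0 → ι m σ g i 0 = 0) {j : Fin (m + 2)}
    (hj : j ≠ Fin.last (m + 1)) : ι m σ g (Fin.last (m + 1)) j = 0 := by
  have h := form g 0 j
  rw [Finset.sum_eq_single 0 (fun k _ hk => by rw [hg k hk, map_zero, zero_mul]) (by simp),
    rev_zero, if_neg hj] at h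
  refine (mul_eq_zero.1 h).resolve_left fun h0 => ?_
  have hz : (ι m σ g).det = 0 := det_eq_zero_of_column_eq_zero 0 fun k => by
    by_cases hk : k = 0
    · rw [hk]; exact σ.injective (by rw [h0, map_zero])
    · exact hg k hk
  rw [det_ι] at hz
  exact one_ne_zero hz

theorem corner {g : SUG m σ} (hg : ∀ i, i ≠ 0 → ι m σ g i 0 = 0) :
    σ (ι m σ g 0 0) * ι m σ g (Fin.last (m + 1)) (Fin.last (m + 1)) = 1 := by
  have h := form g 0 (Fin.last (m + 1))
  rwa [Finset.sum_eq_single 0 (fun k _ hk => by rw [hg k hk, map_zero, zero_mul]) (by simp),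
    rev_zero, if_pos rfl] at h

/-- The unipotent radical of the stabiliser of the first point. -/
def R (m : ℕ) {F : Type*} [Field F] [Finite F] (σ : F ≃+* F) : Subgroup (SUG m σ) :=
  Linear.ofMulClosed
    {g | ι m σ g 0 0 = 1 ∧
      ∀ i, i ≠ 0 → ∀ j, j ≠ Fin.last (m + 1) → ι m σ g i j = if i = j then 1 else 0}
    ⟨by simp, fun i _ j _ => by rw [map_one, Matrix.one_apply]⟩
    fun a ha b hb => by
      have hb0 : ∀ k, k ≠ 0 → ι m σ b k 0 = 0 := fun k hk => by
        rw [hb.2 k hk 0 Fin.last_pos.ne, if_neg hk]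
      refine ⟨?_, fun i hi j hj => ?_⟩
      · rw [map_mul, Matrix.mul_apply, Finset.sum_eq_single 0
          (fun k _ hk => by rw [hb0 k hk, mul_zero]) (by simp), ha.1, hb.1, one_mul]
      · have haii : ι m σ a i i = 1 := by
          by_cases hil : i = Fin.last (m + 1)
          · subst hil
            have := corner (g := a) fun k hk => by rw [ha.2 k hk 0 Fin.last_pos.ne, if_neg hk]
            rwa [ha.1, map_one, one_mul] at this
          · rw [ha.2 i hi i hil, if_pos rfl]
        rw [map_mul, Matrix.mul_apply, Finset.sum_eq_single i, haii, one_mul, hb.2 i hi j hj]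
        · intro k _ hk
          by_cases hkl : k = Fin.last (m + 1)
          · subst hkl
            rw [row_last hb0 hj, mul_zero]
          · rw [ha.2 i hi k hkl, if_neg hk.symm, zero_mul]
        · simp

/-- The stabiliser of the first point. -/
def P (m : ℕ) {F : Type*} [Field F] [Finite F] (σ : F ≃+* F) : Subgroup (SUG m σ) :=
  Linear.ofMulClosed {g | ∀ i, i ≠ 0 → ι m σ g i 0 = 0}
    (fun i hi => by rw [map_one, Matrix.one_apply_ne hi])
    fun a ha b hb i hi => by
      rw [map_mul, Matrix.mul_apply]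
      refine Finset.sum_eq_zero fun k _ => ?_
      by_cases hk : k = 0
      · subst hk; rw [ha i hi, zero_mul]
      · rw [hb k hk, mul_zero]

theorem R_le_P : R m σ ≤ P m σ := fun g hg i hi => by
  rw [hg.2 i hi 0 Fin.last_pos.ne, if_neg hi]

theorem R_le_Q {g : SUG m σ} (hg : g ∈ R m σ) : (g : SLG m F) ∈ Linear.Q := by
  have hup : (ι m σ g).IsUpperTriangular := fun i j (hij : j < i) => by
    rw [hg.2 i (lt_of_le_of_lt (Fin.zero_le j) hij).ne' j (lt_of_lt_of_le hij (Fin.le_last i)).ne,
      if_neg (ne_of_gt hij)]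
  refine ⟨hup, fun i => ?_⟩
  by_cases hi : i = 0
  · subst hi; exact hg.1
  by_cases hl : i = Fin.last (m + 1)
  · subst hl
    have := corner (g := g) (R_le_P hg)
    rwa [hg.1, map_one, one_mul] at this
  · show ι m σ g i i = 1
    rw [hg.2 i hi i hl, if_pos rfl]

section
variable (r : ℕ) [Fact r.Prime] [CharP F r]

theorem R_pgroup : IsPGroup r (R m σ) := by
  rintro ⟨g, hg⟩
  obtain ⟨k, hk⟩ := Linear.Q_pgroup (m := m) (F := F) r ⟨_, R_le_Q hg⟩
  refine ⟨k, Subtype.ext (Subtype.ext ?_)⟩
  simpa using congrArg Subtype.val hk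

end

theorem conj_mem_R {g h : SUG m σ} (hg : g ∈ P m σ) (hh : h ∈ R m σ) : g * h * g⁻¹ ∈ R m σ := by
  have hgi : g⁻¹ ∈ P m σ := (P m σ).inv_mem hg
  have hP : g * h * g⁻¹ ∈ P m σ := (P m σ).mul_mem ((P m σ).mul_mem hg (R_le_P hh)) hgi
  refine ⟨?_, fun i hi j hj => ?_⟩
  · have hg0 : ι m σ g 0 0 * ι m σ g⁻¹ 0 0 = 1 := by
      have h1 : ι m σ g * ι m σ g⁻¹ = 1 := by rw [← map_mul, mul_inv_cancel, map_one]
      have := congrFun (congrFun h1 0) 0
      rwa [Matrix.mul_apply, Finset.sum_eq_single 0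
        (fun k _ hk => by rw [hgi k hk, mul_zero]) (by simp), Matrix.one_apply_eq] at this
    rw [map_mul, Matrix.mul_apply, Finset.sum_eq_single 0
      (fun k _ hk => by rw [hgi k hk, mul_zero]) (by simp), map_mul, Matrix.mul_apply,
      Finset.sum_eq_single 0 (fun k _ hk => by rw [R_le_P hh k hk, mul_zero]) (by simp), hh.1,
      mul_one, hg0]
  have : ι m σ (g * h * g⁻¹) = 1 + ι m σ g * (ι m σ h - 1) * ι m σ g⁻¹ := by
    rw [Matrix.mul_sub, Matrix.sub_mul, Matrix.mul_one, ← map_mul (ι m σ) g g⁻¹, mul_inv_cancel,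
      map_one, map_mul, map_mul]
    abel
  rw [this, Matrix.add_apply, Matrix.one_apply]
  suffices ((ι m σ g * (ι m σ h - 1)) * ι m σ g⁻¹) i j = 0 by rw [this, add_zero]
  rw [Matrix.mul_apply]
  refine Finset.sum_eq_zero fun k _ => ?_
  by_cases hk : k = Fin.last (m + 1)
  · subst hk; rw [row_last hgi hj, mul_zero]
  rw [Matrix.mul_apply, Finset.sum_mul]
  refine Finset.sum_eq_zero fun l _ => ?_
  by_cases hl : l = 0
  · subst hl; rw [hg i hi, zero_mul, zero_mul]
  · rw [Matrix.sub_apply, hh.2 l hl k hk, Matrix.one_apply, sub_self, mul_zero, zero_mul]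

section construction

variable (hσ : ∀ x, σ (σ x) = x) (h2 : (2 : F) ≠ 0)

/-- The strictly triangular part of a root element. -/
def dmat (σ : F ≃+* F) (v : Fin (m + 2) → F) (a : F) : Matrix (Fin (m + 2)) (Fin (m + 2)) F :=
  Matrix.of fun i j => if j = Fin.last (m + 1) then (if i = 0 then a else v i)
    else (if i = 0 then -σ (v j.rev) else 0)

include hσ in
theorem exists_root (v : Fin (m + 2) → F) (a : F) (hv0 : v 0 = 0)
    (hvl : v (Fin.last (m + 1)) = 0) (ha : a + σ a + ∑ k, σ (v k.rev) * v k = 0) :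
    ∃ g ∈ R m σ, ι m σ g = 1 + dmat σ v a := by
  set D := dmat σ v a with hD
  have hl : (Fin.last (m + 1) : Fin (m + 2)) ≠ 0 := Fin.last_pos.ne'
  have hDl : ∀ i j, j ≠ Fin.last (m + 1) → i ≠ 0 → D i j = 0 := fun i j hj hi => by
    simp [hD, dmat, hj, hi]
  have hD00 : D 0 0 = 0 := by
    simp [hD, dmat, hl.symm, rev_zero, hvl]
  have hDll : D (Fin.last (m + 1)) (Fin.last (m + 1)) = 0 := by simp [hD, dmat, hl, hvl]
  have hup : (1 + D).IsUpperTriangular := fun i j (hij : j < i) => by
    rw [Matrix.add_apply, Matrix.one_apply_ne (ne_of_gt hij), hDl i j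
      (lt_of_lt_of_le hij (Fin.le_last i)).ne (lt_of_le_of_lt (Fin.zero_le j) hij).ne', add_zero]
  have hdiag : ∀ i, (1 + D) i i = 1 := fun i => by
    rw [Matrix.add_apply, Matrix.one_apply_eq]
    by_cases hi : i = Fin.last (m + 1)
    · subst hi; rw [hDll, add_zero]
    · by_cases hi0 : i = 0
      · subst hi0; rw [hD00, add_zero]
      · rw [hDl i i hi hi0, add_zero]
  have hdet : (1 + D).det = 1 := by
    rw [det_of_isUpperTriangular hup, Finset.prod_eq_one fun i _ => hdiag i]
  have hform : star' σ (1 + D) * gram m F * (1 + D) = gram m F := by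
    have e : star' σ (1 + D) = 1 + star' σ D := by
      ext i j
      simp [star', Matrix.add_apply, Matrix.one_apply, apply_ite σ, eq_comm]
    have hrest : star' σ D * gram m F + gram m F * D + star' σ D * gram m F * D = 0 := by
      ext i j
      rw [Matrix.add_apply, Matrix.add_apply, mul_gram, gram_mul, Matrix.mul_assoc,
        Matrix.mul_apply, Matrix.zero_apply]
      simp only [gram_mul]
      show σ (D j.rev i) + D i.rev j + ∑ k, σ (D k i) * D k.rev j = 0
      by_cases hi : i = Fin.last (m + 1) <;> by_cases hj : j = Fin.last (m + 1)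
      · subst hi; subst hj
        rw [Fin.rev_last]
        have hs : ∑ k, σ (D k (Fin.last (m + 1))) * D k.rev (Fin.last (m + 1)) =
            ∑ k, σ (v k.rev) * v k := by
          rw [← Equiv.sum_comp Fin.revPerm]
          refine Finset.sum_congr rfl fun k _ => ?_
          rw [Fin.revPerm_apply, Fin.rev_rev]
          by_cases hk : k = 0
          · subst hk; simp [hD, dmat, rev_zero, hl, hv0, hvl]
          by_cases hk' : k = Fin.last (m + 1)
          · subst hk'; simp [hD, dmat, hl, hv0, hvl]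
          simp [hD, dmat, hk, rev_ne_zero hk']
        rw [hs]
        simp [hD, dmat] at ha ⊢
        linear_combination ha
      · subst hi
        rw [Fin.rev_last, Finset.sum_eq_zero]
        · simp [hD, dmat, hj, rev_ne_zero hj]
        intro k _
        by_cases hk : k.rev = 0
        · have : k = Fin.last (m + 1) := by rw [← Fin.rev_rev k, hk, rev_zero]
          rw [this, hDll, map_zero, zero_mul]
        · rw [hDl _ j hj hk, mul_zero]
      · subst hj
        rw [Fin.rev_last, Finset.sum_eq_zero]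
        · simp [hD, dmat, hi, rev_ne_zero hi, hσ]
        intro k _
        by_cases hk : k = 0
        · subst hk; rw [rev_zero, hDll, mul_zero]
        · rw [hDl k i hi hk, map_zero, zero_mul]
      · rw [hDl _ i hi (rev_ne_zero hj), hDl _ j hj (rev_ne_zero hi), map_zero, Finset.sum_eq_zero]
        · simp
        intro k _
        by_cases hk : k = 0
        · subst hk; rw [rev_zero, hDl _ j hj hl, mul_zero]
        · rw [hDl k i hi hk, map_zero, zero_mul]
    rw [e, Matrix.add_mul, Matrix.one_mul, Matrix.mul_add, Matrix.mul_one, Matrix.add_mul]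
    calc gram m F + star' σ D * gram m F + (gram m F * D + star' σ D * gram m F * D)
        = gram m F + (star' σ D * gram m F + gram m F * D + star' σ D * gram m F * D) := by abel
      _ = _ := by rw [hrest, add_zero]
  refine ⟨⟨⟨1 + D, hdet⟩, hform⟩, ⟨hdiag 0, fun i hi j hj => ?_⟩, rfl⟩
  show (1 + D) i j = _
  rw [Matrix.add_apply, hDl i j hj hi, add_zero, Matrix.one_apply]

theorem dmat_zero (a : F) :
    dmat (m := m) σ 0 a = a • Matrix.single 0 (Fin.last (m + 1)) (1 : F) := by
  ext i j
  by_cases hj : j = Fin.last (m + 1)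
  · subst hj
    by_cases hi : i = 0
    · subst hi; simp [dmat]
    · simp [dmat, hi, Matrix.single_apply, Ne.symm hi]
  · simp [dmat, hj, Matrix.single_apply, Ne.symm hj]

include hσ in
/-- The transvections in the radical. -/
theorem exists_transvection {s : F} (hs : s + σ s = 0) :
    ∃ g ∈ R m σ, ι m σ g = 1 + s • Matrix.single 0 (Fin.last (m + 1)) (1 : F) := by
  obtain ⟨g, hg, e⟩ := exists_root (m := m) hσ 0 s rfl rfl (by simpa using hs)
  exact ⟨g, hg, by rw [e, dmat_zero]⟩

include hσ h2 in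
/-- A radical element with prescribed middle column. -/
theorem exists_root' (v : Fin (m + 2) → F) (hv0 : v 0 = 0) (hvl : v (Fin.last (m + 1)) = 0) :
    ∃ a : F, ∃ g ∈ R m σ, ι m σ g = 1 + dmat σ v a := by
  set S := ∑ k, σ (v k.rev) * v k with hS
  have hSS : σ S = S := by
    rw [hS, map_sum, ← Equiv.sum_comp Fin.revPerm]
    refine Finset.sum_congr rfl fun k _ => ?_
    rw [Fin.revPerm_apply, Fin.rev_rev, map_mul, hσ, mul_comm]
  refine ⟨-(S / 2), exists_root hσ v _ hv0 hvl ?_⟩
  rw [map_neg, map_div₀, hSS, map_ofNat]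
  field_simp
  ring

end construction

section center

variable (hσ : ∀ x, σ (σ x) = x) (h2 : (2 : F) ≠ 0) (hne : ∃ x, σ x ≠ x) (hm : 1 ≤ m)

include hσ hne in
theorem exists_trace_zero : ∃ s : F, s ≠ 0 ∧ s + σ s = 0 := by
  obtain ⟨x, hx⟩ := hne
  exact ⟨x - σ x, sub_ne_zero.2 (Ne.symm hx), by rw [map_sub, hσ]; ring⟩

include hσ h2 hne hm in
/-- An element commuting with the radical lies in it up to a scalar. -/
theorem scalar_of_commute {g : SUG m σ} (h : ∀ u ∈ R m σ, Commute g u) :
    ∃ (c : F) (z u : SUG m σ), u ∈ R m σ ∧ ι m σ z = scalar _ c ∧ g = z * u := by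
  set l := Fin.last (m + 1) with hl
  set G := ι m σ g with hG
  obtain ⟨s, hs0, hs⟩ := exists_trace_zero hσ hne
  obtain ⟨t, ht, et⟩ := exists_transvection (m := m) hσ hs
  have hc : ∀ {u : SUG m σ}, u ∈ R m σ → ∀ D, ι m σ u = 1 + D → Commute D G := by
    intro u hu D hD
    have := ((h u hu).map (ι m σ)).symm
    rw [hD] at this
    have h' := this.sub_left (Commute.one_left G)
    rwa [add_sub_cancel_left] at h'
  have hcs : Commute (Matrix.single 0 l (1 : F)) G := by
    have := (hc ht _ et).smul_left s⁻¹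
    rwa [smul_smul, inv_mul_cancel₀ hs0, one_smul] at this
  obtain ⟨hcol, hrow, hdiag⟩ := Linear.entries_of_commute hcs
  set c := G 0 0 with hcdef
  have hmid : ∀ i j, i ≠ 0 → i ≠ l → j ≠ 0 → j ≠ l → G i j = if i = j then c else 0 := by
    intro i j hi0 hil hj0 hjl
    obtain ⟨a, u, hu, eu⟩ := exists_root' hσ h2 (Pi.single j 1) (by simp [hj0.symm])
      (by simp [← hl, Ne.symm hjl])
    have e := congrFun (congrFun (hc hu _ eu).eq i) l
    rw [Matrix.mul_apply, Matrix.mul_apply] at e
    rw [Finset.sum_eq_single l, Finset.sum_eq_single j] at e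
    · simp [dmat, ← hl, hi0, hj0] at e
      rw [← hdiag] at e
      rw [← e]
      by_cases hij : i = j
      · subst hij; simp
      · simp [hij, Ne.symm hij]
    · intro k _ hk
      by_cases hk0 : k = 0
      · subst hk0; rw [hcol i hi0, zero_mul]
      · simp [dmat, ← hl, hk0, hk]
    · simp
    · intro k _ hk
      simp [dmat, ← hl, hk, hi0]
    · simp
  have hnorm : σ c * c = 1 := by
    have : σ (G 0 0) * G l l = 1 := corner (g := g) (fun i hi => hcol i hi)
    rwa [← hdiag] at this
  have hupG : G.IsUpperTriangular := fun i j (hij : j < i) => by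
    have hi0 : i ≠ 0 := (lt_of_le_of_lt (Fin.zero_le j) hij).ne'
    have hjl : j ≠ l := (lt_of_lt_of_le hij (Fin.le_last i)).ne
    by_cases hj0 : j = 0
    · subst hj0; exact hcol i hi0
    by_cases hil : i = l
    · subst hil; exact hrow j hjl
    rw [hmid i j hi0 hil hj0 hjl, if_neg (ne_of_gt hij)]
  have hdc : ∀ i, G i i = c := fun i => by
    by_cases hi0 : i = 0
    · rw [hi0]
    by_cases hil : i = l
    · rw [hil, ← hdiag]
    rw [hmid i i hi0 hil hi0 hil, if_pos rfl]
  have hcn : c ^ (m + 2) = 1 := by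
    have := det_ι g
    rw [← hG, det_of_isUpperTriangular hupG, Finset.prod_congr rfl fun i _ => hdc i] at this
    simpa using this
  have hzform : star' σ (scalar (Fin (m + 2)) c) * gram m F * scalar _ c = gram m F := by
    ext i j
    rw [Matrix.mul_assoc, Matrix.mul_apply, Finset.sum_eq_single i]
    · rw [gram_mul]
      simp [star', gram, Matrix.diagonal_apply, eq_comm]
      by_cases h : j = i.rev
      · simp [h, hnorm]
      · simp [h, Ne.symm h]
    · intro k _ hk
      simp [star', hk]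
    · simp
  let z : SUG m σ := ⟨⟨scalar _ c, by simpa using hcn⟩, hzform⟩
  have hz : ι m σ z = scalar _ c := rfl
  have hc0 : c ≠ 0 := fun h => by simp [h] at hcn
  refine ⟨c, z, z⁻¹ * g, ?_, hz, by rw [mul_inv_cancel_left]⟩
  have hzu : ι m σ (z⁻¹ * g) = c⁻¹ • G := by
    have h1 : scalar (Fin (m + 2)) c * ι m σ (z⁻¹ * g) = G := by
      rw [← hz, ← map_mul, mul_inv_cancel_left]
    rw [← h1, scalar_apply, ← smul_eq_diagonal_mul, smul_smul, inv_mul_cancel₀ hc0, one_smul]
  refine ⟨by rw [hzu, Matrix.smul_apply, hdc, smul_eq_mul, inv_mul_cancel₀ hc0],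
    fun i hi j hj => ?_⟩
  rw [hzu, Matrix.smul_apply]
  by_cases hij : i = j
  · subst hij; rw [hdc, if_pos rfl, smul_eq_mul, inv_mul_cancel₀ hc0]
  rw [if_neg hij]
  by_cases hj0 : j = 0
  · subst hj0; rw [hcol i hi, smul_zero]
  by_cases hil : i = l
  · subst hil; rw [hrow j hj, smul_zero]
  rw [hmid i j hi hil hj0 hj, if_neg hij, smul_zero]

include hσ hne in
/-- An element exchanging the first and the last point. -/
theorem exists_swap : ∃ (s : F) (w : SUG m σ), s ≠ 0 ∧ s + σ s = 0 ∧ ι m σ w =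
    (Matrix.of fun i j => if Equiv.swap 0 (Fin.last (m + 1)) i = j then
      (if j = 0 then s else if j = Fin.last (m + 1) then -s⁻¹ else 1) else 0) := by
  obtain ⟨s, hs0, hs⟩ := exists_trace_zero hσ hne
  set l := Fin.last (m + 1)
  have hl : l ≠ (0 : Fin (m + 2)) := Fin.last_pos.ne'
  set e := Equiv.swap (0 : Fin (m + 2)) l with he
  set d : Fin (m + 2) → F := fun j => if j = 0 then s else if j = l then -s⁻¹ else 1 with hd
  set W : Matrix (Fin (m + 2)) (Fin (m + 2)) F := Matrix.of fun i j => if e i = j then d j else 0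
    with hW
  have hWeq : W = (1 : Matrix (Fin (m + 2)) (Fin (m + 2)) F).submatrix e id * diagonal d := by
    ext i j
    simp [hW, Matrix.mul_diagonal, Matrix.one_apply]
  have hdet : W.det = 1 := by
    rw [hWeq, Matrix.det_mul, Matrix.det_permute, det_one, mul_one, det_diagonal, he,
      Equiv.Perm.sign_swap hl.symm,
      Finset.prod_eq_mul (0 : Fin (m + 2)) l hl.symm (fun k _ hk => by simp [hd, hk.1, hk.2])
        (by simp) (by simp)]
    simp [hd, hl, hs0]
  have hσs : σ s = -s := by linear_combination hs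
  have hform : star' σ W * gram m F * W = gram m F := by
    ext i j
    rw [Matrix.mul_assoc, Matrix.mul_apply, Finset.sum_eq_single (e i)]
    · rw [gram_mul]
      simp only [star', Matrix.transpose_apply, Matrix.map_apply, hW, Matrix.of_apply, gram]
      rw [show e (e i) = i from Equiv.swap_apply_self _ _ _, if_pos rfl]
      by_cases hj : e (e i).rev = j
      · rw [if_pos hj]
        by_cases hi0 : i = 0
        · subst hi0
          have : j = l := by
            rw [← hj, he, Equiv.swap_apply_left, Fin.rev_last, Equiv.swap_apply_left]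
          subst this
          simp [hd, hσs, hl, hs0, rev_zero, l]
        by_cases hil : i = l
        · subst hil
          have : j = 0 := by
            rw [← hj, he, Equiv.swap_apply_right, rev_zero, Equiv.swap_apply_right]
          subst this
          simp [hd, hσs, hl, hs0, l]
        have h1 : e i = i := Equiv.swap_apply_of_ne_of_ne hi0 hil
        have h2 : i.rev ≠ l := fun h => hi0 (by rw [← Fin.rev_rev i, h, Fin.rev_last])
        have h3 : e i.rev = i.rev := Equiv.swap_apply_of_ne_of_ne (rev_ne_zero hil) h2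
        rw [h1, h3] at hj
        subst hj
        simp [hd, hi0, hil, rev_ne_zero hil, h2]
      · rw [if_neg hj, mul_zero, if_neg]
        intro h
        apply hj
        subst h
        by_cases hi0 : i = 0
        · subst hi0; rw [he, Equiv.swap_apply_left, Fin.rev_last, Equiv.swap_apply_left, rev_zero]
        by_cases hil : i = l
        · subst hil; rw [he, Equiv.swap_apply_right, rev_zero, Equiv.swap_apply_right, Fin.rev_last]
        rw [show e i = i from Equiv.swap_apply_of_ne_of_ne hi0 hil]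
        exact Equiv.swap_apply_of_ne_of_ne (rev_ne_zero hil)
          fun h => hi0 (by rw [← Fin.rev_rev i, h, Fin.rev_last])
    · intro k _ hk
      have : e k ≠ i := fun h => hk (by rw [← h, he, Equiv.swap_apply_self])
      simp [star', hW, this]
    · simp
  exact ⟨s, ⟨⟨W, hdet⟩, hform⟩, hs0, hs, rfl⟩

/-- A radical element whose last column is the last basis vector is trivial. -/
theorem eq_one_of_col {u : SUG m σ} (hu : u ∈ R m σ)
    (h : ∀ i, i ≠ Fin.last (m + 1) → ι m σ u i (Fin.last (m + 1)) = 0) : u = 1 := by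
  refine ι_inj σ ?_
  rw [map_one]
  ext i j
  have hll : ι m σ u (Fin.last (m + 1)) (Fin.last (m + 1)) = 1 := (R_le_Q hu).2 _
  by_cases hj : j = Fin.last (m + 1)
  · subst hj
    by_cases hi : i = Fin.last (m + 1)
    · subst hi; rw [hll, Matrix.one_apply_eq]
    · rw [h i hi, Matrix.one_apply_ne hi]
  by_cases hi : i = 0
  · subst hi
    by_cases hj0 : j = 0
    · subst hj0; rw [hu.1, Matrix.one_apply_eq]
    · rw [Matrix.one_apply_ne (Ne.symm hj0)]
      have hf := form u j (Fin.last (m + 1))
      rw [Finset.sum_eq_single 0, rev_zero, hll, mul_one, if_neg] at hf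
      · exact σ.injective (by rw [hf, map_zero])
      · intro e
        exact hj0 (by rw [← Fin.rev_rev j, ← e, Fin.rev_last])
      · intro k _ hk
        rw [h k.rev (fun e => hk (by rw [← Fin.rev_rev k, e, Fin.rev_last])), mul_zero]
      · simp
  rw [hu.2 i hi j hj, Matrix.one_apply]

include hσ h2 hne hm in
/-- The centre consists of scalars. -/
theorem center_scalar {z : SUG m σ} (hz : z ∈ Subgroup.center (SUG m σ)) :
    ∃ c : F, ι m σ z = scalar _ c := by
  obtain ⟨c, zs, u, hu, hzs, rfl⟩ := scalar_of_commute hσ h2 hne hm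
    (g := z) (fun u _ => (Subgroup.mem_center_iff.1 hz u).symm)
  refine ⟨c, ?_⟩
  suffices u = 1 by rw [this, mul_one, hzs]
  have hzc : ∀ g : SUG m σ, zs * g = g * zs := fun g => ι_inj σ (by
    rw [map_mul, map_mul, hzs]; exact scalar_commute c (fun _ => mul_comm _ _) _)
  obtain ⟨s, w, hs0, hs, hw⟩ := exists_swap (m := m) hσ hne
  have hcomm : u * w = w * u := by
    have := Subgroup.mem_center_iff.1 hz w
    rw [← mul_assoc, ← hzc w, mul_assoc, mul_assoc] at this
    exact (mul_left_cancel this).symm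
  refine eq_one_of_col hu fun i hi => ?_
  set l := Fin.last (m + 1) with hl
  have hl0 : l ≠ (0 : Fin (m + 2)) := Fin.last_pos.ne'
  set i' := Equiv.swap (0 : Fin (m + 2)) l i with hi'
  have he := congrFun (congrFun (congrArg (ι m σ) hcomm) i') l
  rw [map_mul, map_mul, Matrix.mul_apply, Matrix.mul_apply, hw] at he
  rw [Finset.sum_eq_single 0, Finset.sum_eq_single i] at he
  · have hi'0 : i' ≠ 0 := fun h => hi (by
      rw [hi', Equiv.swap_apply_eq_iff, Equiv.swap_apply_left] at h; exact h)
    rw [R_le_P hu i' hi'0, zero_mul] at he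
    simp only [Matrix.of_apply, hi', Equiv.swap_apply_self, if_pos] at he
    by_cases hi0 : i = 0
    · subst hi0; simpa [hs0] using he.symm
    · simpa [hi0, hi] using he.symm
  · intro k _ hk
    have : Equiv.swap (0 : Fin (m + 2)) l i' ≠ k := by
      rw [hi', Equiv.swap_apply_self]; exact Ne.symm hk
    simp [← hl, this]
  · simp
  · intro k _ hk
    have : Equiv.swap (0 : Fin (m + 2)) l k ≠ l := fun h => hk (by
      rw [Equiv.swap_apply_eq_iff, Equiv.swap_apply_right] at h; exact h)
    simp [← hl, this]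
  · simp

include hσ h2 hne hm in
/-- Commutation modulo the centre with a radical element is commutation. -/
theorem commute_of_map (r : ℕ) [Fact r.Prime] [CharP F r] {g u : SUG m σ} (hu : u ∈ R m σ)
    (h : Commute (QuotientGroup.mk' (Subgroup.center (SUG m σ)) g)
      (QuotientGroup.mk' (Subgroup.center (SUG m σ)) u)) : Commute g u := by
  have hgP : g * u * g⁻¹ * u⁻¹ ∈ Subgroup.center (SUG m σ) := by
    rw [← QuotientGroup.eq_one_iff (N := Subgroup.center (SUG m σ))]
    show QuotientGroup.mk' (Subgroup.center (SUG m σ)) _ = 1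
    rw [map_mul, map_mul, map_mul, map_inv, map_inv, h.eq, mul_inv_cancel_right, mul_inv_cancel]
  set z := g * u * g⁻¹ * u⁻¹ with hz
  obtain ⟨c, hc⟩ := center_scalar hσ h2 hne hm hgP
  obtain ⟨k, hk⟩ := R_pgroup (m := m) (σ := σ) r ⟨u, hu⟩
  have hk' : u ^ r ^ k = 1 := by simpa using congrArg Subtype.val hk
  have e : g * u * g⁻¹ = z * u := by rw [hz]; group
  have hpow : z ^ r ^ k = 1 := by
    have := congrArg (· ^ r ^ k) e
    have hcom : Commute z u := (Subgroup.mem_center_iff.1 hgP u).symm
    simp only [conj_pow, hcom.mul_pow, hk', mul_one, mul_inv_cancel] at this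
    exact this.symm
  have hc1 : c = 1 := by
    have h1 := congrArg (ι m σ) hpow
    rw [map_pow, hc, ← map_pow, map_one] at h1
    have h2 : c ^ r ^ k = 1 := by simpa using congrFun (congrFun h1 0) 0
    have : (c - 1) ^ r ^ k = 0 := by rw [sub_pow_char_pow, h2, one_pow, sub_self]
    exact sub_eq_zero.1 (pow_eq_zero_iff (pow_ne_zero k (Fact.out : r.Prime).ne_zero) |>.1 this)
  have hz1 : z = 1 := ι_inj σ (by rw [hc, hc1, map_one, map_one])
  show g * u = u * g
  rw [hz1, one_mul, mul_inv_eq_iff_eq_mul] at e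
  exact e

end center

section main

variable (hσ : ∀ x, σ (σ x) = x) (hne : ∃ x, σ x ≠ x) (hm : 1 ≤ m)

include hσ in
/-- Either the first point is moved to an opposite point, or some nontrivial radical element
stays in the radical after conjugation. -/
theorem exists_common {g : SUG m σ} (h2 : (2 : F) ≠ 0) (hgl : ι m σ g (Fin.last (m + 1)) 0 = 0)
    (hg : g ∉ P m σ) : ∃ u ∈ R m σ, u ≠ 1 ∧ g⁻¹ * u * g ∈ R m σ := by
  set l := Fin.last (m + 1) with hl
  have hl0 : l ≠ (0 : Fin (m + 2)) := Fin.last_pos.ne'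
  obtain ⟨k, hk0, hk⟩ : ∃ k, k ≠ 0 ∧ ι m σ g k 0 ≠ 0 := by
    by_contra h
    push Not at h
    exact hg h
  set G := ι m σ g with hG
  have hkl : k ≠ l := fun h => hk (by rw [h]; exact hgl)
  set v : Fin (m + 2) → F := fun i => if i = 0 then 0 else G i 0 with hv
  have hf := form g 0 0
  rw [if_neg (by rw [rev_zero]; exact Ne.symm hl0), ← hG] at hf
  have hsum : ∑ i, σ (v i.rev) * v i = 0 := by
    have hrev : ∑ i, σ (v i.rev) * v i = ∑ i, σ (v i) * v i.rev := by
      rw [← Equiv.sum_comp Fin.revPerm]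
      exact Finset.sum_congr rfl fun i _ => by rw [Fin.revPerm_apply, Fin.rev_rev]
    rw [hrev, ← hf]
    refine Finset.sum_congr rfl fun i _ => ?_
    by_cases hi : i = 0
    · subst hi; simp [hv, rev_zero, ← hl, hgl]
    by_cases hil : i = l
    · subst hil; simp [hv, hgl, l]
    simp [hv, hi, rev_ne_zero hil]
  obtain ⟨u, hu, eu⟩ := exists_root (m := m) hσ v (G 0 0 - σ (G 0 0)) (by simp [hv])
    (by simp [hv, ← hl, hl0, hgl]) (by rw [hsum, map_sub, hσ]; ring)
  have hu1 : u ≠ 1 := by
    intro h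
    have := congrFun (congrFun eu k) l
    simp [h, dmat, ← hl, hv, hk0, Matrix.one_apply, hkl] at this
    exact hk this.symm
  refine ⟨u, hu, hu1, ?_⟩
  have hgg : ι m σ g⁻¹ * G = 1 := by rw [hG, ← map_mul, inv_mul_cancel, map_one]
  have hD : dmat σ v (G 0 0 - σ (G 0 0)) = Matrix.of fun a b : Fin (m + 2) =>
      G a 0 * (if b = l then 1 else 0) - (if a = 0 then 1 else 0) * σ (G b.rev 0) := by
    ext a b
    by_cases hb : b = l
    · subst hb
      by_cases ha : a = 0
      · subst ha; simp [dmat, l]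
      · simp [dmat, hv, ha, l]
    · by_cases ha : a = 0
      · subst ha; simp [dmat, ← hl, hb, hv, rev_ne_zero hb]
      · simp [dmat, ← hl, hb, ha]
  have hconj : ι m σ (g⁻¹ * u * g) = 1 + Matrix.of fun i j : Fin (m + 2) =>
      (if i = 0 then 1 else 0) * G l j - ι m σ g⁻¹ i 0 * (if j = l then 1 else 0) := by
    rw [map_mul, map_mul, eu, Matrix.mul_add, Matrix.mul_one, Matrix.add_mul, ← hG, hgg, hD]
    congr 1
    ext i j
    have e1 : ∑ a, ι m σ g⁻¹ i a * G a 0 = if i = 0 then 1 else 0 := by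
      have := congrFun (congrFun hgg i) 0
      rwa [Matrix.mul_apply, Matrix.one_apply] at this
    have e2 : ∑ b, σ (G b.rev 0) * G b j = if j = l then 1 else 0 := by
      have h := form g 0 j
      rw [← Equiv.sum_comp Fin.revPerm, rev_zero] at h
      simpa [Fin.revPerm_apply, ← hl, ← hG] using h
    rw [Matrix.mul_apply]
    simp only [Matrix.mul_apply, Matrix.of_apply, mul_sub, Finset.sum_sub_distrib]
    rw [← e1, ← e2]
    simp only [sub_mul, Finset.sum_mul, Finset.mul_sum, Finset.sum_sub_distrib, mul_ite, ite_mul,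
      mul_one, one_mul, mul_zero, zero_mul, Finset.sum_ite_eq', Finset.mem_univ, if_true]
    rw [Finset.sum_comm]
    simp only [Finset.sum_ite_eq', Finset.mem_univ, if_true, mul_assoc]
  refine ⟨?_, fun i hi j hj => ?_⟩
  · rw [hconj]; simp [hgl, ← hl, Ne.symm hl0]
  · rw [hconj]; simp [hi, ← hl, Matrix.one_apply, show j ≠ l from hj]

include hσ in
/-- Elements moving the first point to an opposite point. -/
theorem exists_decomp {s : F} {w : SUG m σ} (hs0 : s ≠ 0)
    (hw : ι m σ w = (Matrix.of fun i j => if Equiv.swap 0 (Fin.last (m + 1)) i = j then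
      (if j = 0 then s else if j = Fin.last (m + 1) then -s⁻¹ else 1) else 0))
    {g : SUG m σ} (hgl : ι m σ g (Fin.last (m + 1)) 0 ≠ 0) :
    ∃ u ∈ R m σ, ∃ b ∈ P m σ, g = u * w * b := by
  set l := Fin.last (m + 1) with hl
  have hl0 : l ≠ (0 : Fin (m + 2)) := Fin.last_pos.ne'
  set G := ι m σ g with hG
  set t := G l 0 with ht
  set v : Fin (m + 2) → F := fun i => if i = 0 ∨ i = l then 0 else G i 0 / t with hv
  have hf := form g 0 0
  rw [if_neg (by rw [rev_zero]; exact Ne.symm hl0), ← hG] at hf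
  have hsum : G 0 0 / t + σ (G 0 0 / t) + ∑ i, σ (v i.rev) * v i = 0 := by
    have hσt : σ t ≠ 0 := fun h => hgl (σ.injective (by rw [h, map_zero]))
    have e : ∑ i, σ (G i 0) * G i.rev 0 = σ (G 0 0) * t + σ t * G 0 0 +
        (σ t * t) * ∑ i, σ (v i.rev) * v i := by
      have hrev : ∑ i, σ (v i.rev) * v i = ∑ i, σ (v i) * v i.rev := by
        rw [← Equiv.sum_comp Fin.revPerm]
        exact Finset.sum_congr rfl fun i _ => by rw [Fin.revPerm_apply, Fin.rev_rev]
      rw [hrev, Finset.mul_sum, ← Finset.add_sum_erase _ _ (Finset.mem_univ (0 : Fin (m + 2))),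
        ← Finset.add_sum_erase _ _ (Finset.mem_erase.2 ⟨hl0, Finset.mem_univ l⟩),
        ← Finset.add_sum_erase _ (fun i => σ t * t * (σ (v i) * v i.rev))
          (Finset.mem_univ (0 : Fin (m + 2))),
        ← Finset.add_sum_erase _ (fun i => σ t * t * (σ (v i) * v i.rev))
          (Finset.mem_erase.2 ⟨hl0, Finset.mem_univ l⟩)]
      have h0 : σ t * t * (σ (v 0) * v (0 : Fin (m + 2)).rev) = 0 := by simp [hv]
      have h1 : σ t * t * (σ (v l) * v l.rev) = 0 := by simp [hv]
      have hr0 : G (0 : Fin (m + 2)).rev 0 = t := by simp [ht, rev_zero, ← hl]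
      have hrl : G l.rev 0 = G 0 0 := congrArg (fun i => G i 0) (Fin.rev_last _)
      rw [h0, h1, hr0, hrl, zero_add, zero_add, add_assoc (σ (G 0 0) * t)]
      congr 2
      refine Finset.sum_congr rfl fun i hi => ?_
      obtain ⟨hil, hi0, -⟩ : i ≠ l ∧ i ≠ 0 ∧ True := by simp at hi; exact ⟨hi.1, hi.2, trivial⟩
      have h3 : i.rev ≠ l := fun h => hi0 (by rw [← Fin.rev_rev i, h, Fin.rev_last])
      simp [hv, hi0, hil, h3, rev_ne_zero hil]
      field_simp
    rw [hf] at e
    rw [map_div₀]
    field_simp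
    linear_combination e.symm
  obtain ⟨u, hu, eu⟩ := exists_root (m := m) hσ v (G 0 0 / t) (by simp [hv])
    (by simp [hv, ← hl]) hsum
  have hcol : ∀ i, ι m σ u i l * t = G i 0 := by
    intro i
    rw [eu, Matrix.add_apply]
    by_cases hi : i = l
    · subst hi; simp [dmat, hv, l, t]
    by_cases hi0 : i = 0
    · subst hi0; simp [dmat, ← hl, Ne.symm hl0]; field_simp
    simp [dmat, ← hl, hi, hi0, hv]; field_simp
  refine ⟨u, hu, w⁻¹ * u⁻¹ * g, fun i hi => ?_, by group⟩
  have hgu : ∀ i, (ι m σ (u⁻¹ * g)) i 0 = if i = l then t else 0 := by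
    intro i
    have h1 : ι m σ u⁻¹ * ι m σ u = 1 := by rw [← map_mul, inv_mul_cancel, map_one]
    have := congrFun (congrFun h1 i) l
    rw [Matrix.mul_apply, Matrix.one_apply] at this
    rw [map_mul, Matrix.mul_apply]
    calc ∑ k, ι m σ u⁻¹ i k * ι m σ g k 0 = (∑ k, ι m σ u⁻¹ i k * ι m σ u k l) * t := by
          rw [Finset.sum_mul]
          exact Finset.sum_congr rfl fun k _ => by rw [mul_assoc, hcol, hG]
      _ = _ := by rw [this]; split_ifs <;> simp
  rw [mul_assoc, map_mul, Matrix.mul_apply, Finset.sum_eq_single l]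
  · rw [ι_inv, hgu, if_pos rfl, show l.rev = 0 from Fin.rev_last _, hw]
    have h3 : i.rev ≠ l := fun h => hi (by rw [← Fin.rev_rev i, h, Fin.rev_last])
    simp [← hl, Equiv.swap_apply_left, Ne.symm h3]
  · intro k _ hk
    rw [hgu, if_neg hk, mul_zero]
  · simp

include hσ hne hm in
/-- **Projective special unitary groups have Robinson subgroups.** -/
theorem hasRobinson_psu {p r : ℕ} [Fact p.Prime] [Fact r.Prime] [CharP F r] (hpr : p ≠ r)
    (hr : r ≠ 2) (hbig : 3 < Nat.card {x : F // σ x = x} ∨ p = 2) :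
    HasRobinson p r (PSUG m σ) := by
  let : Fintype F := Fintype.ofFinite F
  have h2 : (2 : F) ≠ 0 := Ring.two_ne_zero (by rw [ringChar.eq F r]; exact hr)
  have hp : (p : F) ≠ 0 := fun h => hpr
    ((Nat.prime_dvd_prime_iff_eq Fact.out Fact.out).1 ((CharP.cast_eq_zero_iff F r p).1 h)).symm
  set π := QuotientGroup.mk' (Subgroup.center (SUG m σ)) with hπ
  set l := Fin.last (m + 1) with hl
  have hl0 : l ≠ (0 : Fin (m + 2)) := Fin.last_pos.ne'
  obtain ⟨s, w, hs0, hs, hw⟩ := exists_swap (m := m) hσ hne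
  obtain ⟨t, ht, et⟩ := exists_transvection (m := m) hσ hs
  have hcP : ∀ {z}, z ∈ Subgroup.center (SUG m σ) → z ∈ P m σ := fun {z} hz i hi => by
    obtain ⟨c, hc⟩ := center_scalar hσ h2 hne hm hz
    simp [hc, hi]
  have hRc : ∀ u ∈ R m σ, π u = 1 → u = 1 := fun u hu h => by
    obtain ⟨c, hc⟩ := center_scalar hσ h2 hne hm ((QuotientGroup.eq_one_iff u).1 h)
    refine ι_inj σ ?_
    have := hu.1
    simp [hc] at this
    rw [hc, this, map_one, map_one]
  have hmapP : ∀ g, π g ∈ (P m σ).map π → g ∈ P m σ := by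
    rintro g ⟨b, hb, e⟩
    have : b⁻¹ * g ∈ P m σ := hcP (QuotientGroup.eq.1 e)
    simpa using (P m σ).mul_mem hb this
  have hnP : ∀ b ∈ (P m σ).map π, ∀ q ∈ (R m σ).map π, b * q * b⁻¹ ∈ (R m σ).map π := by
    rintro _ ⟨b, hb, rfl⟩ _ ⟨q, hq, rfl⟩
    exact ⟨b * q * b⁻¹, conj_mem_R hb hq, by simp⟩
  have hC : Subgroup.centralizer (((R m σ).map π : Subgroup (PSUG m σ)) : Set (PSUG m σ)) ≤
      (R m σ).map π := by
    intro a ha
    obtain ⟨g, rfl⟩ := QuotientGroup.mk'_surjective _ a
    obtain ⟨c, z, u, hu, hz, rfl⟩ := scalar_of_commute hσ h2 hne hm (g := g) fun q hq =>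
      commute_of_map hσ h2 hne hm r hq
        (Subgroup.mem_centralizer_iff.1 ha _ ⟨q, hq, rfl⟩).symm
    have hzc : z ∈ Subgroup.center (SUG m σ) := Subgroup.mem_center_iff.2 fun g => ι_inj σ (by
      rw [map_mul, map_mul, hz]; exact (scalar_commute c (fun _ => mul_comm _ _) _).symm)
    refine ⟨u, hu, ?_⟩
    rw [map_mul, show π z = 1 from (QuotientGroup.eq_one_iff z).2 hzc, one_mul]
  have hcolw : ∀ i, ι m σ w i l = if i = 0 then -s⁻¹ else 0 := fun i => by
    rw [hw]
    simp only [Matrix.of_apply, if_neg hl0, if_pos]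
    by_cases hi : i = 0
    · subst hi; simp [Equiv.swap_apply_left, ← hl]
    · rw [if_neg hi, if_neg]
      intro h
      rw [Equiv.swap_apply_eq_iff, Equiv.swap_apply_right] at h
      exact hi h
  have hcolw0 : ∀ i, ι m σ w i 0 = if i = l then s else 0 := fun i => by
    rw [hw]
    by_cases hi : i = l
    · subst hi; simp [Equiv.swap_apply_right, l]
    · simp only [Matrix.of_apply]
      rw [if_neg hi, if_neg]
      intro h
      rw [Equiv.swap_apply_eq_iff, Equiv.swap_apply_left] at h
      exact hi h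
  have hD2 : ∀ u ∈ R m σ, w⁻¹ * u * w ∈ P m σ → u = 1 := by
    intro u hu hb
    refine eq_one_of_col hu fun i hi => ?_
    have e : u * w = w * (w⁻¹ * u * w) := by group
    have := congrFun (congrFun (congrArg (ι m σ) e) i) 0
    rw [map_mul (ι m σ) u w, map_mul (ι m σ) w, Matrix.mul_apply, Matrix.mul_apply, Finset.sum_eq_single l,
      Finset.sum_eq_single 0, hcolw0, hcolw0, if_pos rfl, if_neg hi, zero_mul] at this
    · exact (mul_eq_zero.1 this).resolve_right hs0
    · intro k _ hk; rw [hb k hk, mul_zero]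
    · simp
    · intro k _ hk; rw [hcolw0, if_neg hk, mul_zero]
    · simp
  have hD2' : ∀ u ∈ R m σ, w * u * w⁻¹ ∈ P m σ → u = 1 := by
    intro u hu hb
    refine eq_one_of_col hu fun i hi => ?_
    have e : w * u * w⁻¹ * w = w * u := by group
    set i' := Equiv.swap (0 : Fin (m + 2)) l i with hi'
    have hi'0 : i' ≠ 0 := fun h => hi (by
      rw [hi', Equiv.swap_apply_eq_iff, Equiv.swap_apply_left] at h; exact h)
    have := congrFun (congrFun (congrArg (ι m σ) e) i') l
    rw [map_mul _ (w * u * w⁻¹) w, map_mul _ w u, Matrix.mul_apply, Matrix.mul_apply,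
      Finset.sum_eq_single 0, Finset.sum_eq_single i, hb i' hi'0, zero_mul, hw] at this
    · simp only [Matrix.of_apply, hi', ← hl, Equiv.swap_apply_self, if_pos] at this
      by_cases hi0 : i = 0
      · subst hi0; simpa [hs0, ← hl] using this.symm
      · simpa [hi0, ← hl, show i ≠ l from hi] using this.symm
    · intro k _ hk
      have : Equiv.swap (0 : Fin (m + 2)) l i' ≠ k := by
        rw [hi', Equiv.swap_apply_self]; exact Ne.symm hk
      rw [hw]; simp [← hl, this]
    · simp
    · intro k _ hk; rw [hcolw, if_neg hk, mul_zero]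
    · simp
  refine ⟨(R m σ).map π, ?_, (R_pgroup r).map _, fun W hW hinv => ?_, fun α hα hfix => ?_⟩
  · intro h
    have ht1 : π t ∈ (R m σ).map π := ⟨t, ht, rfl⟩
    rw [h, Subgroup.mem_bot] at ht1
    have := congrFun (congrFun et 0) l
    rw [hRc t ht ht1] at this
    simp [← hl, Ne.symm hl0] at this
    exact hs0 this.symm
  · rw [Subgroup.eq_bot_iff_forall]
    intro a ha
    obtain ⟨g, rfl⟩ := QuotientGroup.mk'_surjective _ a
    set S : Finset F := Finset.univ.filter fun x => x + σ x = 0 with hS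
    have hSiff : ∀ x, x ∈ S ↔ x + σ x = 0 := fun x => by simp [hS]
    choose! T hTR hT using fun x (hx : x ∈ S) => exists_transvection (m := m) hσ ((hSiff x).1 hx)
    have hb : 3 < S.card ∨ (p = 2 ∧ (∃ s ∈ S, s ≠ 0) ∧
        ∀ M : Matrix (Fin (m + 2)) (Fin (m + 2)) F, ∃ v, v ≠ 0 ∧
          Matrix.single (0 : Fin (m + 2)) l (1 : F) *ᵥ v = 0 ∧
            Matrix.single (0 : Fin (m + 2)) l (1 : F) *ᵥ (M *ᵥ v) = 0) := by
      rcases hbig with h | h
      · refine Or.inl (h.trans_le ?_)
        rw [← Nat.card_eq_finsetCard]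
        refine Nat.card_le_card_of_injective (fun x => ⟨x.1 * s, (hSiff _).2 ?_⟩) fun x y e => ?_
        · rw [map_mul, x.2, ← mul_add, hs, mul_zero]
        · exact Subtype.ext (mul_right_cancel₀ hs0 (congrArg Subtype.val e))
      refine Or.inr ⟨h, ⟨s, (hSiff s).2 hs, hs0⟩, fun M => ?_⟩
      let φ : (Fin (m + 2) → F) →ₗ[F] (Fin 2 → F) := LinearMap.pi
        ![LinearMap.proj l, (LinearMap.proj l).comp (Matrix.mulVecLin M)]
      obtain ⟨v, hv, hv0⟩ := Submodule.exists_mem_ne_zero_of_ne_bot
        (LinearMap.ker_ne_bot_of_finrank_lt (f := φ) (by simp; omega))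
      have hv1 : v l = 0 := by simpa [φ] using congrFun (LinearMap.mem_ker.1 hv) 0
      have hv2 : (M *ᵥ v) l = 0 := by simpa [φ] using congrFun (LinearMap.mem_ker.1 hv) 1
      exact ⟨v, hv0, by simp [Matrix.single_mulVec_eq, hv1],
        by rw [Matrix.single_mulVec_eq, hv2]; simp⟩
    have hcom := commute_of_invariant (ι m σ) (fun z hz => center_scalar hσ h2 hne hm hz) h2 hp
      (N := Matrix.single 0 l (1 : F)) (Matrix.single_mul_single_of_ne _ _ _ _ hl0 _) S
      ((hSiff 0).2 (by simp)) T hT hb hW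
      (fun x hx w' hw' => hinv _ ⟨T x, hTR x hx, rfl⟩ w' hw') ha
    have hgP : g ∈ P m σ := fun i hi => (Linear.entries_of_commute hcom).1 i hi
    have hdis : ∀ x ∈ W, x ∈ (R m σ).map π → x = 1 := fun x hx hxR => by
      obtain ⟨k, hk⟩ := ((R_pgroup (m := m) (σ := σ) r).map π) ⟨x, hxR⟩
      have h1 : orderOf x ∣ r ^ k :=
        orderOf_dvd_of_pow_eq_one (by simpa using congrArg Subtype.val hk)
      exact orderOf_eq_one_iff.1 (Nat.eq_one_of_dvd_coprimes
        (((Nat.coprime_primes Fact.out Fact.out).2 hpr).pow_right k)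
        (orderOf_dvd_of_pow_eq_one (hW.2 x hx)) h1)
    refine hdis _ ha (hC (Subgroup.mem_centralizer_iff.2 fun q hq => ?_))
    have h1 := hdis _ (W.mul_mem ha (hinv q hq _ (W.inv_mem ha))) (by
      have := hnP _ ⟨g, hgP, rfl⟩ q hq
      rw [show π g * (q * (π g)⁻¹ * q⁻¹) = π g * q * (π g)⁻¹ * q⁻¹ by group]
      exact ((R m σ).map π).mul_mem this (((R m σ).map π).inv_mem hq))
    calc q * π g = (π g * (q * (π g)⁻¹ * q⁻¹))⁻¹ * (π g * q) := by group
      _ = π g * q := by rw [h1, inv_one, one_mul]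
  · refine eq_one_of_opposite (P := (P m σ).map π) hpr ((R_pgroup r).map _) hC hnP (π w)
      ?_ ?_ ?_ ?_ ?_ ?_ hα hfix
    · intro a ha
      obtain ⟨g, rfl⟩ := QuotientGroup.mk'_surjective _ a
      have hgl : ι m σ g l 0 ≠ 0 := by
        intro h
        by_cases hgP : g ∈ P m σ
        · have hmem : π t ∈ cj (π g) ((R m σ).map π) ⊓ (R m σ).map π := by
            refine ⟨mem_cj.2 ⟨g⁻¹ * t * g, ?_, by simp⟩, ⟨t, ht, rfl⟩⟩
            simpa using conj_mem_R ((P m σ).inv_mem hgP) ht
          rw [ha, Subgroup.mem_bot] at hmem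
          have := congrFun (congrFun et 0) l
          rw [hRc t ht hmem] at this
          simp [← hl, Ne.symm hl0] at this
          exact hs0 this.symm
        · obtain ⟨u, hu, hu1, huc⟩ := exists_common hσ h2 h hgP
          have hmem : π u ∈ cj (π g) ((R m σ).map π) ⊓ (R m σ).map π :=
            ⟨mem_cj.2 ⟨g⁻¹ * u * g, huc, by simp⟩, ⟨u, hu, rfl⟩⟩
          rw [ha, Subgroup.mem_bot] at hmem
          exact hu1 (hRc u hu hmem)
      obtain ⟨u, hu, b, hb, rfl⟩ := exists_decomp hσ hs0 hw hgl
      exact ⟨_, ⟨u, hu, rfl⟩, _, ⟨b, hb, rfl⟩, by simp [hπ]⟩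
    · rw [Subgroup.eq_bot_iff_forall]
      rintro _ ⟨hx, u, hu, rfl⟩
      have h' : π (w⁻¹ * u * w) ∈ (P m σ).map π := by
        have := Subgroup.map_mono (f := π) R_le_P (mem_cj.1 hx)
        simpa using this
      rw [hD2 u hu (hmapP _ h'), map_one]
    · rintro _ ⟨u, hu, rfl⟩ h'
      rw [hD2 u hu (hmapP _ (by simpa using h')), map_one]
    · rintro _ ⟨u, hu, rfl⟩ h'
      rw [hD2' u hu (hmapP _ (by simpa using h')), map_one]
    · have hgl : ι m σ (w * t * w⁻¹) l 0 ≠ 0 := by
        intro h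
        have e : w * t * w⁻¹ * w = w * t := by group
        have := congrFun (congrFun (congrArg (ι m σ) e) l) l
        rw [map_mul _ (w * t * w⁻¹) w, map_mul _ w t, Matrix.mul_apply, Matrix.mul_apply,
          Finset.sum_eq_single 0, Finset.sum_eq_single 0, h, zero_mul, et, hw] at this
        · simp [← hl, hl0, Ne.symm hl0, hs0, Equiv.swap_apply_right] at this
        · intro k _ hk
          rw [hw]
          simp [← hl, Equiv.swap_apply_right, Ne.symm hk]
        · simp
        · intro k _ hk; rw [hcolw, if_neg hk, mul_zero]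
        · simp
      obtain ⟨u, hu, b, hb, e⟩ := exists_decomp hσ hs0 hw hgl
      exact ⟨_, ⟨t, ht, rfl⟩, _, ⟨u, hu, rfl⟩, _, ⟨b, hb, rfl⟩,
        by simpa using congrArg π e⟩
    · rw [eq_top_iff]
      set H := Subgroup.closure ((((P m σ).map π : Subgroup (PSUG m σ)) : Set (PSUG m σ)) ∪ {π w})
      have hwH : π w ∈ H := Subgroup.subset_closure (Or.inr rfl)
      have hPH : ∀ b ∈ P m σ, π b ∈ H := fun b hb => Subgroup.subset_closure (Or.inl ⟨b, hb, rfl⟩)
      have hopp : ∀ g : SUG m σ, ι m σ g l 0 ≠ 0 → π g ∈ H := fun g hg => by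
        obtain ⟨u, hu, b, hb, rfl⟩ := exists_decomp hσ hs0 hw hg
        rw [map_mul, map_mul]
        exact H.mul_mem (H.mul_mem (hPH u (R_le_P hu)) hwH) (hPH b hb)
      intro a _
      obtain ⟨g, rfl⟩ := QuotientGroup.mk'_surjective _ a
      by_cases hgl : ι m σ g l 0 ≠ 0
      · exact hopp g hgl
      by_cases hgP : g ∈ P m σ
      · exact hPH g hgP
      push Not at hgl
      obtain ⟨k, hk0, hk⟩ : ∃ k, k ≠ 0 ∧ ι m σ g k 0 ≠ 0 := by
        by_contra h
        push Not at h
        exact hgP h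
      have hkl : k ≠ l := fun h => hk (by rw [h]; exact hgl)
      set c : F := if ι m σ g 0 0 = 0 then 1 else 0 with hc
      have hrl : k.rev ≠ l := fun e => hk0 (by rw [← Fin.rev_rev k, e, Fin.rev_last])
      obtain ⟨a', u, hu, eu⟩ := exists_root' (m := m) hσ h2 (Pi.single k.rev c)
        (by simp [Ne.symm (rev_ne_zero hkl)]) (by simp [← hl, Ne.symm hrl])
      have hug : ι m σ (u * g) 0 0 ≠ 0 := by
        rw [map_mul, Matrix.mul_apply, eu, ← Finset.add_sum_erase _ _ (Finset.mem_univ 0),
          Finset.sum_eq_single k]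
        · simp [dmat, ← hl, Ne.symm hl0, Ne.symm hk0, hkl, rev_zero, Ne.symm hrl]
          by_cases h : ι m σ g 0 0 = 0
          · simp [hc, h, hk]
          · simp [hc, h]
        · intro j hj hjk
          have hj0 : j ≠ 0 := (Finset.mem_erase.1 hj).1
          by_cases hjl : j = l
          · subst hjl; rw [hgl, mul_zero]
          · have : j.rev ≠ k.rev := fun e => hjk (Fin.rev_injective e)
            simp [dmat, ← hl, hjl, Ne.symm hj0, this]
        · simp [hk0]
      have hmem : π (w⁻¹ * (u * g)) ∈ H := by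
        refine hopp _ ?_
        rw [map_mul, Matrix.mul_apply, Finset.sum_eq_single 0, ι_inv, show l.rev = 0 from
          Fin.rev_last _, rev_zero, ← hl, hcolw0, if_pos rfl]
        · exact mul_ne_zero (fun e => hs0 (σ.injective (by rw [e, map_zero]))) hug
        · intro j _ hj
          rw [ι_inv, show l.rev = 0 from Fin.rev_last _, hcolw0, if_neg, map_zero, zero_mul]
          exact fun e => hj (by rw [← Fin.rev_rev j, e, Fin.rev_last])
        · simp
      have : π g = (π u)⁻¹ * π w * π (w⁻¹ * (u * g)) := by simp [mul_assoc]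
      rw [this]
      exact H.mul_mem (H.mul_mem (H.inv_mem (hPH u (R_le_P hu))) hwH) hmem

include hσ hne hm in
/-- Projective special unitary groups are not commutative. -/
theorem noncomm {r : ℕ} [Fact r.Prime] [CharP F r] (hr : r ≠ 2) :
    ∃ a b : PSUG m σ, a * b ≠ b * a := by
  by_contra hno
  push Not at hno
  have h2 : (2 : F) ≠ 0 := Ring.two_ne_zero (by rw [ringChar.eq F r]; exact hr)
  obtain ⟨s, w, hs0, -, hw⟩ := exists_swap (m := m) hσ hne
  obtain ⟨c, z, u, hu, hz, rfl⟩ := scalar_of_commute hσ h2 hne hm (g := w) fun q hq =>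
    commute_of_map hσ h2 hne hm r hq (hno _ _)
  have hl0 : Fin.last (m + 1) ≠ (0 : Fin (m + 2)) := Fin.last_pos.ne'
  have := congrFun (congrFun hw (Fin.last (m + 1))) 0
  rw [map_mul, hz, scalar_apply, Matrix.diagonal_mul, R_le_P hu _ hl0] at this
  simp [Equiv.swap_apply_right] at this
  exact hs0 this.symm

end main

end Unitary

end Vale.Agent.P240
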