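import Vale.Agent.P240.Robinson.Components
import Vale.Agent.P240.Robinson.Orthogonal
import Vale.Agent.P240.Robinson.Symplectic
import Vale.Agent.P240.Robinson.Unitary

/-!
# Classical simple groups in one odd characteristic
-/

noncomputable section

namespace Vale.Agent.P240

variable {p r : ℕ} [Fact p.Prime] [Fact r.Prime] {A : Type} [Group A]

theorem robinson_of_classical (hr : r ≠ 2) (hpr : p ≠ r)
    (h : IsLinearComponent p r A ∨ IsSymplecticComponent p r A ∨ IsUnitaryComponent p r A ∨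
      IsOrthogonalComponent p r A) :
    (∃ a b : A, a * b ≠ b * a) ∧ HasRobinson p r A := by
  have push : ∀ {B : Type} [Group B], (A ≃* B) →
      (∃ a b : B, a * b ≠ b * a) → ∃ a b : A, a * b ≠ b * a := by
    intro B _ φ ⟨a, b, hab⟩
    exact ⟨φ.symm a, φ.symm b, fun h => hab (by simpa using congrArg φ h)⟩
  rcases h with ⟨F, _, _, m, hc, hbig, ⟨φ⟩⟩ | ⟨F, _, _, m, hc, hbig, ⟨φ⟩⟩ |
    ⟨F, _, _, m, σ, hc, hm, hσ, hne, hbig, ⟨φ⟩⟩ |
    ⟨F, _, _, n, M, hc, hsym, hdet, ⟨a, ha, ha0⟩, hbig, ⟨φ⟩⟩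
  · exact ⟨push φ (Linear.noncomm (r := r)),
      (Linear.hasRobinson_psl hpr hr hbig).of_equiv φ.symm⟩
  · exact ⟨push φ (Symplectic.noncomm (r := r) hr),
      (Symplectic.hasRobinson_psp hpr hr hbig).of_equiv φ.symm⟩
  · exact ⟨push φ (Unitary.noncomm hσ hne hm (r := r) hr),
      (Unitary.hasRobinson_psu hσ hne hm hpr hr hbig).of_equiv φ.symm⟩
  · have : Fact M.IsSymm := ⟨hsym⟩
    have : Fact (M.det ≠ 0) := ⟨hdet⟩
    have : NeZero (2 : F) := ⟨Ring.two_ne_zero (by rwa [ringChar.eq F r])⟩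
    have hbig' : 3 < Nat.card F ∨ p = 2 ∧ 3 ≤ Fintype.card (Fin n) := by simpa using hbig
    exact ⟨push φ (Orthogonal.noncomm (M := M) ha ha0 (r := r)),
      (Orthogonal.hasRobinson_pomega (M := M) ha ha0 (r := r) hpr hbig').of_equiv φ.symm⟩

end Vale.Agent.P240
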