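import Mathlib

/-!
# Quadratic unipotent elements normalising elementary abelian projective groups

Let `a = 1 + N` with `N * N = 0`. If `w` has scalar `p`-th power and commutes with `a w a⁻¹`,
then it commutes with `a`. Among more than three conjugates of `w` by `1 + x N` two must
commute as soon as any two commute up to a scalar.
-/

open scoped Classical

noncomputable section

namespace Vale.Agent.P240.Quad

variable {F : Type*} [Field F] {R : Type*} [Ring R] [Algebra F R]

/-- The conjugate of `w` by `1 + x N`. -/
def M (N w : R) (x : F) : R := (1 + x • N) * w * (1 - x • N)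

theorem M_zero (N w : R) : M N w (0 : F) = w := by simp [M]

theorem one_add_mul {N : R} (hN : N * N = 0) (x y : F) :
    (1 + x • N) * (1 + y • N) = 1 + (x + y) • N := by
  simp only [add_mul, mul_add, one_mul, mul_one, smul_mul_smul_comm, hN, smul_zero, add_smul]
  abel

theorem one_add_mul_sub {N : R} (hN : N * N = 0) (x : F) :
    (1 + x • N) * (1 - x • N) = 1 := by
  rw [sub_eq_add_neg, ← neg_smul, one_add_mul hN, add_neg_cancel, zero_smul, add_zero]

theorem one_sub_mul_add {N : R} (hN : N * N = 0) (x : F) :
    (1 - x • N) * (1 + x • N) = 1 := by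
  rw [sub_eq_add_neg, ← neg_smul, one_add_mul hN, neg_add_cancel, zero_smul, add_zero]

theorem M_add {N : R} (hN : N * N = 0) (w : R) (x y : F) :
    (1 + x • N) * M N w y * (1 - x • N) = M N w (x + y) := by
  rw [M, M, ← mul_assoc, ← mul_assoc, one_add_mul hN, mul_assoc _ (1 - y • N)]
  rw [sub_eq_add_neg, ← neg_smul, sub_eq_add_neg, ← neg_smul, one_add_mul hN,
    sub_eq_add_neg, ← neg_smul, neg_add, add_comm (-y)]

/-- The coefficients of the quadratic orbit. -/
theorem M_eq (N w : R) (x : F) :
    M N w x = w + x • (N * w - w * N) + (x * x) • (-(N * w * N)) := by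
  simp only [M, add_mul, mul_sub, one_mul, mul_one, smul_mul_assoc, mul_smul_comm, smul_add,
    smul_sub, smul_neg, smul_smul]
  abel

/-- A nilpotent element plus one of order dividing an invertible `p` is one. -/
theorem eq_zero_of_pow_eq_one {y : R} (hy : IsNilpotent y) {p : ℕ} (hp : (p : F) ≠ 0)
    (h : (1 + y) ^ p = 1) : y = 0 := by
  have hu : IsUnit (∑ i ∈ Finset.range p, (1 + y) ^ i) := by
    have e : ∃ z : R, Commute y z ∧
        ∑ i ∈ Finset.range p, (1 + y) ^ i = algebraMap F R (p : F) + y * z := by
      refine ⟨∑ i ∈ Finset.range p, ∑ j ∈ Finset.range i, (1 + y) ^ j, ?_, ?_⟩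
      · exact Commute.sum_right _ _ _ fun i _ => Commute.sum_right _ _ _ fun j _ =>
          ((Commute.one_right y).add_right (Commute.refl y)).pow_right j
      · rw [Finset.mul_sum, map_natCast]
        have : ∀ i ∈ Finset.range p,
            y * ∑ j ∈ Finset.range i, (1 + y) ^ j = (1 + y) ^ i - 1 := fun i _ => by
          rw [← mul_geom_sum, add_sub_cancel_left]
        rw [Finset.sum_congr rfl this, Finset.sum_sub_distrib]
        simp
    obtain ⟨z, hz, e⟩ := e
    rw [e]
    exact IsNilpotent.isUnit_add_left_of_commute (hz.isNilpotent_mul_right hy)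
      ((isUnit_iff_ne_zero.2 hp).map (algebraMap F R)) (Algebra.commutes _ _).symm
  have : y * ∑ i ∈ Finset.range p, (1 + y) ^ i = 0 := by
    have := mul_geom_sum (1 + y) p
    rw [add_sub_cancel_left, h, sub_self] at this
    exact this
  exact hu.mul_left_eq_zero.1 this

variable {N : R} (hN : N * N = 0) (w : Rˣ)

include hN in
/-- If `w` commutes with its conjugate by `1 + N` and has central `p`-th power then it commutes
with `N`. -/
theorem commute_of_quadratic (h2 : (2 : F) ≠ 0) {p : ℕ} (hp : (p : F) ≠ 0)
    (hw : Commute N ((w : R) ^ p)) (hc : Commute (w : R) (M N (w : R) (1 : F))) :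
    Commute N (w : R) := by
  set v : R := (w : R) with hv
  set A := N * v - v * N with hA
  set B := -(N * v * N) with hB
  have e1 : M N v (1 : F) = v + A + B := by rw [M_eq]; simp [hA, hB]
  have e2 : M N v (-1 : F) = v - A + B := by rw [M_eq]; simp [hA, hB, sub_eq_add_neg]; abel
  have hconj : ∀ {a b : R}, Commute a b → ∀ x : F,
      Commute ((1 + x • N) * a * (1 - x • N)) ((1 + x • N) * b * (1 - x • N)) := by
    intro a b h x
    have e : ∀ c d : R, (1 + x • N) * c * (1 - x • N) * ((1 + x • N) * d * (1 - x • N)) =
        (1 + x • N) * (c * d) * (1 - x • N) := fun c d => by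
      have := one_sub_mul_add hN x
      calc _ = (1 + x • N) * c * ((1 - x • N) * (1 + x • N)) * d * (1 - x • N) := by noncomm_ring
        _ = _ := by rw [this]; noncomm_ring
    show _ = _
    rw [e, e, h.eq]
  have hc' : Commute (M N v (-1 : F)) v := by
    have := hconj hc (-1 : F)
    rwa [M_add hN, neg_add_cancel, M_zero, ← M] at this
  have hBw : Commute v B := by
    have h := hc.add_right hc'.symm
    rw [e1, e2] at h
    have h' : Commute v ((2 : F) • B) := by
      have := h.sub_right ((Commute.refl v).smul_right (2 : F))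
      rw [show v + A + B + (v - A + B) - (2 : F) • v = (2 : F) • B by
        rw [two_smul, two_smul]; abel] at this
      exact this
    have := h'.smul_right (2 : F)⁻¹
    rwa [smul_smul, inv_mul_cancel₀ h2, one_smul] at this
  have hAB : Commute v (A + B) := by
    have := hc.sub_right (Commute.refl v)
    rwa [e1, add_assoc, add_sub_cancel_left] at this
  have hnn : ∀ x : R, N * (N * x) = 0 := fun x => by rw [← mul_assoc, hN, zero_mul]
  have hswap : v * (N * v * N) = N * v * N * v := by
    have := hBw.eq
    rw [hB, mul_neg, neg_mul, neg_inj] at this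
    exact this
  have hN3 : N * v * N * v * N = 0 := by
    rw [← hswap]
    simp only [mul_assoc, hN, mul_zero]
  have hN3' : N * (v * (N * v * N)) = 0 := by rw [hswap]; simp only [mul_assoc, hnn]
  have h1 : A * B = 0 := by
    rw [hA, hB, sub_mul, mul_neg, mul_neg, show N * v * (N * v * N) = N * (v * (N * v * N)) by
      noncomm_ring, hN3', show v * N * (N * v * N) = v * (N * (N * (v * N))) by noncomm_ring,
      hnn, mul_zero, neg_zero, sub_self]
  have h2' : B * A = 0 := by
    rw [hA, hB, mul_sub, neg_mul, neg_mul, show N * v * N * (N * v) = N * v * (N * (N * v)) by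
      noncomm_ring, hnn, mul_zero, ← mul_assoc, hN3, neg_zero, sub_self]
  have h3 : B * B = 0 := by
    rw [hB, neg_mul_neg, show N * v * N * (N * v * N) = N * v * (N * (N * (v * N))) by
      noncomm_ring, hnn, mul_zero]
  have hA2 : A * A = 2 • (N * v * N * v) - N * (v * v) * N := by
    rw [hA]
    calc (N * v - v * N) * (N * v - v * N)
        = N * v * N * v - N * (v * v) * N - v * (N * (N * v)) + v * (N * v * N) := by noncomm_ring
      _ = _ := by rw [hnn, mul_zero, sub_zero, hswap, two_smul]; abel
  have hA4 : A * A * (A * A) = 0 := by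
    have a1 : N * v * N * v * (N * v * N * v) = 0 := by
      rw [show N * v * N * v * (N * v * N * v) = (N * v * N * v * N) * (v * N * v) by noncomm_ring,
        hN3, zero_mul]
    have a2 : N * v * N * v * (N * (v * v) * N) = 0 := by
      rw [show N * v * N * v * (N * (v * v) * N) = (N * v * N * v * N) * (v * v * N) by
        noncomm_ring, hN3, zero_mul]
    have a3 : N * (v * v) * N * (N * v * N * v) = 0 := by
      rw [show N * (v * v) * N * (N * v * N * v) = N * (v * v) * (N * (N * (v * N * v))) by
        noncomm_ring, hnn, mul_zero]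
    have a4 : N * (v * v) * N * (N * (v * v) * N) = 0 := by
      rw [show N * (v * v) * N * (N * (v * v) * N) = N * (v * v) * (N * (N * (v * v * N))) by
        noncomm_ring, hnn, mul_zero]
    rw [hA2]
    simp only [two_smul, sub_mul, mul_sub, add_mul, mul_add, a1, a2, a3, a4, add_zero, sub_zero]
  have hx2 : (A + B) ^ 2 = A * A := by
    rw [pow_two, add_mul, mul_add, mul_add, h1, h2', h3, add_zero, add_zero, add_zero]
  set y := (↑w⁻¹ : R) * (A + B) with hy
  have hyc : Commute (↑w⁻¹ : R) (A + B) := hAB.units_inv_left
  have hnil : IsNilpotent y := by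
    refine hyc.isNilpotent_mul_left ⟨4, ?_⟩
    rw [show (4 : ℕ) = 2 * 2 from rfl, pow_mul, hx2, pow_two, hA4]
  have hM : M N v (1 : F) = v * (1 + y) := by
    rw [e1, hy, mul_add, mul_one, ← mul_assoc, hv, Units.mul_inv, one_mul, add_assoc]
  have hvy : Commute v y := (Commute.units_inv_right (Commute.refl v)).mul_right hAB
  have hpow : (M N v (1 : F)) ^ p = v ^ p := by
    have : ∀ n, (M N v (1 : F)) ^ n = M N (v ^ n) (1 : F) := by
      intro n
      induction n with
      | zero => simp only [pow_zero, M, mul_one, one_add_mul_sub hN]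
      | succ n ih =>
        rw [pow_succ, ih, pow_succ, M, M, M]
        have := one_sub_mul_add hN (1 : F)
        calc _ = (1 + (1 : F) • N) * v ^ n * ((1 - (1 : F) • N) * (1 + (1 : F) • N)) * v *
              (1 - (1 : F) • N) := by noncomm_ring
          _ = _ := by rw [this]; noncomm_ring
    rw [this, M]
    have hcw : Commute (1 + (1 : F) • N) (v ^ p) :=
      (Commute.one_left _).add_left (hw.smul_left (1 : F))
    rw [hcw.eq, mul_assoc, one_add_mul_sub hN, mul_one]
  have hy1 : (1 + y) ^ p = 1 := by
    rw [hM, ((Commute.one_right v).add_right hvy).mul_pow] at hpow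
    have hu : IsUnit (v ^ p) := (Units.isUnit w).pow p
    exact hu.mul_left_cancel (hpow.trans (mul_one _).symm)
  have hy0 := eq_zero_of_pow_eq_one hnil hp hy1
  rw [hy0, add_zero, mul_one, M, one_smul] at hM
  have hN1 : (1 + N) * v = v * (1 + N) := by
    have := one_sub_mul_add hN (1 : F)
    rw [one_smul] at this
    conv_rhs => rw [← hM]
    rw [mul_assoc ((1 + N) * v), this, mul_one]
  rw [add_mul, mul_add, one_mul, mul_one] at hN1
  exact add_left_cancel hN1

include hN in
/-- Among more than three conjugates commuting pairwise up to scalars two commute. -/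
theorem exists_commute_conj (S : Finset F) (hS : 3 < S.card)
    (hlam : ∀ x ∈ S, ∀ y ∈ S, ∃ l : F,
      M N (w : R) x * M N (w : R) y = l • (M N (w : R) y * M N (w : R) x)) :
    ∃ x ∈ S, ∃ y ∈ S, x ≠ y ∧ Commute (M N (w : R) x) (M N (w : R) y) := by
  by_contra hno
  push Not at hno
  set v : R := (w : R)
  have hunit : ∀ x : F, IsUnit (M N v x) := fun x => by
    refine (IsUnit.mul ?_ w.isUnit).mul ?_
    · exact ⟨⟨_, _, one_add_mul_sub hN x, one_sub_mul_add hN x⟩, rfl⟩
    · exact ⟨⟨_, _, one_sub_mul_add hN x, one_add_mul_sub hN x⟩, rfl⟩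
  by_cases hnt : Subsingleton R
  · obtain ⟨x, hx, y, hy, hne⟩ := Finset.one_lt_card.1 (by omega : 1 < S.card)
    exact hno x hx y hy hne (Subsingleton.elim _ _)
  have hind : ∀ (s : Finset F), s ⊆ S → ∀ c : F → F,
      ∑ x ∈ s, c x • M N v x = 0 → ∀ x ∈ s, c x = 0 := by
    intro s
    induction s using Finset.induction_on with
    | empty => intro _ _ _ x hx; simp at hx
    | insert a t hat ih =>
      intro hs c hsum
      have haS : a ∈ S := hs (Finset.mem_insert_self a t)
      have htS : t ⊆ S := (Finset.subset_insert a t).trans hs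
      choose! l hl using fun x (hx : x ∈ S) => hlam a haS x hx
      -- conjugation by the element at `a` fixes itself only
      have h1 : ∑ x ∈ t, (c x * (l x - 1)) • M N v x = 0 := by
        have e1 : M N v a * ∑ x ∈ insert a t, c x • M N v x =
            (c a • M N v a + ∑ x ∈ t, (c x * l x) • M N v x) * M N v a := by
          rw [Finset.sum_insert hat, mul_add, add_mul, Finset.mul_sum, Finset.sum_mul]
          congr 1
          · simp [mul_smul_comm, smul_mul_assoc]
          · refine Finset.sum_congr rfl fun x hx => ?_
            rw [mul_smul_comm, hl x (htS hx), smul_smul, smul_mul_assoc]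
        rw [hsum, mul_zero] at e1
        have e2 := (hunit a).mul_left_eq_zero.1 e1.symm
        rw [Finset.sum_insert hat] at hsum
        have e3 := sub_eq_zero.2 (e2.trans hsum.symm)
        rw [add_sub_add_left_eq_sub, ← Finset.sum_sub_distrib] at e3
        rw [← e3]
        exact Finset.sum_congr rfl fun x _ => by rw [← sub_smul, mul_sub, mul_one]
      have ht : ∀ x ∈ t, c x = 0 := by
        intro x hx
        refine (mul_eq_zero.1 (ih htS _ h1 x hx)).resolve_right fun h => ?_
        have hl1 := hl x (htS hx)
        rw [sub_eq_zero.1 h, one_smul] at hl1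
        exact hno a haS x (htS hx) (fun e => hat (e ▸ hx)) hl1
      intro x hx
      rcases Finset.mem_insert.1 hx with rfl | hx
      · rw [Finset.sum_insert hat, Finset.sum_eq_zero (fun y hy => by rw [ht y hy, zero_smul]),
          add_zero] at hsum
        by_contra hne
        have h0 : M N v x = 0 := by
          rw [← one_smul F (M N v x), ← inv_mul_cancel₀ hne, ← smul_smul, hsum, smul_zero]
        have := hunit x
        rw [h0, isUnit_zero_iff] at this
        exact hnt (subsingleton_of_zero_eq_one this)
      · exact ht x hx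
  have hli : LinearIndependent F fun x : S => M N v (x : F) := by
    rw [Fintype.linearIndependent_iff]
    intro g hg i
    let c : F → F := fun x => if h : x ∈ S then g ⟨x, h⟩ else 0
    have : ∑ x ∈ S, c x • M N v x = 0 := by
      rw [← Finset.sum_coe_sort]
      simpa [c] using hg
    simpa [c] using hind S subset_rfl c this i i.2
  let L : (Fin 3 → F) →ₗ[F] R := Fintype.linearCombination F ![v, N * v - v * N, -(N * v * N)]
  have hmem : ∀ x : S, M N v (x : F) = L ![1, (x : F), (x : F) * x] := fun x => by
    simp [L, Fintype.linearCombination_apply, Fin.sum_univ_three, M_eq]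
  have hli' : LinearIndependent F fun x : S => (![1, (x : F), (x : F) * x] : Fin 3 → F) :=
    LinearIndependent.of_comp L (by simpa only [Function.comp_def, ← hmem] using hli)
  have := hli'.fintype_card_le_finrank
  simp at this
  omega

end Vale.Agent.P240.Quad
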