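import Vale.Agent.P240.Robinson.Link
import Vale.Agent.P240.Robinson.Quadratic

/-!
# Projective special linear groups in characteristic `r` have Robinson `r`-subgroups
-/

set_option linter.unusedSectionVars false

open scoped Classical
open Matrix Matrix.SpecialLinearGroup

noncomputable section

namespace Vale.Agent.P240

/-- An automorphism of order prime to `r` fixing a self-centralising `r`-subgroup pointwise
fixes its normaliser pointwise. -/
theorem fixed_normalizer {A : Type*} [Group A] [Finite A] {p r : ℕ} [Fact p.Prime] [Fact r.Prime]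
    (hpr : p ≠ r) {R : Subgroup A} (hR : IsPGroup r R)
    (hC : Subgroup.centralizer (R : Set A) ≤ R) {α : MulAut A} (hα : α ^ p = 1)
    (hfix : ∀ q ∈ R, α q = q) {g : A} (hg : ∀ q ∈ R, g * q * g⁻¹ ∈ R) : α g = g := by
  set c := g⁻¹ * α g with hc
  have hcR : c ∈ R := by
    refine hC (Subgroup.mem_centralizer_iff.2 fun q hq => ?_)
    have h := hfix _ (hg q hq)
    rw [map_mul, map_mul, map_inv, hfix q hq] at h
    calc q * c = g⁻¹ * (g * q * g⁻¹) * α g := by rw [hc]; group
      _ = g⁻¹ * (α g * q * (α g)⁻¹) * α g := by rw [h]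
      _ = c * q := by rw [hc]; group
  have hag : α g = g * c := by rw [hc]; group
  have hpow : ∀ n : ℕ, (α ^ n) g = g * c ^ n := by
    intro n
    induction n with
    | zero => simp
    | succ n ih =>
      rw [pow_succ', MulAut.mul_apply, ih, map_mul, hag, map_pow, hfix c hcR, pow_succ', mul_assoc]
  have h1 : c ^ p = 1 := by
    have := hpow p
    rw [hα, MulAut.one_apply] at this
    exact left_eq_mul.1 this
  obtain ⟨k, hk⟩ := hR ⟨c, hcR⟩
  have h2 : orderOf c ∣ r ^ k :=
    orderOf_dvd_of_pow_eq_one (by simpa using congrArg Subtype.val hk)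
  have h3 : orderOf c ∣ p := orderOf_dvd_of_pow_eq_one h1
  have h4 : orderOf c = 1 := Nat.eq_one_of_dvd_coprimes
    (((Nat.coprime_primes Fact.out Fact.out).2 hpr).pow_right k) h3 h2
  rw [hag, orderOf_eq_one_iff.1 h4, mul_one]

namespace Linear

variable {m : ℕ} {F : Type*} [Field F] [Finite F]

/-- The special linear group of degree `m + 2`. -/
abbrev SLG (m : ℕ) (F : Type*) [Field F] := Matrix.SpecialLinearGroup (Fin (m + 2)) F

/-- The projective special linear group of degree `m + 2`. -/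
abbrev PSLG (m : ℕ) (F : Type*) [Field F] :=
  Matrix.ProjectiveSpecialLinearGroup (Fin (m + 2)) F

/-- The quotient map. -/
abbrev qm (m : ℕ) (F : Type*) [Field F] : SLG m F →* PSLG m F :=
  QuotientGroup.mk' (Subgroup.center (SLG m F))


instance : Finite (SLG m F) :=
  Finite.of_injective (fun g : (SLG m F) => (g : Matrix (Fin (m + 2)) (Fin (m + 2)) F)) Subtype.val_injective

/-- A subgroup from a subset of a finite group closed under multiplication. -/
def ofMulClosed {G : Type*} [Group G] [Finite G] (S : Set G) (h1 : 1 ∈ S)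
    (hmul : ∀ a ∈ S, ∀ b ∈ S, a * b ∈ S) : Subgroup G where
  carrier := S
  one_mem' := h1
  mul_mem' := fun {a b} ha hb => hmul a ha b hb
  inv_mem' := fun {a} ha => by
    have hpow : ∀ k : ℕ, a ^ k ∈ S := by
      intro k
      induction k with
      | zero => simpa using h1
      | succ k ih => rw [pow_succ]; exact hmul _ ih _ ha
    have e : a⁻¹ = a ^ (orderOf a - 1) := by
      refine inv_eq_of_mul_eq_one_left ?_
      rw [← pow_succ, Nat.sub_add_cancel (orderOf_pos a), pow_orderOf_eq_one]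
    rw [e]
    exact hpow _

/-- The upper unitriangular matrices. -/
def Q : Subgroup (SLG m F) :=
  ofMulClosed {g | (g : Matrix (Fin (m + 2)) (Fin (m + 2)) F).IsUpperTriangular ∧ ∀ i, g i i = 1}
    ⟨by simpa using blockTriangular_one, by simp⟩
    fun a ha b hb => ⟨by rw [coe_mul]; exact ha.1.mul hb.1, fun i => by
      rw [coe_mul, Matrix.mul_apply, Finset.sum_eq_single i, ha.2, hb.2, one_mul]
      · intro j _ hj
        rcases lt_or_gt_of_ne hj with h | h
        · rw [ha.1 h, zero_mul]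
        · rw [hb.1 h, mul_zero]
      · simp⟩

/-- The matrices equal to the identity outside the first row. -/
def R0 : Subgroup (SLG m F) :=
  ofMulClosed {g | ∀ i, i ≠ 0 → ∀ j, g i j = (1 : Matrix (Fin (m + 2)) (Fin (m + 2)) F) i j}
    (fun i _ j => rfl) fun a ha b hb i hi j => by
      rw [coe_mul, Matrix.mul_apply, Finset.sum_congr rfl fun k _ => by rw [ha i hi k]]
      rw [← Matrix.mul_apply, one_mul, hb i hi j]

/-- The matrices equal to the identity outside the last column. -/
def Rl : Subgroup (SLG m F) :=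
  ofMulClosed {g | ∀ j, j ≠ Fin.last (m + 1) → ∀ i, g i j = (1 : Matrix (Fin (m + 2)) (Fin (m + 2)) F) i j}
    (fun j _ i => rfl) fun a ha b hb j hj i => by
      rw [coe_mul, Matrix.mul_apply, Finset.sum_congr rfl fun k _ => by rw [hb j hj k]]
      rw [← Matrix.mul_apply, mul_one, ha j hj i]

theorem R0_le_Q : (R0 : Subgroup (SLG m F)) ≤ Q := by
  intro g hg
  have hup : (g : Matrix (Fin (m + 2)) (Fin (m + 2)) F).IsUpperTriangular := fun i j (hij : j < i) => by
    have hi : i ≠ 0 := (lt_of_le_of_lt (Fin.zero_le j) hij).ne'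
    rw [hg i hi j, Matrix.one_apply_ne (ne_of_gt hij)]
  refine ⟨hup, fun i => ?_⟩
  by_cases hi : i = 0
  · subst hi
    have := g.2
    rw [det_of_isUpperTriangular hup, Finset.prod_eq_single 0
      (fun k _ hk => by rw [hg k hk k, Matrix.one_apply_eq]) (by simp)] at this
    exact this
  · rw [hg i hi i, Matrix.one_apply_eq]

theorem Rl_le_Q : (Rl : Subgroup (SLG m F)) ≤ Q := by
  intro g hg
  have hup : (g : Matrix (Fin (m + 2)) (Fin (m + 2)) F).IsUpperTriangular := fun i j (hij : j < i) => by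
    have hj : j ≠ Fin.last (m + 1) := (lt_of_lt_of_le hij (Fin.le_last i)).ne
    rw [hg j hj i, Matrix.one_apply_ne (ne_of_gt hij)]
  refine ⟨hup, fun i => ?_⟩
  by_cases hi : i = Fin.last (m + 1)
  · subst hi
    have := g.2
    rw [det_of_isUpperTriangular hup, Finset.prod_eq_single (Fin.last (m + 1))
      (fun k _ hk => by rw [hg k hk k, Matrix.one_apply_eq]) (by simp)] at this
    exact this
  · rw [hg i hi i, Matrix.one_apply_eq]

theorem transvection_mem_Q {i j : (Fin (m + 2))} (hij : i < j) (x : F) :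
    Matrix.SpecialLinearGroup.transvection hij.ne x ∈ (Q : Subgroup (SLG m F)) := by
  refine ⟨fun a b (hab : b < a) => ?_, fun a => ?_⟩
  · rw [transvection_coe, Matrix.add_apply, Matrix.one_apply_ne (ne_of_gt hab),
      Matrix.single_apply_of_ne]
    · simp
    · rintro ⟨rfl, rfl⟩
      exact lt_asymm hij hab
  · rw [transvection_coe, Matrix.add_apply, Matrix.one_apply_eq, Matrix.single_apply_of_ne]
    · simp
    · rintro ⟨rfl, h⟩
      exact hij.ne h.symm

theorem transvection_mem_R0 {k : (Fin (m + 2))} (hk : (0 : (Fin (m + 2))) ≠ k) (x : F) :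
    Matrix.SpecialLinearGroup.transvection hk x ∈ (R0 : Subgroup (SLG m F)) := by
  intro i hi j
  rw [transvection_coe, Matrix.add_apply, Matrix.single_apply_of_ne, add_zero]
  exact fun h => hi h.1.symm

theorem transvection_mem_Rl {k : (Fin (m + 2))} (hk : k ≠ Fin.last (m + 1)) (x : F) :
    Matrix.SpecialLinearGroup.transvection hk x ∈ (Rl : Subgroup (SLG m F)) := by
  intro j hj i
  rw [transvection_coe, Matrix.add_apply, Matrix.single_apply_of_ne, add_zero]
  exact fun h => hj h.2.symm

section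
variable (r : ℕ) [Fact r.Prime] [CharP F r]

theorem Q_pgroup : IsPGroup r (Q : Subgroup (SLG m F)) := by
  rintro ⟨g, hg⟩
  set N : Matrix (Fin (m + 2)) (Fin (m + 2)) F := (g : Matrix (Fin (m + 2)) (Fin (m + 2)) F) - 1 with hN
  have hup : N.IsUpperTriangular := hg.1.sub blockTriangular_one
  have hcp : N.charpoly = Polynomial.X ^ (m + 2) := by
    rw [charpoly_of_isUpperTriangular _ hup]
    simp [hN, hg.2]
  have hnil : N ^ (m + 2) = 0 := by simpa [hcp] using N.aeval_self_charpoly
  obtain ⟨k, hk⟩ : ∃ k, m + 2 ≤ r ^ k :=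
    ⟨m + 2, (Nat.lt_pow_self (Fact.out : r.Prime).one_lt).le⟩
  refine ⟨k, Subtype.ext (Subtype.ext ?_)⟩
  show coeMonoidHom (g ^ r ^ k) = 1
  rw [map_pow, coeMonoidHom_apply, show (g : Matrix (Fin (m + 2)) (Fin (m + 2)) F) = 1 + N by rw [hN]; abel,
    add_pow_char_pow_of_commute (p := r) (n := k) (Commute.one_left N), one_pow,
    pow_eq_zero_of_le hk hnil, add_zero]

end


theorem coe_mul_inv (a : (SLG m F)) : (a : Matrix (Fin (m + 2)) (Fin (m + 2)) F) * (a⁻¹ : (SLG m F)) = 1 := by
  rw [← coe_mul, mul_inv_cancel, coe_one]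

theorem coe_inv_mul (a : (SLG m F)) : ((a⁻¹ : (SLG m F)) : Matrix (Fin (m + 2)) (Fin (m + 2)) F) * a = 1 := by
  rw [← coe_mul, inv_mul_cancel, coe_one]

/-- Commutation with an elementary matrix, entrywise. -/
theorem entries_of_commute {g : Matrix (Fin (m + 2)) (Fin (m + 2)) F} {i j : (Fin (m + 2))}
    (h : Commute (Matrix.single i j (1 : F)) g) :
    (∀ k, k ≠ i → g k i = 0) ∧ (∀ k, k ≠ j → g j k = 0) ∧ g i i = g j j := by
  have e : ∀ a b, ((Matrix.single i j (1 : F)) * g) a b =
      (g * Matrix.single i j (1 : F) : Matrix (Fin (m + 2)) (Fin (m + 2)) F) a b :=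
    fun a b => by rw [h.eq]
  refine ⟨fun k hk => ?_, fun k hk => ?_, ?_⟩
  · have := e k j
    simpa [hk] using this.symm
  · have := e i k
    simpa [hk] using this
  · have := e i j
    simpa using this.symm

theorem commute_of_map_commute (r : ℕ) [Fact r.Prime] [CharP F r] {g : (SLG m F)} {i j : (Fin (m + 2))}
    (hij : i ≠ j) (h : Commute ((qm m F) g) ((qm m F) (Matrix.SpecialLinearGroup.transvection hij 1))) :
    Commute (Matrix.single i j (1 : F)) (g : Matrix (Fin (m + 2)) (Fin (m + 2)) F) := by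
  set T := Matrix.SpecialLinearGroup.transvection hij (1 : F) with hT
  set z := T⁻¹ * (g * T * g⁻¹) with hz
  have hzc : z ∈ Subgroup.center (SLG m F) := by
    rw [← QuotientGroup.eq_one_iff (N := Subgroup.center (SLG m F))]
    show (qm m F) z = 1
    rw [hz, map_mul, map_mul, map_mul, map_inv, map_inv, h.eq, mul_inv_cancel_right, inv_mul_cancel]
  have hTr : T ^ r = 1 := by
    have : ∀ k : ℕ, T ^ k = Matrix.SpecialLinearGroup.transvection hij (k : F) := by
      intro k
      induction k with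
      | zero => simp
      | succ k ih => rw [pow_succ, ih, Nat.cast_succ, transvection_add]
    rw [this, CharP.cast_eq_zero, transvection_coeff_zero]
  have hzr : z ^ r = 1 := by
    have e : g * T * g⁻¹ = T * z := by rw [hz]; group
    have hcom : Commute T z := Subgroup.mem_center_iff.1 hzc T
    have := congrArg (· ^ r) e
    simp only [conj_pow, hcom.mul_pow, hTr, mul_one, mul_inv_cancel, one_mul] at this
    exact this.symm
  have hz1 : z = 1 := by
    obtain ⟨c, -, hc⟩ := mem_center_iff.1 hzc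
    have h1 := congrArg coeMonoidHom hzr
    rw [map_pow, coeMonoidHom_apply, map_one, ← hc, ← map_pow] at h1
    have h2 : c ^ r = 1 := by simpa using congrFun (congrFun h1 (0 : (Fin (m + 2)))) 0
    have h3 : c = 1 := frobenius_inj F r (by rw [frobenius_def, frobenius_def, h2, one_pow])
    exact Subtype.ext (by rw [← hc, h3, map_one]; rfl)
  have hgT : g * T = T * g := by
    rw [hz, inv_mul_eq_one] at hz1
    exact (mul_inv_eq_iff_eq_mul.1 hz1.symm)
  have := congrArg Subtype.val hgT
  simp only [coe_mul, hT, transvection_coe, mul_add, add_mul, one_mul, mul_one] at this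
  exact (add_left_cancel this).symm

section

theorem centralizer_R0 (r : ℕ) [Fact r.Prime] [CharP F r] :
    Subgroup.centralizer (((R0 : Subgroup (SLG m F)).map (qm m F) : Subgroup (PSLG m F)) : Set (PSLG m F)) ≤
      (R0 : Subgroup (SLG m F)).map (qm m F) := by
  intro a ha
  obtain ⟨g, rfl⟩ := QuotientGroup.mk'_surjective _ a
  have key : ∀ k : (Fin (m + 2)), (0 : (Fin (m + 2))) ≠ k → Commute (Matrix.single 0 k (1 : F)) (g : Matrix (Fin (m + 2)) (Fin (m + 2)) F) :=
    fun k hk => commute_of_map_commute r hk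
      (Subgroup.mem_centralizer_iff.1 ha _ ⟨_, transvection_mem_R0 hk 1, rfl⟩).symm
  set c := g (0 : (Fin (m + 2))) 0 with hc
  have hrow : ∀ i : (Fin (m + 2)), i ≠ 0 → ∀ j, g i j = if i = j then c else 0 := by
    intro i hi j
    obtain ⟨-, h2, h3⟩ := entries_of_commute (key i hi.symm)
    split_ifs with h
    · subst h; exact h3.symm
    · exact h2 j (Ne.symm h)
  have hup : (g : Matrix (Fin (m + 2)) (Fin (m + 2)) F).IsUpperTriangular := fun i j (hij : j < i) => by
    rw [hrow i (lt_of_le_of_lt (Fin.zero_le j) hij).ne' j, if_neg (ne_of_gt hij)]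
  have hdet : c ^ (m + 2) = 1 := by
    have := g.2
    rw [det_of_isUpperTriangular hup, Finset.prod_congr rfl (fun i _ => show g i i = c by
      by_cases hi : i = 0
      · subst hi; rfl
      · rw [hrow i hi i, if_pos rfl])] at this
    simpa using this
  have hc0 : c ≠ 0 := fun h => by simp [h] at hdet
  let hg' : (SLG m F) := ⟨c⁻¹ • (g : Matrix (Fin (m + 2)) (Fin (m + 2)) F), by
    rw [det_smul, g.2, mul_one, Fintype.card_fin, inv_pow, hdet, inv_one]⟩
  refine ⟨hg', fun i hi j => ?_, ?_⟩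
  · show c⁻¹ • g i j = _
    rw [hrow i hi j, Matrix.one_apply]
    split_ifs <;> simp [hc0]
  · refine QuotientGroup.eq.2 ?_
    refine mem_center_iff.2 ⟨c, by simpa using hdet, ?_⟩
    have : (g : Matrix (Fin (m + 2)) (Fin (m + 2)) F) = (hg' : Matrix (Fin (m + 2)) (Fin (m + 2)) F) * scalar (Fin (m + 2)) c := by
      simp [hg', smul_smul, mul_inv_cancel₀ hc0, ← smul_one_eq_diagonal]
    rw [coe_mul, this, ← mul_assoc, ← coe_mul, inv_mul_cancel, coe_one, one_mul]

theorem centralizer_Rl (r : ℕ) [Fact r.Prime] [CharP F r] :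
    Subgroup.centralizer (((Rl : Subgroup (SLG m F)).map (qm m F) : Subgroup (PSLG m F)) : Set (PSLG m F)) ≤
      (Rl : Subgroup (SLG m F)).map (qm m F) := by
  intro a ha
  obtain ⟨g, rfl⟩ := QuotientGroup.mk'_surjective _ a
  have key : ∀ k : (Fin (m + 2)), k ≠ Fin.last (m + 1) →
      Commute (Matrix.single k (Fin.last (m + 1)) (1 : F)) (g : Matrix (Fin (m + 2)) (Fin (m + 2)) F) :=
    fun k hk => commute_of_map_commute r hk
      (Subgroup.mem_centralizer_iff.1 ha _ ⟨_, transvection_mem_Rl hk 1, rfl⟩).symm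
  set c := g (Fin.last (m + 1)) (Fin.last (m + 1)) with hc
  have hcol : ∀ j : (Fin (m + 2)), j ≠ Fin.last (m + 1) → ∀ i, g i j = if i = j then c else 0 := by
    intro j hj i
    obtain ⟨h1, -, h3⟩ := entries_of_commute (key j hj)
    split_ifs with h
    · subst h; exact h3
    · exact h1 i h
  have hup : (g : Matrix (Fin (m + 2)) (Fin (m + 2)) F).IsUpperTriangular := fun i j (hij : j < i) => by
    rw [hcol j (lt_of_lt_of_le hij (Fin.le_last i)).ne i, if_neg (ne_of_gt hij)]
  have hdet : c ^ (m + 2) = 1 := by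
    have := g.2
    rw [det_of_isUpperTriangular hup, Finset.prod_congr rfl (fun i _ => show g i i = c by
      by_cases hi : i = Fin.last (m + 1)
      · subst hi; rfl
      · rw [hcol i hi i, if_pos rfl])] at this
    simpa using this
  have hc0 : c ≠ 0 := fun h => by simp [h] at hdet
  let hg' : (SLG m F) := ⟨c⁻¹ • (g : Matrix (Fin (m + 2)) (Fin (m + 2)) F), by
    rw [det_smul, g.2, mul_one, Fintype.card_fin, inv_pow, hdet, inv_one]⟩
  refine ⟨hg', fun j hj i => ?_, ?_⟩
  · show c⁻¹ • g i j = _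
    rw [hcol j hj i, Matrix.one_apply]
    split_ifs <;> simp [hc0]
  · refine QuotientGroup.eq.2 ?_
    refine mem_center_iff.2 ⟨c, by simpa using hdet, ?_⟩
    have : (g : Matrix (Fin (m + 2)) (Fin (m + 2)) F) = (hg' : Matrix (Fin (m + 2)) (Fin (m + 2)) F) * scalar (Fin (m + 2)) c := by
      simp [hg', smul_smul, mul_inv_cancel₀ hc0, ← smul_one_eq_diagonal]
    rw [coe_mul, this, ← mul_assoc, ← coe_mul, inv_mul_cancel, coe_one, one_mul]

end

/-- An element whose first column is a multiple of the first basis vector normalises `R0`. -/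
theorem normalizes_R0 {g : (SLG m F)} (hg : ∀ i, i ≠ (0 : (Fin (m + 2))) → g i 0 = 0) :
    ∀ a ∈ ((R0 : Subgroup (SLG m F)).map (qm m F)), (qm m F) g * a * ((qm m F) g)⁻¹ ∈ (R0 : Subgroup (SLG m F)).map (qm m F) := by
  rintro _ ⟨h, hh, rfl⟩
  refine ⟨g * h * g⁻¹, fun i hi j => ?_, by simp⟩
  have hinv : (g : Matrix (Fin (m + 2)) (Fin (m + 2)) F) * (g⁻¹ : (SLG m F)) = 1 := by
    rw [← coe_mul, mul_inv_cancel, coe_one]
  have : ((g * h * g⁻¹ : (SLG m F)) : Matrix (Fin (m + 2)) (Fin (m + 2)) F) =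
      1 + (g : Matrix (Fin (m + 2)) (Fin (m + 2)) F) * ((h : Matrix (Fin (m + 2)) (Fin (m + 2)) F) - 1) * (g⁻¹ : (SLG m F)) := by
    rw [mul_sub, mul_one, sub_mul, hinv, coe_mul, coe_mul]; abel
  rw [this, Matrix.add_apply]
  have hz : ∀ k, ((g : Matrix (Fin (m + 2)) (Fin (m + 2)) F) * ((h : Matrix (Fin (m + 2)) (Fin (m + 2)) F) - 1)) i k = 0 := by
    intro k
    rw [Matrix.mul_apply]
    refine Finset.sum_eq_zero fun l _ => ?_
    by_cases hl : l = 0
    · subst hl; rw [hg i hi, zero_mul]
    · rw [Matrix.sub_apply, hh l hl k, sub_self, mul_zero]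
  rw [Matrix.mul_apply, Finset.sum_eq_zero (fun k _ => by rw [hz, zero_mul]), add_zero]

/-- An element whose last row is a multiple of the last basis vector normalises `Rl`. -/
theorem normalizes_Rl {g : (SLG m F)} (hg : ∀ j, j ≠ Fin.last (m + 1) → g (Fin.last (m + 1)) j = 0) :
    ∀ a ∈ ((Rl : Subgroup (SLG m F)).map (qm m F)), (qm m F) g * a * ((qm m F) g)⁻¹ ∈ (Rl : Subgroup (SLG m F)).map (qm m F) := by
  rintro _ ⟨h, hh, rfl⟩
  refine ⟨g * h * g⁻¹, fun j hj i => ?_, by simp⟩
  have hinv : (g : Matrix (Fin (m + 2)) (Fin (m + 2)) F) * (g⁻¹ : (SLG m F)) = 1 := by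
    rw [← coe_mul, mul_inv_cancel, coe_one]
  have hinv' : ((g⁻¹ : (SLG m F)) : Matrix (Fin (m + 2)) (Fin (m + 2)) F) * g = 1 := by
    rw [← coe_mul, inv_mul_cancel, coe_one]
  -- the inverse also preserves the hyperplane
  have hg' : ∀ j, j ≠ Fin.last (m + 1) →
      ((g⁻¹ : (SLG m F)) : Matrix (Fin (m + 2)) (Fin (m + 2)) F) (Fin.last (m + 1)) j = 0 := by
    intro j hj
    have hne : g (Fin.last (m + 1)) (Fin.last (m + 1)) ≠ 0 := fun h0 => by
      have : det (g : Matrix (Fin (m + 2)) (Fin (m + 2)) F) = 0 := det_eq_zero_of_row_eq_zero (Fin.last (m + 1))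
        (fun k => by by_cases hk : k = Fin.last (m + 1); exacts [hk ▸ h0, hg k hk])
      rw [g.2] at this
      exact one_ne_zero this
    have := congrFun (congrFun hinv (Fin.last (m + 1))) j
    rw [Matrix.mul_apply, Finset.sum_eq_single (Fin.last (m + 1))
      (fun k _ hk => by rw [hg k hk, zero_mul]) (by simp), Matrix.one_apply_ne hj.symm] at this
    exact (mul_eq_zero.1 this).resolve_left hne
  have : ((g * h * g⁻¹ : (SLG m F)) : Matrix (Fin (m + 2)) (Fin (m + 2)) F) =
      1 + (g : Matrix (Fin (m + 2)) (Fin (m + 2)) F) * (((h : Matrix (Fin (m + 2)) (Fin (m + 2)) F) - 1) * (g⁻¹ : (SLG m F))) := by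
    rw [sub_mul, one_mul, mul_sub, hinv, coe_mul, coe_mul, mul_assoc]; abel
  rw [this, Matrix.add_apply]
  have hz : ∀ k, (((h : Matrix (Fin (m + 2)) (Fin (m + 2)) F) - 1) * (g⁻¹ : (SLG m F))) k j = 0 := by
    intro k
    rw [Matrix.mul_apply]
    refine Finset.sum_eq_zero fun l _ => ?_
    by_cases hl : l = Fin.last (m + 1)
    · subst hl; rw [hg' j hj, mul_zero]
    · rw [Matrix.sub_apply, hh l hl k, sub_self, zero_mul]
  rw [Matrix.mul_apply, Finset.sum_eq_zero (fun k _ => by rw [hz, mul_zero]), add_zero]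

section
variable {p : ℕ} [Fact p.Prime] (r : ℕ) [Fact r.Prime] [CharP F r]

/-- An element of the invariant group commutes with every elementary matrix of `Q`. -/
theorem commute_single (hpr : p ≠ r) (hr : r ≠ 2)
    (hbig : 3 < Nat.card F ∨ (p = 2 ∧ 1 ≤ m)) {W : Subgroup (PSLG m F)} (hW : IsElem p W)
    (hinv : ∀ q ∈ (Q : Subgroup (SLG m F)).map (qm m F), ∀ w ∈ W, q * w * q⁻¹ ∈ W) {g : (SLG m F)} (hg : (qm m F) g ∈ W)
    {i j : (Fin (m + 2))} (hij : i < j) : Commute (Matrix.single i j (1 : F)) (g : Matrix (Fin (m + 2)) (Fin (m + 2)) F) := by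
  let : Fintype F := Fintype.ofFinite F
  set N := Matrix.single i j (1 : F) with hNdef
  have hN : N * N = 0 := Matrix.single_mul_single_of_ne _ _ _ _ hij.ne' _
  have h2 : (2 : F) ≠ 0 := Ring.two_ne_zero (by rw [ringChar.eq F r]; exact hr)
  have hp : (p : F) ≠ 0 := fun h => hpr
    ((Nat.prime_dvd_prime_iff_eq Fact.out Fact.out).1 ((CharP.cast_eq_zero_iff F r p).1 h)).symm
  let T : F → (SLG m F) := fun x => Matrix.SpecialLinearGroup.transvection hij.ne x
  let w : (Matrix (Fin (m + 2)) (Fin (m + 2)) F)ˣ := ⟨(g : Matrix (Fin (m + 2)) (Fin (m + 2)) F), (g⁻¹ : (SLG m F)),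
    by rw [← coe_mul, mul_inv_cancel, coe_one], by rw [← coe_mul, inv_mul_cancel, coe_one]⟩
  have hT : ∀ x, (T x : Matrix (Fin (m + 2)) (Fin (m + 2)) F) = 1 + x • N := fun x => by
    simp [T, transvection_coe, hNdef]
  have hTi : ∀ x, (((T x)⁻¹ : (SLG m F)) : Matrix (Fin (m + 2)) (Fin (m + 2)) F) = 1 - x • N := fun x => by
    rw [show (T x)⁻¹ = T (-x) from transvection_inv hij.ne x, hT, neg_smul, sub_eq_add_neg]
  have hM : ∀ x, ((T x * g * (T x)⁻¹ : (SLG m F)) : Matrix (Fin (m + 2)) (Fin (m + 2)) F) =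
      Quad.M N (w : Matrix (Fin (m + 2)) (Fin (m + 2)) F) x := fun x => by
    rw [coe_mul, coe_mul, hT, hTi]; rfl
  have hmem : ∀ x, (qm m F) (T x * g * (T x)⁻¹) ∈ W := fun x => by
    rw [map_mul, map_mul, map_inv]
    exact hinv _ ⟨_, transvection_mem_Q hij x, rfl⟩ _ hg
  have hlam : ∀ x y : F, ∃ l : F, Quad.M N (w : Matrix (Fin (m + 2)) (Fin (m + 2)) F) x * Quad.M N w y =
      l • (Quad.M N (w : Matrix (Fin (m + 2)) (Fin (m + 2)) F) y * Quad.M N w x) := by
    intro x y
    set gx := T x * g * (T x)⁻¹ with hgx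
    set gy := T y * g * (T y)⁻¹ with hgy
    have hz : (gy * gx)⁻¹ * (gx * gy) ∈ Subgroup.center (SLG m F) := by
      rw [← QuotientGroup.eq_one_iff (N := Subgroup.center (SLG m F))]
      have hx := hmem x
      have hy := hmem y
      rw [← hgx] at hx
      rw [← hgy] at hy
      clear_value gx gy
      show (qm m F) _ = 1
      rw [map_mul, map_inv, map_mul, map_mul, hW.1 _ hx _ hy, inv_mul_cancel]
    obtain ⟨c, -, hc⟩ := mem_center_iff.1 hz
    refine ⟨c, ?_⟩
    rw [← hM, ← hM, ← hgx, ← hgy, ← coe_mul, ← coe_mul]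
    calc ((gx * gy : (SLG m F)) : Matrix (Fin (m + 2)) (Fin (m + 2)) F)
        = ((gy * gx * ((gy * gx)⁻¹ * (gx * gy)) : (SLG m F)) : Matrix (Fin (m + 2)) (Fin (m + 2)) F) := by
          rw [mul_inv_cancel_left]
      _ = _ := by rw [coe_mul, ← hc]; simp [← smul_one_eq_diagonal]
  have hgp : (g : (SLG m F)) ^ p ∈ Subgroup.center (SLG m F) := by
    rw [← QuotientGroup.eq_one_iff (N := Subgroup.center (SLG m F))]
    show (qm m F) _ = 1
    rw [map_pow, hW.2 _ hg]
  obtain ⟨s, -, hs⟩ := mem_center_iff.1 hgp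
  have hs' : (w : Matrix (Fin (m + 2)) (Fin (m + 2)) F) ^ p = scalar (Fin (m + 2)) s := by
    show (g : Matrix (Fin (m + 2)) (Fin (m + 2)) F) ^ p = _
    rw [hs]; exact (map_pow coeMonoidHom g p).symm
  have hcp : ∀ B : Matrix (Fin (m + 2)) (Fin (m + 2)) F, Commute B ((w : Matrix (Fin (m + 2)) (Fin (m + 2)) F) ^ p) := fun B => by
    rw [hs']; exact (scalar_commute s (fun _ => mul_comm _ _) B).symm
  have finish : ∀ x y : F, x ≠ y →
      Commute (Quad.M N (w : Matrix (Fin (m + 2)) (Fin (m + 2)) F) x) (Quad.M N w y) → Commute N (g : Matrix (Fin (m + 2)) (Fin (m + 2)) F) := by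
    intro x y hne hc
    have hc0 : Commute (w : Matrix (Fin (m + 2)) (Fin (m + 2)) F) (Quad.M N w (y - x)) := by
      have e : ∀ a b : Matrix (Fin (m + 2)) (Fin (m + 2)) F, (1 + (-x) • N) * a * (1 - (-x) • N) *
          ((1 + (-x) • N) * b * (1 - (-x) • N)) = (1 + (-x) • N) * (a * b) * (1 - (-x) • N) :=
        fun a b => by
          calc _ = (1 + (-x) • N) * a * ((1 - (-x) • N) * (1 + (-x) • N)) * b * (1 - (-x) • N) := by
                noncomm_ring
            _ = _ := by rw [Quad.one_sub_mul_add hN]; noncomm_ring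
      have ha := Quad.M_add hN (w : Matrix (Fin (m + 2)) (Fin (m + 2)) F) (-x) x
      have hb := Quad.M_add hN (w : Matrix (Fin (m + 2)) (Fin (m + 2)) F) (-x) y
      rw [neg_add_cancel, Quad.M_zero] at ha
      rw [neg_add_eq_sub] at hb
      have h3 : ∀ a b : Matrix (Fin (m + 2)) (Fin (m + 2)) F, Commute a b → Commute
          ((1 + (-x) • N) * a * (1 - (-x) • N)) ((1 + (-x) • N) * b * (1 - (-x) • N)) :=
        fun a b h => by show _ = _; rw [e, e, h.eq]
      have h4 := h3 _ _ hc
      rwa [ha, hb] at h4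
    have hzne : y - x ≠ 0 := sub_ne_zero.2 (Ne.symm hne)
    have hres := Quad.commute_of_quadratic (F := F) (N := (y - x) • N)
      (by rw [smul_mul_smul_comm, hN, smul_zero]) w h2 hp ((hcp N).smul_left _)
      (by simpa [Quad.M] using hc0)
    have := hres.smul_left (y - x)⁻¹
    rwa [smul_smul, inv_mul_cancel₀ hzne, one_smul] at this
  by_cases hq : 3 < Nat.card F
  · obtain ⟨x, -, y, -, hne, hc⟩ := Quad.exists_commute_conj hN w (Finset.univ : Finset F)
      (by rwa [Finset.card_univ, ← Nat.card_eq_fintype_card]) (fun x _ y _ => hlam x y)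
    exact finish x y hne hc
  obtain ⟨rfl, hm⟩ := hbig.resolve_left hq
  obtain ⟨l, hl⟩ := hlam 0 1
  rw [Quad.M_zero] at hl
  set M1 := Quad.M N (w : Matrix (Fin (m + 2)) (Fin (m + 2)) F) (1 : F) with hM1def
  by_cases hl1 : l = 1
  · refine finish 0 1 zero_ne_one ?_
    rw [Quad.M_zero, ← hM1def]
    rw [hl1, one_smul] at hl
    exact hl
  exfalso
  -- the square of `w` is scalar, so `w` and its conjugate anticommute
  have hM1u : IsUnit (M1 * (w : Matrix (Fin (m + 2)) (Fin (m + 2)) F)) := by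
    refine IsUnit.mul ?_ w.isUnit
    rw [hM1def, ← hM]
    exact ⟨⟨_, ((T 1 * g * (T 1)⁻¹)⁻¹ : (SLG m F)), coe_mul_inv _, coe_inv_mul _⟩, rfl⟩
  have hll : l * l = 1 := by
    have h1 : (w : Matrix (Fin (m + 2)) (Fin (m + 2)) F) * ((w : Matrix (Fin (m + 2)) (Fin (m + 2)) F) * M1) =
        (l * l) • (M1 * ((w : Matrix (Fin (m + 2)) (Fin (m + 2)) F) * w)) := by
      rw [hl, mul_smul_comm, ← mul_assoc, hl, smul_mul_assoc, smul_smul, mul_assoc]
    have h3 : M1 * ((w : Matrix (Fin (m + 2)) (Fin (m + 2)) F) * w) = (w : Matrix (Fin (m + 2)) (Fin (m + 2)) F) * ((w : Matrix (Fin (m + 2)) (Fin (m + 2)) F) * M1) := by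
      rw [← mul_assoc (w : Matrix (Fin (m + 2)) (Fin (m + 2)) F) w M1, ← pow_two, (hcp M1).eq]
    rw [← h3] at h1
    have h4 : (l * l - 1) • (M1 * ((w : Matrix (Fin (m + 2)) (Fin (m + 2)) F) * w)) = 0 := by
      rw [sub_smul, one_smul, ← h1, sub_self]
    refine sub_eq_zero.1 ((smul_eq_zero.1 h4).resolve_right ?_)
    rw [← mul_assoc]
    exact (hM1u.mul w.isUnit).ne_zero
  have hlm : l = -1 := (mul_self_eq_one_iff.1 hll).resolve_left hl1
  -- a vector fixed by `N` and whose image under `w` is fixed by `N`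
  let φ : ((Fin (m + 2)) → F) →ₗ[F] (Fin 2 → F) := LinearMap.pi
    ![LinearMap.proj j, (LinearMap.proj j).comp (Matrix.mulVecLin (w : Matrix (Fin (m + 2)) (Fin (m + 2)) F))]
  obtain ⟨v, hv, hv0⟩ := Submodule.exists_mem_ne_zero_of_ne_bot
    (LinearMap.ker_ne_bot_of_finrank_lt (f := φ) (by simp; omega))
  have hv1 : v j = 0 := by simpa [φ] using congrFun (LinearMap.mem_ker.1 hv) 0
  have hv2 : ((w : Matrix (Fin (m + 2)) (Fin (m + 2)) F) *ᵥ v) j = 0 := by
    simpa [φ] using congrFun (LinearMap.mem_ker.1 hv) 1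
  have hNv : ∀ u : (Fin (m + 2)) → F, u j = 0 → N *ᵥ u = 0 := fun u hu => by
    simp [hNdef, Matrix.single_mulVec_eq, hu]
  have hMv : M1 *ᵥ v = (w : Matrix (Fin (m + 2)) (Fin (m + 2)) F) *ᵥ v := by
    rw [hM1def, Quad.M, one_smul, ← Matrix.mulVec_mulVec, ← Matrix.mulVec_mulVec,
      Matrix.sub_mulVec, Matrix.one_mulVec, hNv v hv1, sub_zero, Matrix.add_mulVec,
      Matrix.one_mulVec, hNv _ hv2, add_zero]
  have hsq : M1 * M1 = scalar (Fin (m + 2)) s := by
    rw [hM1def, ← hM, ← coe_mul]
    have : T 1 * g * (T 1)⁻¹ * (T 1 * g * (T 1)⁻¹) = T 1 * (g ^ 2) * (T 1)⁻¹ := by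
      rw [pow_two]; group
    rw [this, Subgroup.mem_center_iff.1 hgp (T 1), mul_inv_cancel_right, hs]
  have e1 : ((w : Matrix (Fin (m + 2)) (Fin (m + 2)) F) * M1) *ᵥ v = scalar (Fin (m + 2)) s *ᵥ v := by
    rw [← Matrix.mulVec_mulVec, hMv, Matrix.mulVec_mulVec, ← pow_two, hs']
  have e2 : (M1 * (w : Matrix (Fin (m + 2)) (Fin (m + 2)) F)) *ᵥ v = scalar (Fin (m + 2)) s *ᵥ v := by
    rw [← Matrix.mulVec_mulVec, ← hMv, Matrix.mulVec_mulVec, hsq]
  rw [hl, hlm, Matrix.smul_mulVec, e2, neg_one_smul, neg_eq_iff_add_eq_zero, ← two_smul F,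
    smul_eq_zero] at e1
  have e3 := e1.resolve_left h2
  rw [← hsq, ← Matrix.mulVec_mulVec] at e3
  have hM1 : IsUnit M1 := by
    rw [hM1def, ← hM]
    exact ⟨⟨_, ((T 1 * g * (T 1)⁻¹)⁻¹ : (SLG m F)), coe_mul_inv _, coe_inv_mul _⟩, rfl⟩
  have hinj := Matrix.mulVec_injective_of_isUnit hM1
  exact hv0 (hinj (hinj (by rw [e3, Matrix.mulVec_zero, Matrix.mulVec_zero])))

end

/-- In rank one an automorphism fixing the upper triangular subgroup fixes the lower root
group. -/
theorem fix_lower_two {p : ℕ} [Fact p.Prime] (hp : (p : F) ≠ 0)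
    (α : MulAut (Matrix.ProjectiveSpecialLinearGroup (Fin 2) F)) (hα : α ^ p = 1)
    (fix0 : ∀ g : Matrix.SpecialLinearGroup (Fin 2) F, g 1 0 = 0 →
      α (QuotientGroup.mk' (Subgroup.center _) g) = QuotientGroup.mk' (Subgroup.center _) g)
    (x : F) :
    α (QuotientGroup.mk' (Subgroup.center _)
        (Matrix.SpecialLinearGroup.transvection (one_ne_zero (α := Fin 2)) x)) =
      QuotientGroup.mk' (Subgroup.center _)
        (Matrix.SpecialLinearGroup.transvection (one_ne_zero (α := Fin 2)) x) := by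
  set P := QuotientGroup.mk' (Subgroup.center (Matrix.SpecialLinearGroup (Fin 2) F)) with hP
  by_cases hx : x = 0
  · simp [hx]
  let u : F → Matrix.SpecialLinearGroup (Fin 2) F := fun s =>
    Matrix.SpecialLinearGroup.transvection (zero_ne_one (α := Fin 2)) s
  let W0 : Matrix.SpecialLinearGroup (Fin 2) F := ⟨!![0, 1; -1, 0], by simp [Matrix.det_fin_two]⟩
  have hu10 : ∀ s, u s 1 0 = 0 := fun s => by simp [u, transvection_coe]
  have hu : ∀ s, (u s : Matrix (Fin 2) (Fin 2) F) = !![1, s; 0, 1] := fun s => by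
    ext i j; fin_cases i <;> fin_cases j <;> simp [u, transvection_coe]
  have hWi : ((W0⁻¹ : Matrix.SpecialLinearGroup (Fin 2) F) : Matrix (Fin 2) (Fin 2) F) =
      !![0, -1; 1, 0] := by
    rw [coe_inv]; ext i j; fin_cases i <;> fin_cases j <;> simp [W0, Matrix.adjugate_fin_two]
  have hui : ∀ s, (u s)⁻¹ = u (-s) := fun s => transvection_inv _ s
  have hup : ∀ a b : Matrix.SpecialLinearGroup (Fin 2) F, a 1 0 = 0 → b 1 0 = 0 →
      (a * b) 1 0 = 0 := fun a b ha hb => by
    simp [Matrix.mul_apply, Fin.sum_univ_two, ha, hb]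
  have hupi : ∀ a : Matrix.SpecialLinearGroup (Fin 2) F, a 1 0 = 0 → (a⁻¹) 1 0 = 0 :=
    fun a ha => by rw [coe_inv, Matrix.adjugate_fin_two]; simp [ha]
  have hcen : ∀ a : Matrix.SpecialLinearGroup (Fin 2) F, a ∈ Subgroup.center _ →
      a 1 0 = 0 ∧ a 0 0 = a 1 1 := fun a ha => by
    obtain ⟨c, -, hc⟩ := mem_center_iff.1 ha
    rw [← hc]; simp
  -- the image of `W0`
  obtain ⟨g, hg⟩ := QuotientGroup.mk'_surjective _ (α (P W0))
  have hg10 : g 1 0 ≠ 0 := by
    intro h0
    have e : α (P g) = P g := fix0 g h0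
    rw [hP, hg] at e
    have e2 : P g = P W0 := by rw [hP, hg]; exact α.injective e
    obtain ⟨hz, hz'⟩ := hcen _ (QuotientGroup.eq.1 e2.symm)
    rw [coe_mul, hWi] at hz hz'
    simp [Matrix.mul_apply, Fin.sum_univ_two] at hz hz'
    have := g.2
    rw [Matrix.det_fin_two, h0, hz, zero_mul, mul_zero, sub_zero] at this
    exact zero_ne_one this
  set s := g 0 0 / g 1 0 with hs
  set b := W0⁻¹ * (u s)⁻¹ * g with hb
  have hb10 : b 1 0 = 0 := by
    rw [hb, hui, coe_mul, coe_mul, hWi, hu]
    simp [Matrix.mul_apply, Fin.sum_univ_two, hs, hg10]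
  have haW : α (P W0) = P (u s * W0 * b) := by
    rw [hP, ← hg]; congr 1; rw [hb]; group
  have hαk : ∀ k : ℕ, ∃ bk : Matrix.SpecialLinearGroup (Fin 2) F, bk 1 0 = 0 ∧
      (α ^ k) (P W0) = P (u (k * s) * W0 * bk) := by
    intro k
    induction k with
    | zero => exact ⟨1, by simp, by simp [u]⟩
    | succ k ih =>
      obtain ⟨bk, hbk, e⟩ := ih
      refine ⟨b * bk, hup _ _ hb10 hbk, ?_⟩
      have e1 : u ((k + 1 : ℕ) * s) = u (k * s) * u s := by
        simp only [u]; rw [← transvection_add]; congr 1; push_cast; ring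
      rw [pow_succ', MulAut.mul_apply, e, map_mul P, map_mul P, map_mul α, map_mul α,
        fix0 _ (hu10 _), fix0 _ hbk, haW, e1]
      simp only [map_mul, mul_assoc]
  obtain ⟨bp, hbp, hbpe⟩ := hαk p
  rw [hα, MulAut.one_apply] at hbpe
  have hs0 : s = 0 := by
    obtain ⟨c, -, hc⟩ := mem_center_iff.1 (QuotientGroup.eq.1 hbpe.symm)
    have e : ((u (p * s) * W0 * bp : Matrix.SpecialLinearGroup (Fin 2) F) :
        Matrix (Fin 2) (Fin 2) F) * scalar (Fin 2) c = W0 := by
      rw [hc, ← coe_mul, mul_inv_cancel_left]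
    have e00 := congrFun (congrFun e 0) 0
    rw [coe_mul, coe_mul, hu] at e00
    simp only [Matrix.mul_apply, Fin.sum_univ_two] at e00
    simp [W0, hbp, hp] at e00
    have hb00 : bp 0 0 ≠ 0 := fun h => by
      have := bp.2
      rw [Matrix.det_fin_two, h, hbp] at this
      simp at this
    rcases e00 with (h | h) | h
    · exact h
    · exact absurd h hb00
    · exfalso
      have := congrArg Matrix.det e
      simp [h] at this
  rw [hs0] at haW
  have hu0 : u 0 = 1 := transvection_coeff_zero _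
  rw [hu0, one_mul] at haW
  -- two descriptions of the image of the transvection
  set h := Matrix.SpecialLinearGroup.transvection (one_ne_zero (α := Fin 2)) x with hh
  have hhm : (h : Matrix (Fin 2) (Fin 2) F) = !![1, 0; x, 1] := by
    ext i j; fin_cases i <;> fin_cases j <;> simp [hh, transvection_coe]
  have h1 : h = W0 * u (-x) * W0⁻¹ := by
    apply Subtype.ext
    rw [coe_mul, coe_mul, hWi, hu, hhm]
    ext i j; fin_cases i <;> fin_cases j <;> simp [W0, Matrix.mul_apply, Fin.sum_univ_two]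
  set d := W0⁻¹ * (u x⁻¹)⁻¹ * h * (u x⁻¹)⁻¹ with hd
  have hd10 : d 1 0 = 0 := by
    rw [hd, hui, coe_mul, coe_mul, coe_mul, hWi, hu, hhm]
    simp [Matrix.mul_apply, Fin.sum_univ_two, hx]
  have h2 : h = u x⁻¹ * W0 * d * u x⁻¹ := by rw [hd]; group
  set e := b * u (-x) * b⁻¹ with he
  have hA : α (P h) = P (W0 * e * W0⁻¹) := by
    rw [h1, map_mul P, map_mul P, map_inv P, map_mul α, map_mul α, map_inv α, haW,
      fix0 _ (hu10 _), he]
    simp only [map_mul, map_inv, _root_.mul_inv_rev, mul_assoc]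
  set U1 := (u x⁻¹)⁻¹ * d⁻¹ * b * d * u x⁻¹ with hU1
  have hU10 : U1 1 0 = 0 :=
    hup _ _ (hup _ _ (hup _ _ (hup _ _ (hupi _ (hu10 _)) (hupi _ hd10)) hb10) hd10) (hu10 _)
  have hB : α (P h) = P (h * U1) := by
    rw [show h * U1 = u x⁻¹ * (W0 * b) * d * u x⁻¹ by rw [hU1, h2]; group,
      h2, map_mul P, map_mul P, map_mul P, map_mul α, map_mul α, map_mul α, haW,
      fix0 _ (hu10 _), fix0 _ hd10]
    simp only [map_mul]
  have hz := QuotientGroup.eq.1 (hB.symm.trans hA)
  set V := h⁻¹ * (W0 * e * W0⁻¹) with hV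
  have hV10 : V 1 0 = 0 := by
    have : V = U1 * ((h * U1)⁻¹ * (W0 * e * W0⁻¹)) := by rw [hV]; group
    rw [this]
    exact hup _ _ hU10 (hcen _ hz).1
  have he10 : e 1 0 = 0 := hup _ _ (hup _ _ hb10 (hu10 _)) (hupi _ hb10)
  have hb00 : b 0 0 * b 1 1 = 1 := by
    have := b.2
    rwa [Matrix.det_fin_two, hb10, mul_zero, sub_zero] at this
  have he00 : e 0 0 = 1 ∧ e 1 1 = 1 := by
    constructor <;>
    · simp [he, Matrix.mul_apply, Fin.sum_univ_two, hu, hb10, Matrix.adjugate_fin_two]
      first | exact hb00 | (rw [mul_comm]; exact hb00)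
  have hV1 : V = 1 := by
    have hhi : h⁻¹ = Matrix.SpecialLinearGroup.transvection (one_ne_zero (α := Fin 2)) (-x) :=
      transvection_inv _ x
    rw [hV, coe_mul, coe_mul, coe_mul, hhi, hWi] at hV10
    simp only [Matrix.mul_apply, Fin.sum_univ_two] at hV10
    simp [transvection_coe, W0, he10, he00] at hV10
    apply Subtype.ext
    rw [hV, coe_mul, coe_mul, coe_mul, hhi, hWi]
    ext i j
    fin_cases i <;> fin_cases j <;>
      simp only [Matrix.mul_apply, Fin.sum_univ_two] <;>
      simp [transvection_coe, W0, he10, he00]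
    exact hV10
  rw [hV, inv_mul_eq_one] at hV1
  rw [hA, ← hV1]

/-- **Projective special linear groups have Robinson subgroups.** -/
theorem hasRobinson_psl {p r : ℕ} [Fact p.Prime] [Fact r.Prime] [CharP F r] (hpr : p ≠ r)
    (hr : r ≠ 2) (hbig : 3 < Nat.card F ∨ (p = 2 ∧ 1 ≤ m)) : HasRobinson p r (PSLG m F) := by
  have hp : (p : F) ≠ 0 := fun h => hpr
    ((Nat.prime_dvd_prime_iff_eq Fact.out Fact.out).1 ((CharP.cast_eq_zero_iff F r p).1 h)).symm
  refine ⟨(Q : Subgroup (SLG m F)).map (qm m F), ?_, (Q_pgroup r).map _, fun W hW hinv => ?_, fun α hα hfix => ?_⟩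
  · intro h
    have hij : (0 : (Fin (m + 2))) < Fin.last (m + 1) := Fin.last_pos
    have : (qm m F) (Matrix.SpecialLinearGroup.transvection hij.ne (1 : F)) ∈ (Q : Subgroup (SLG m F)).map (qm m F) :=
      ⟨_, transvection_mem_Q hij 1, rfl⟩
    rw [h, Subgroup.mem_bot] at this
    exact one_ne_zero ((transvection_mem_center_iff hij.ne (1 : F)).1
      ((QuotientGroup.eq_one_iff _).1 this))
  · rw [Subgroup.eq_bot_iff_forall]
    intro a ha
    obtain ⟨g, rfl⟩ := QuotientGroup.mk'_surjective _ a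
    set l := Fin.last (m + 1) with hl
    have key := fun {i j : (Fin (m + 2))} (hij : i < j) =>
      entries_of_commute (commute_single r hpr hr hbig hW hinv ha hij)
    set c := g (0 : (Fin (m + 2))) 0 with hc
    set d := g (0 : (Fin (m + 2))) l with hd
    have hdiag : ∀ i, g i i = c := by
      intro i
      by_cases hi : i = 0
      · rw [hi]
      · exact (key (Fin.pos_of_ne_zero hi)).2.2.symm
    have hoff : ∀ a b, a ≠ b → ¬ (a = 0 ∧ b = l) → g a b = 0 := by
      intro a b hab hne
      by_cases hb : b = l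
      · have ha0 : a ≠ 0 := fun h => hne ⟨h, hb⟩
        exact (key (Fin.pos_of_ne_zero ha0)).2.1 b hab.symm
      · exact (key (lt_of_le_of_ne (Fin.le_last b) hb)).1 a hab
    set E := Matrix.single (0 : (Fin (m + 2))) l d with hE
    have hl0 : (0 : (Fin (m + 2))) ≠ l := Fin.last_pos.ne
    have hg : (g : Matrix (Fin (m + 2)) (Fin (m + 2)) F) = scalar (Fin (m + 2)) c + E := by
      ext a b
      by_cases hab : a = b
      · subst hab
        rw [Matrix.add_apply, hE, Matrix.single_apply_of_ne (h := fun h => hl0 (h.1.trans h.2.symm)),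
          hdiag]
        simp
      · by_cases h : a = 0 ∧ b = l
        · obtain ⟨rfl, rfl⟩ := h
          simp [hE, hl0, hd]
        · rw [Matrix.add_apply, hE, Matrix.single_apply_of_ne (h := fun e => h ⟨e.1.symm, e.2.symm⟩),
            hoff a b hab h]
          simp [hab]
    have hEE : E * E = 0 := Matrix.single_mul_single_of_ne _ _ _ _ hl0.symm _
    have hgp : (g : (SLG m F)) ^ p ∈ Subgroup.center (SLG m F) := by
      rw [← QuotientGroup.eq_one_iff (N := Subgroup.center (SLG m F))]
      show (qm m F) _ = 1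
      rw [map_pow, hW.2 _ ha]
    obtain ⟨s, -, hs⟩ := mem_center_iff.1 hgp
    have hc0 : c ≠ 0 := by
      intro h0
      have hup : (g : Matrix (Fin (m + 2)) (Fin (m + 2)) F).IsUpperTriangular := fun a b (hab : b < a) =>
        hoff a b (ne_of_gt hab) fun h => absurd hab (by rw [h.1, h.2]; exact not_lt.2 (Fin.zero_le _))
      have := g.2
      rw [det_of_isUpperTriangular hup] at this
      simp [hdiag, h0] at this
    have hsE : ∀ a : F, scalar (Fin (m + 2)) a * E = a • E ∧ E * scalar (Fin (m + 2)) a = a • E := fun a => by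
      simp [← smul_one_eq_diagonal]
    have hpowE : ∀ k : ℕ, (scalar (Fin (m + 2)) c + E) ^ (k + 1) =
        scalar (Fin (m + 2)) (c ^ (k + 1)) + ((k + 1 : ℕ) * c ^ k : F) • E := by
      intro k
      induction k with
      | zero => simp
      | succ k ih =>
        rw [pow_succ, ih, mul_add, add_mul, add_mul, smul_mul_assoc, smul_mul_assoc, hEE,
          smul_zero, add_zero, ← map_mul, ← pow_succ]
        rw [(hsE _).1, (hsE _).2, smul_smul, add_assoc, ← add_smul]
        congr 2
        push_cast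
        ring
    have hd0 : d = 0 := by
      obtain ⟨k, hk⟩ := Nat.exists_eq_succ_of_ne_zero (Fact.out : p.Prime).ne_zero
      have h2 := congrFun (congrFun hs 0) l
      rw [show ((g ^ p : (SLG m F)) : Matrix (Fin (m + 2)) (Fin (m + 2)) F) = (g : Matrix (Fin (m + 2)) (Fin (m + 2)) F) ^ p from map_pow coeMonoidHom g p,
        hg, hk, hpowE] at h2
      simp [hE, hl0] at h2
      have hk' : ((k : F) + 1) ≠ 0 := by rw [hk] at hp; simpa using hp
      rcases h2 with (h2 | h2) | h2
      · exact absurd h2 hk'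
      · exact absurd h2.1 hc0
      · exact h2
    rw [← MonoidHom.mem_ker, QuotientGroup.ker_mk']
    refine mem_center_iff.2 ⟨c, ?_, by rw [hg, hE, hd0, Matrix.single_zero, add_zero]⟩
    have := g.2
    rw [hg, hE, hd0, Matrix.single_zero, add_zero] at this
    simpa using this
  · have hR0 : ((R0 : Subgroup (SLG m F)).map (qm m F)) ≤ (Q : Subgroup (SLG m F)).map (qm m F) := Subgroup.map_mono R0_le_Q
    have hRl : ((Rl : Subgroup (SLG m F)).map (qm m F)) ≤ (Q : Subgroup (SLG m F)).map (qm m F) := Subgroup.map_mono Rl_le_Q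
    have fix0 : ∀ g : (SLG m F), (∀ i, i ≠ (0 : (Fin (m + 2))) → g i 0 = 0) → α ((qm m F) g) = (qm m F) g := fun g hg =>
      fixed_normalizer hpr (((Q_pgroup r).to_le R0_le_Q).map _) (centralizer_R0 r) hα
        (fun q hq => hfix q (hR0 hq)) (normalizes_R0 hg)
    have fixl : ∀ g : (SLG m F), (∀ j, j ≠ Fin.last (m + 1) → g (Fin.last (m + 1)) j = 0) →
        α ((qm m F) g) = (qm m F) g := fun g hg =>
      fixed_normalizer hpr (((Q_pgroup r).to_le Rl_le_Q).map _) (centralizer_Rl r) hα
        (fun q hq => hfix q (hRl hq)) (normalizes_Rl hg)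
    refine MulEquiv.ext fun a => ?_
    obtain ⟨g, rfl⟩ := QuotientGroup.mk'_surjective _ a
    rw [MulAut.one_apply]
    refine diagonal_transvection_induction' (fun g => α ((qm m F) g) = (qm m F) g) g ?_ ?_
      (fun a b ha hb => by rw [map_mul, map_mul, ha, hb])
    · intro i j hij c hc
      exact fix0 _ fun k hk => by rw [diag2n_coe, Matrix.diagonal_apply_ne _ hk]
    intro i j hij x
    by_cases hj : j = 0
    · subst hj
      by_cases hi : i = Fin.last (m + 1)
      · subst hi
        rcases Nat.eq_zero_or_pos m with rfl | hm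
        · exact fix_lower_two hp α hα (fun g hg => fix0 g fun i hi => by
            fin_cases i
            · exact absurd rfl hi
            · exact hg) x
        · set k : (Fin (m + 2)) := 1 with hk
          have hk0 : k ≠ 0 := one_ne_zero
          have hkl : k ≠ Fin.last (m + 1) := by
            intro h
            have := congrArg Fin.val h
            simp [hk] at this
            omega
          set a := Matrix.SpecialLinearGroup.transvection (Ne.symm hkl) x with ha
          set b := Matrix.SpecialLinearGroup.transvection hk0 (1 : F) with hb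
          have fa : α ((qm m F) a) = (qm m F) a := fix0 _ fun i hi => by
            rw [ha, transvection_coe, Matrix.add_apply, Matrix.one_apply_ne hi,
              Matrix.single_apply_of_ne (h := fun h => hk0 h.2), add_zero]
          have fb : α ((qm m F) b) = (qm m F) b := fixl _ fun i hi => by
            rw [hb, transvection_coe, Matrix.add_apply, Matrix.one_apply_ne hi.symm,
              Matrix.single_apply_of_ne (h := fun h => hkl h.1), add_zero]
          have e : Matrix.SpecialLinearGroup.transvection hij x = a * b * a⁻¹ * b⁻¹ := by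
            refine Subtype.ext ?_
            rw [ha, hb, transvection_inv, transvection_inv, coe_mul, coe_mul, coe_mul,
              transvection_coe, transvection_coe, transvection_coe, transvection_coe,
              transvection_coe]
            simp [mul_add, add_mul, Matrix.single_mul_single_of_ne, hkl, hkl.symm, hk0, hk0.symm,
              hij, hij.symm, ← Matrix.single_neg]
            abel
          rw [e, map_mul, map_mul, map_mul, map_mul, map_mul, map_mul, map_inv, map_inv,
            map_inv, map_inv, fa, fb]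
      · refine fixl _ fun k hk => ?_
        rw [transvection_coe, Matrix.add_apply, Matrix.one_apply_ne hk.symm,
          Matrix.single_apply_of_ne (h := fun h => hi h.1), add_zero]
    · refine fix0 _ fun k hk => ?_
      rw [transvection_coe, Matrix.add_apply, Matrix.one_apply_ne hk,
        Matrix.single_apply_of_ne (h := fun h => hj h.2), add_zero]

end Linear

end Vale.Agent.P240
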